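import Mathlib.MeasureTheory.Constructions.Pi
import Mathlib.MeasureTheory.Integral.Lebesgue.Add
import Mathlib.Data.Nat.Choose.Sum
import Mathlib.MeasureTheory.Measure.Prod

/-!
Grand-canonical integrals of functions of finite configurations, seen as multisets.
-/

open MeasureTheory Finset
open scoped ENNReal Nat

namespace Vale.Agent.P171

variable {α : Type*}

/-- The configuration of a tuple. -/
def conf {ι : Type*} [Fintype ι] (x : ι → α) : Multiset α :=
  (univ : Finset ι).val.map x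

theorem conf_comp_equiv {ι κ : Type*} [Fintype ι] [Fintype κ] (e : κ ≃ ι) (x : ι → α) :
    conf (x ∘ e) = conf x := by
  have h := congrArg Finset.val (Finset.map_univ_equiv e)
  rw [Finset.map_val] at h
  simp only [conf]
  rw [← h, Multiset.map_map]
  rfl

theorem conf_split {ι : Type*} [Fintype ι] (p : ι → Prop) [DecidablePred p] (x : ι → α) :
    conf x = conf (fun i : {i // p i} => x i) + conf (fun i : {i // ¬p i} => x i) := by
  have key : ∀ q : ι → Prop, ∀ [DecidablePred q],
      conf (fun i : {i // q i} => x i) = ((univ : Finset ι).filter q).val.map x := by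
    intro q _
    have h : ((univ : Finset {i // q i}).map (Function.Embedding.subtype q))
        = (univ : Finset ι).filter q := by
      ext i; simp
    rw [← h, Finset.map_val, Multiset.map_map]
    rfl
  rw [key p, key (fun i => ¬p i), ← Multiset.map_add]
  simp only [conf, Finset.filter_val]
  rw [Multiset.filter_add_not]

theorem conf_inst {ι : Type*} (i₁ i₂ : Fintype ι) (x : ι → α) :
    @conf α ι i₁ x = @conf α ι i₂ x := by
  rw [Subsingleton.elim i₁ i₂]

theorem conf_split_finset {ι : Type*} [Fintype ι] [DecidableEq ι] (S : Finset ι) (x : ι → α) :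
    conf x = conf (fun i : {i // i ∈ S} => x i) + conf (fun i : {i // i ∉ S} => x i) :=
  (conf_split (fun i => i ∈ S) x).trans (congrArg₂ (· + ·) (conf_inst _ _ _) (conf_inst _ _ _))

theorem mem_conf {ι : Type*} [Fintype ι] {x : ι → α} {a : α} :
    a ∈ conf x ↔ ∃ i, x i = a := by
  simp [conf]

theorem card_conf {ι : Type*} [Fintype ι] (x : ι → α) :
    Multiset.card (conf x) = Fintype.card ι := by
  simp [conf]

variable [MeasurableSpace α]

/-- A function of configurations whose pullback to tuples is measurable. -/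
def ConfMeas (F : Multiset α → ℝ≥0∞) : Prop :=
  ∀ N : ℕ, Measurable fun x : Fin N → α => F (conf x)

theorem ConfMeas.comp_fintype {F : Multiset α → ℝ≥0∞} (hF : ConfMeas F) (ι : Type*) [Fintype ι] :
    Measurable fun x : ι → α => F (conf x) := by
  have h : (fun x : ι → α => F (conf x))
      = (fun y : Fin (Fintype.card ι) → α => F (conf y)) ∘
        fun x => x ∘ (Fintype.equivFin ι).symm := by
    funext x; simp [conf_comp_equiv]
  rw [h]
  exact (hF _).comp (measurable_pi_lambda _ fun i => measurable_pi_apply _)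

/-- The integral over `N`-point configurations. -/
noncomputable def term (ν : Measure α) (F : Multiset α → ℝ≥0∞) (ι : Type*) [Fintype ι] : ℝ≥0∞ :=
  ∫⁻ x : ι → α, F (conf x) ∂Measure.pi fun _ => ν

/-- The grand-canonical integral. -/
noncomputable def GP (ν : Measure α) (F : Multiset α → ℝ≥0∞) : ℝ≥0∞ :=
  ∑' N : ℕ, (N ! : ℝ≥0∞)⁻¹ * term ν F (Fin N)

theorem term_inst (ν : Measure α) (F : Multiset α → ℝ≥0∞) {ι : Type*} (i₁ i₂ : Fintype ι) :
    @term α _ ν F ι i₁ = @term α _ ν F ι i₂ := by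
  rw [Subsingleton.elim i₁ i₂]

theorem term_congr_equiv (ν : Measure α) [SigmaFinite ν] (F : Multiset α → ℝ≥0∞)
    {ι κ : Type*} [Fintype ι] [Fintype κ] (e : κ ≃ ι) :
    term ν F ι = term ν F κ := by
  have h := measurePreserving_piCongrLeft (α := fun _ : ι => α) (fun _ : ι => ν) e
  unfold term
  rw [← h.map_eq, lintegral_map_equiv]
  refine lintegral_congr fun x => ?_
  congr 1
  rw [← conf_comp_equiv e]
  congr 1
  funext i
  exact MeasurableEquiv.piCongrLeft_apply_apply (β := fun _ : ι => α) e x i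

theorem GP_mono {ν : Measure α} {F G : Multiset α → ℝ≥0∞} (h : ∀ s, F s ≤ G s) :
    GP ν F ≤ GP ν G :=
  ENNReal.tsum_le_tsum fun _ => mul_le_mul_right (lintegral_mono fun _ => h _) _

theorem GP_mono_ae {ν : Measure α} [SigmaFinite ν] {A : Set α} (hA : ∀ᵐ a ∂ν, a ∈ A)
    {F G : Multiset α → ℝ≥0∞} (h : ∀ s : Multiset α, (∀ a ∈ s, a ∈ A) → F s ≤ G s) :
    GP ν F ≤ GP ν G := by
  refine ENNReal.tsum_le_tsum fun N => mul_le_mul_right (lintegral_mono_ae ?_) _
  have hx : ∀ᵐ x ∂Measure.pi (fun _ : Fin N => ν), ∀ i, x i ∈ A :=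
    ae_all_iff.2 fun i => Measure.tendsto_eval_ae_ae.eventually hA
  filter_upwards [hx] with x hx
  exact h _ fun a ha => by obtain ⟨i, rfl⟩ := mem_conf.1 ha; exact hx i

theorem GP_congr_ae {ν : Measure α} [SigmaFinite ν] {A : Set α} (hA : ∀ᵐ a ∂ν, a ∈ A)
    {F G : Multiset α → ℝ≥0∞} (h : ∀ s : Multiset α, (∀ a ∈ s, a ∈ A) → F s = G s) :
    GP ν F = GP ν G :=
  le_antisymm (GP_mono_ae hA fun s hs => (h s hs).le) (GP_mono_ae hA fun s hs => (h s hs).ge)

theorem GP_add (ν : Measure α) {F G : Multiset α → ℝ≥0∞} (hF : ConfMeas F) :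
    GP ν (fun s => F s + G s) = GP ν F + GP ν G := by
  simp only [GP, term, ← ENNReal.tsum_add, ← mul_add]
  refine tsum_congr fun N => ?_
  rw [lintegral_add_left (hF N)]

theorem GP_const_mul (ν : Measure α) {F : Multiset α → ℝ≥0∞} (hF : ConfMeas F) (c : ℝ≥0∞) :
    GP ν (fun s => c * F s) = c * GP ν F := by
  simp only [GP, term, ← ENNReal.tsum_mul_left]
  refine tsum_congr fun N => ?_
  rw [lintegral_const_mul _ (hF N)]
  ring

theorem ConfMeas.add {F G : Multiset α → ℝ≥0∞} (hF : ConfMeas F) (hG : ConfMeas G) :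
    ConfMeas fun s => F s + G s := fun N => (hF N).add (hG N)

theorem ConfMeas.mul {F G : Multiset α → ℝ≥0∞} (hF : ConfMeas F) (hG : ConfMeas G) :
    ConfMeas fun s => F s * G s := fun N => (hF N).mul (hG N)

theorem ConfMeas.const (c : ℝ≥0∞) : ConfMeas (fun _ : Multiset α => c) :=
  fun _ => measurable_const

theorem ConfMeas.finset_sum {κ : Type*} (J : Finset κ) {F : κ → Multiset α → ℝ≥0∞}
    (hF : ∀ j ∈ J, ConfMeas (F j)) : ConfMeas fun s => ∑ j ∈ J, F j s :=
  fun N => Finset.measurable_sum _ fun j hj => hF j hj N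

theorem GP_finset_sum (ν : Measure α) {κ : Type*} (J : Finset κ) {F : κ → Multiset α → ℝ≥0∞}
    (hF : ∀ j ∈ J, ConfMeas (F j)) :
    GP ν (fun s => ∑ j ∈ J, F j s) = ∑ j ∈ J, GP ν (F j) := by
  classical
  induction J using Finset.induction with
  | empty => simp [GP, term]
  | insert a J ha ih =>
    simp only [Finset.sum_insert ha]
    rw [GP_add ν (hF a (mem_insert_self _ _)), ih fun j hj => hF j (mem_insert_of_mem hj)]

theorem GP_tsum (ν : Measure α) {F : ℕ → Multiset α → ℝ≥0∞} (hF : ∀ j, ConfMeas (F j)) :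
    GP ν (fun s => ∑' j, F j s) = ∑' j, GP ν (F j) := by
  simp only [GP, term]
  rw [ENNReal.tsum_comm]
  refine tsum_congr fun N => ?_
  rw [lintegral_tsum fun j => (hF j N).aemeasurable, ENNReal.tsum_mul_left]

/-- Expanding the product of a sum of two measures. -/
theorem pi_add {ι : Type*} [Fintype ι] [DecidableEq ι] (μ ν : Measure α) [IsFiniteMeasure μ]
    [IsFiniteMeasure ν] :
    Measure.pi (fun _ : ι => μ + ν)
      = ∑ S : Finset ι, Measure.pi (fun i => if i ∈ S then μ else ν) := by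
  have : ∀ (S : Finset ι) (i : ι), IsFiniteMeasure (if i ∈ S then μ else ν) := fun S i => by
    split_ifs <;> infer_instance
  refine Measure.pi_eq fun s _ => ?_
  rw [Measure.finsetSum_apply]
  simp only [Measure.pi_pi, Measure.add_apply, prod_add, powerset_univ]
  refine sum_congr rfl fun S _ => ?_
  rw [← prod_inter_mul_prod_sdiff univ S, univ_inter]
  exact congrArg₂ (· * ·) (prod_congr rfl fun i hi => by simp [hi])
    (prod_congr rfl fun i hi => by simp [(mem_sdiff.1 hi).2])

theorem lintegral_split (μ ν : Measure α) [IsFiniteMeasure μ] [IsFiniteMeasure ν] {A B : Set α}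
    (hA : ∀ᵐ a ∂μ, a ∈ A) (hB : ∀ᵐ a ∂ν, a ∈ B) {F G H : Multiset α → ℝ≥0∞}
    (hG : ConfMeas G) (hH : ConfMeas H)
    (hF : ∀ s t : Multiset α, (∀ a ∈ s, a ∈ A) → (∀ a ∈ t, a ∈ B) → F (s + t) = G s * H t)
    {ι : Type*} [Fintype ι] (p : ι → Prop) [DecidablePred p] :
    ∫⁻ x, F (conf x) ∂(Measure.pi fun i => if p i then μ else ν)
      = term μ G {i // p i} * term ν H {i // ¬p i} := by
  have : ∀ i, IsFiniteMeasure (if p i then μ else ν) := fun i => by
    split_ifs <;> infer_instance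
  have hpres := measurePreserving_piEquivPiSubtypeProd (α := fun _ : ι => α)
    (μ := fun i => if p i then μ else ν) (p := p)
  rw [← (MeasurePreserving.symm _ hpres).map_eq, lintegral_map_equiv]
  have e1 : (fun i : Subtype p => if p i then μ else ν) = fun _ => μ :=
    funext fun i => if_pos i.2
  have e2 : (fun i : {i // ¬p i} => if p i then μ else ν) = fun _ => ν :=
    funext fun i => if_neg i.2
  rw [e1, e2]
  unfold term
  rw [← lintegral_prod_mul (hG.comp_fintype _).aemeasurable (hH.comp_fintype _).aemeasurable]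
  refine lintegral_congr_ae ?_
  have ha : ∀ᵐ a ∂Measure.pi (fun _ : Subtype p => μ), ∀ i, a i ∈ A :=
    ae_all_iff.2 fun i => Measure.tendsto_eval_ae_ae.eventually hA
  have hb : ∀ᵐ b ∂Measure.pi (fun _ : {i // ¬p i} => ν), ∀ i, b i ∈ B :=
    ae_all_iff.2 fun i => Measure.tendsto_eval_ae_ae.eventually hB
  filter_upwards [Measure.quasiMeasurePreserving_fst.ae ha,
    Measure.quasiMeasurePreserving_snd.ae hb] with z hza hzb
  rw [conf_split p]
  have g1 : (fun i : {i // p i} =>
      (MeasurableEquiv.piEquivPiSubtypeProd (fun _ : ι => α) p).symm z i) = z.1 := by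
    funext i
    simp [MeasurableEquiv.piEquivPiSubtypeProd, Equiv.piEquivPiSubtypeProd, i.2]
  have g2 : (fun i : {i // ¬p i} =>
      (MeasurableEquiv.piEquivPiSubtypeProd (fun _ : ι => α) p).symm z i) = z.2 := by
    funext i
    simp [MeasurableEquiv.piEquivPiSubtypeProd, Equiv.piEquivPiSubtypeProd, i.2]
  rw [g1, g2]
  exact hF _ _ (fun a ha => by obtain ⟨i, rfl⟩ := mem_conf.1 ha; exact hza i)
    (fun a ha => by obtain ⟨i, rfl⟩ := mem_conf.1 ha; exact hzb i)

theorem term_add (μ ν : Measure α) [IsFiniteMeasure μ] [IsFiniteMeasure ν] {A B : Set α}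
    (hA : ∀ᵐ a ∂μ, a ∈ A) (hB : ∀ᵐ a ∂ν, a ∈ B) {F G H : Multiset α → ℝ≥0∞}
    (hG : ConfMeas G) (hH : ConfMeas H)
    (hF : ∀ s t : Multiset α, (∀ a ∈ s, a ∈ A) → (∀ a ∈ t, a ∈ B) → F (s + t) = G s * H t)
    (N : ℕ) :
    term (μ + ν) F (Fin N) = ∑ k ∈ range (N + 1),
      (N.choose k : ℝ≥0∞) * (term μ G (Fin k) * term ν H (Fin (N - k))) := by
  classical
  have hS : ∀ S : Finset (Fin N),
      ∫⁻ x, F (conf x) ∂(Measure.pi fun i => if i ∈ S then μ else ν)
        = term μ G (Fin S.card) * term ν H (Fin (N - S.card)) := by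
    intro S
    rw [lintegral_split μ ν hA hB hG hH hF (fun i => i ∈ S)]
    refine congrArg₂ (· * ·) ?_ ?_
    · exact (term_inst μ G _ _).trans (term_congr_equiv μ G (Fintype.equivFinOfCardEq
        (α := {i : Fin N // i ∈ S}) (Fintype.card_coe S)).symm)
    · have c2 : Fintype.card {i : Fin N // ¬i ∈ S} = N - S.card := by
        rw [Fintype.card_subtype_compl, Fintype.card_fin, Fintype.card_coe]
      exact (term_inst ν H _ _).trans
        (term_congr_equiv ν H (Fintype.equivFinOfCardEq c2).symm)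
  rw [term, pi_add, lintegral_finsetSum_measure]
  simp only [hS]
  rw [← powerset_univ, sum_powerset_apply_card
    (fun k => term μ G (Fin k) * term ν H (Fin (N - k))), card_univ, Fintype.card_fin]
  simp only [nsmul_eq_mul]

/-- Pairs `(k, l)` are the same as splittings of `N`. -/
def splitEquiv : (Σ N : ℕ, Fin (N + 1)) ≃ ℕ × ℕ where
  toFun p := (p.2.1, p.1 - p.2.1)
  invFun q := ⟨q.1 + q.2, ⟨q.1, by omega⟩⟩
  left_inv := by
    rintro ⟨N, k, hk⟩
    have h : k + (N - k) = N := by omega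
    refine Sigma.ext h ?_
    rw [Fin.heq_ext_iff (by simpa using h)]
  right_inv := by rintro ⟨a, b⟩; simp

/-- Factorization over two regions. -/
theorem GP_split (μ ν : Measure α) [IsFiniteMeasure μ] [IsFiniteMeasure ν] {A B : Set α}
    (hA : ∀ᵐ a ∂μ, a ∈ A) (hB : ∀ᵐ a ∂ν, a ∈ B) {F G H : Multiset α → ℝ≥0∞}
    (hG : ConfMeas G) (hH : ConfMeas H)
    (hF : ∀ s t : Multiset α, (∀ a ∈ s, a ∈ A) → (∀ a ∈ t, a ∈ B) → F (s + t) = G s * H t) :
    GP (μ + ν) F = GP μ G * GP ν H := by
  set a : ℕ → ℝ≥0∞ := fun k => (k ! : ℝ≥0∞)⁻¹ * term μ G (Fin k) with ha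
  set b : ℕ → ℝ≥0∞ := fun k => (k ! : ℝ≥0∞)⁻¹ * term ν H (Fin k) with hb
  have h1 : ∀ N : ℕ, (N ! : ℝ≥0∞)⁻¹ * term (μ + ν) F (Fin N)
      = ∑ k : Fin (N + 1), a k * b (N - k) := by
    intro N
    rw [term_add μ ν hA hB hG hH hF N, mul_sum,
      Fin.sum_univ_eq_sum_range (fun k => a k * b (N - k))]
    refine sum_congr rfl fun k hk => ?_
    have hk' : k ≤ N := Nat.lt_succ_iff.1 (mem_range.1 hk)
    have hfac : (N ! : ℝ≥0∞) = (N.choose k : ℝ≥0∞) * ((k ! : ℝ≥0∞) * ((N - k)! : ℝ≥0∞)) := by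
      rw [← mul_assoc]; exact_mod_cast (Nat.choose_mul_factorial_mul_factorial hk').symm
    have hkey : (N ! : ℝ≥0∞)⁻¹ * (N.choose k : ℝ≥0∞) = (k ! : ℝ≥0∞)⁻¹ * ((N - k)! : ℝ≥0∞)⁻¹ := by
      have hc : (N.choose k : ℝ≥0∞) ≠ 0 := by exact_mod_cast (Nat.choose_pos hk').ne'
      rw [hfac, ENNReal.mul_inv (Or.inl hc) (Or.inl (ENNReal.natCast_ne_top _)),
        mul_comm (N.choose k : ℝ≥0∞)⁻¹, mul_assoc,
        ENNReal.inv_mul_cancel hc (ENNReal.natCast_ne_top _), mul_one,
        ENNReal.mul_inv (Or.inr (ENNReal.natCast_ne_top _)) (Or.inl (ENNReal.natCast_ne_top _))]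
    simp only [ha, hb]
    rw [← mul_assoc, hkey]
    ring
  calc GP (μ + ν) F = ∑' N : ℕ, ∑' k : Fin (N + 1), a k * b (N - k) := by
        unfold GP; exact tsum_congr fun N => by rw [h1 N, tsum_fintype]
    _ = ∑' p : (Σ N : ℕ, Fin (N + 1)), a (splitEquiv p).1 * b (splitEquiv p).2 :=
        (ENNReal.tsum_sigma' fun p : (Σ N : ℕ, Fin (N + 1)) => a p.2 * b (p.1 - p.2)).symm
    _ = ∑' q : ℕ × ℕ, a q.1 * b q.2 :=
        splitEquiv.tsum_eq (fun q : ℕ × ℕ => a q.1 * b q.2)
    _ = ∑' k, ∑' l, a k * b l := ENNReal.tsum_prod (f := fun k l => a k * b l)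
    _ = GP μ G * GP ν H := by
        simp only [ENNReal.tsum_mul_left, ENNReal.tsum_mul_right]; rfl

/-- The part of a configuration inside `Q`. -/
noncomputable def part (Q : Set α) (s : Multiset α) : Multiset α :=
  open Classical in s.filter fun a => a ∈ Q

/-- A product over cells. -/
noncomputable def cellProd {κ : Type*} (J : Finset κ) (Q : κ → Set α)
    (f : κ → Multiset α → ℝ≥0∞) (s : Multiset α) : ℝ≥0∞ :=
  ∏ j ∈ J, f j (part (Q j) s)

omit [MeasurableSpace α] in
open Classical in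
theorem part_add (Q : Set α) (s t : Multiset α) : part Q (s + t) = part Q s + part Q t :=
  Multiset.filter_add _ s t

omit [MeasurableSpace α] in
open Classical in
theorem part_eq_self {Q : Set α} {s : Multiset α} (h : ∀ a ∈ s, a ∈ Q) : part Q s = s :=
  Multiset.filter_eq_self.2 h

omit [MeasurableSpace α] in
open Classical in
theorem part_eq_zero {Q : Set α} {s : Multiset α} (h : ∀ a ∈ s, a ∉ Q) : part Q s = 0 :=
  Multiset.filter_eq_nil.2 h

omit [MeasurableSpace α] in
theorem part_conf_eq_self {ι : Type*} {inst : Fintype ι} {Q : Set α} (y : ι → α)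
    (h : ∀ i, y i ∈ Q) : part Q (@conf α ι inst y) = @conf α ι inst y :=
  part_eq_self fun a ha => by obtain ⟨i, rfl⟩ := mem_conf.1 ha; exact h i

omit [MeasurableSpace α] in
theorem part_conf_eq_zero {ι : Type*} {inst : Fintype ι} {Q : Set α} (y : ι → α)
    (h : ∀ i, y i ∉ Q) : part Q (@conf α ι inst y) = 0 :=
  part_eq_zero fun a ha => by obtain ⟨i, rfl⟩ := mem_conf.1 ha; exact h i

theorem confMeas_part {F : Multiset α → ℝ≥0∞} (hF : ConfMeas F) {Q : Set α}
    (hQ : MeasurableSet Q) : ConfMeas fun s => F (part Q s) := by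
  classical
  intro N
  have h : (fun x : Fin N → α => F (part Q (conf x)))
      = fun x => ∑ S : Finset (Fin N), {y : Fin N → α | ∀ i, y i ∈ Q ↔ i ∈ S}.indicator
          (fun y => F (conf fun i : {i // i ∈ S} => y i)) x := by
    funext x
    rw [sum_eq_single (univ.filter fun i => x i ∈ Q)]
    · rw [Set.indicator_of_mem (show x ∈ {y : Fin N → α | ∀ i, y i ∈ Q ↔
        i ∈ univ.filter fun i => x i ∈ Q} by simp)]
      congr 1
      rw [conf_split_finset (univ.filter fun i => x i ∈ Q), part_add]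
      refine (congrArg₂ (· + ·) (part_conf_eq_self _ ?_) (part_conf_eq_zero _ ?_)).trans
        (add_zero _)
      · exact fun i => (mem_filter.1 i.2).2
      · exact fun i => by simpa using i.2
    · intro S _ hS
      rw [Set.indicator_of_notMem]
      intro hx
      exact hS (Finset.ext fun i => by simpa using (hx i).symm)
    · simp
  rw [h]
  refine Finset.measurable_sum _ fun S _ => Measurable.indicator ?_ ?_
  · exact (hF.comp_fintype _).comp (measurable_pi_lambda _ fun i => measurable_pi_apply _)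
  · have : {y : Fin N → α | ∀ i, y i ∈ Q ↔ i ∈ S}
        = ⋂ i, (fun y : Fin N → α => y i) ⁻¹' {a | a ∈ Q ↔ i ∈ S} := by ext y; simp
    rw [this]
    refine MeasurableSet.iInter fun i => measurable_pi_apply i ?_
    by_cases hi : i ∈ S
    · have hQ' : {a : α | a ∈ Q ↔ i ∈ S} = Q := by ext a; simp [hi]
      rw [hQ']; exact hQ
    · have hQ' : {a : α | a ∈ Q ↔ i ∈ S} = Qᶜ := by ext a; simp [hi]
      rw [hQ']; exact hQ.compl

theorem confMeas_cellProd {κ : Type*} (J : Finset κ) {Q : κ → Set α}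
    {f : κ → Multiset α → ℝ≥0∞} (hQ : ∀ j ∈ J, MeasurableSet (Q j))
    (hf : ∀ j ∈ J, ConfMeas (f j)) : ConfMeas (cellProd J Q f) :=
  fun N => Finset.measurable_prod _ fun j hj => confMeas_part (hf j hj) (hQ j hj) N

theorem GP_zero_measure (F : Multiset α → ℝ≥0∞) : GP (0 : Measure α) F = F 0 := by
  rw [GP, tsum_eq_single 0]
  · rw [term, Measure.pi_of_empty, lintegral_dirac]
    simp [conf]
  · intro N hN
    obtain ⟨M, rfl⟩ := Nat.exists_eq_succ_of_ne_zero hN
    have : Measure.pi (fun _ : Fin (M + 1) => (0 : Measure α)) = 0 :=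
      Measure.measure_univ_eq_zero.1 (by simp [Measure.pi_univ])
    simp [term, this]

/-- Factorization over finitely many cells. -/
theorem GP_cellProd {κ : Type*} (J : Finset κ) {Q : κ → Set α}
    (hQ : ∀ j ∈ J, MeasurableSet (Q j))
    (hdis : ∀ i ∈ J, ∀ j ∈ J, i ≠ j → Disjoint (Q i) (Q j))
    (ν : κ → Measure α) [∀ j, IsFiniteMeasure (ν j)] (hν : ∀ j ∈ J, ∀ᵐ a ∂ν j, a ∈ Q j)
    {f : κ → Multiset α → ℝ≥0∞} (hf : ∀ j ∈ J, ConfMeas (f j)) :
    GP (∑ j ∈ J, ν j) (cellProd J Q f) = ∏ j ∈ J, GP (ν j) (f j) := by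
  classical
  induction J using Finset.induction with
  | empty => simp [GP_zero_measure, cellProd]
  | insert a J ha ih =>
    have hfin : IsFiniteMeasure (∑ j ∈ J, ν j) := by
      constructor
      rw [Measure.finsetSum_apply]
      exact ENNReal.sum_lt_top.2 fun j _ => measure_lt_top _ _
    rw [sum_insert ha, prod_insert ha, ← ih (fun j hj => hQ j (mem_insert_of_mem hj))
      (fun i hi j hj => hdis i (mem_insert_of_mem hi) j (mem_insert_of_mem hj))
      (fun j hj => hν j (mem_insert_of_mem hj)) (fun j hj => hf j (mem_insert_of_mem hj))]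
    refine GP_split _ _ (A := Q a) (B := ⋃ j ∈ J, Q j) (hν a (mem_insert_self _ _)) ?_
      (hf a (mem_insert_self _ _))
      (confMeas_cellProd J (fun j hj => hQ j (mem_insert_of_mem hj))
        fun j hj => hf j (mem_insert_of_mem hj)) ?_
    · rw [ae_iff, Measure.finsetSum_apply]
      refine sum_eq_zero fun j hj => measure_mono_null ?_ (ae_iff.1 (hν j (mem_insert_of_mem hj)))
      intro x hx hxQ
      exact hx (Set.mem_biUnion hj hxQ)
    · intro s t hs ht
      simp only [cellProd, prod_insert ha, part_add]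
      congr 1
      · rw [part_eq_self hs, part_eq_zero, add_zero]
        intro x hx hxa
        obtain ⟨j, hj, hxj⟩ := Set.mem_iUnion₂.1 (ht x hx)
        exact Set.disjoint_left.1 (hdis a (mem_insert_self _ _) j (mem_insert_of_mem hj)
          (fun h => ha (h ▸ hj))) hxa hxj
      · refine prod_congr rfl fun j hj => ?_
        rw [part_eq_zero (Q := Q j) (s := s), zero_add]
        intro x hx hxj
        exact Set.disjoint_left.1 (hdis a (mem_insert_self _ _) j (mem_insert_of_mem hj)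
          (fun h => ha (h ▸ hj))) (hs x hx) hxj

end Vale.Agent.P171
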