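import Mathlib.Analysis.Convex.Continuous
import Mathlib.Analysis.Convex.Slope
import Mathlib.Topology.Order.Compact
import Mathlib.Topology.Order.IntermediateValue
import Mathlib.Tactic.Linarith
import Mathlib.Analysis.Real.Sqrt

/-!
Elementary lemmas about convex functions minus a parabola.
-/

open Set

namespace Vale.Agent.P171

/-- A convex monotone nonnegative function under a fixed parabola. -/
structure Tame (Kq τ : ℝ) (P : ℝ → ℝ) : Prop where
  convex : ConvexOn ℝ univ P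
  mono : Monotone P
  nonneg : ∀ x, 0 ≤ P x
  le_quad : ∀ x, P x ≤ Kq + τ * x ^ 2
  tau_nonneg : 0 ≤ τ

variable {Kq τ : ℝ} {P : ℝ → ℝ}

theorem Tame.continuous (hP : Tame Kq τ P) : Continuous P := by
  rw [← continuousOn_univ]
  exact hP.convex.continuousOn isOpen_univ

theorem Tame.Kq_nonneg (hP : Tame Kq τ P) : 0 ≤ Kq := by
  simpa using (hP.nonneg 0).trans (hP.le_quad 0)

theorem Tame.le_shift (hP : Tame Kq τ P) (x μ : ℝ) :
    P x ≤ Kq + 2 * τ * μ ^ 2 + 2 * τ * (x - μ) ^ 2 := by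
  have := hP.le_quad x
  nlinarith [mul_nonneg hP.tau_nonneg (sq_nonneg (x - 2 * μ))]

theorem Tame.adjacent (hP : Tame Kq τ P) {x y z : ℝ} (hxy : x < y) (hyz : y < z) :
    (P y - P x) * (z - y) ≤ (P z - P y) * (y - x) := by
  have h := hP.convex.slope_mono_adjacent (mem_univ x) (mem_univ z) hxy hyz
  rwa [div_le_div_iff₀ (sub_pos.2 hxy) (sub_pos.2 hyz)] at h

/-- A slope reached on `[a, b]` persists to the right of `b`. -/
theorem Tame.right_slope (hP : Tame Kq τ P) {a b ρ : ℝ} (hab : a < b)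
    (h : ρ * (b - a) ≤ P b - P a) {y z : ℝ} (hy : b ≤ y) (hz : y < z) :
    ρ * (z - y) ≤ P z - P y := by
  have h1 : ρ * (y - a) ≤ P y - P a := by
    rcases eq_or_lt_of_le hy with rfl | hlt
    · exact h
    · have := hP.adjacent hab hlt
      have : ρ * (y - b) ≤ P y - P b := le_of_mul_le_mul_right
        (by nlinarith [mul_le_mul_of_nonneg_right h (sub_nonneg.2 hlt.le)]) (sub_pos.2 hab)
      linarith
  have := hP.adjacent (lt_of_lt_of_le hab hy) hz
  exact le_of_mul_le_mul_right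
    (by nlinarith [mul_le_mul_of_nonneg_right h1 (sub_nonneg.2 hz.le)])
    (sub_pos.2 (lt_of_lt_of_le hab hy))

/-- A slope not exceeded on `[a, b]` is not exceeded to the left of `a`. -/
theorem Tame.left_slope (hP : Tame Kq τ P) {a b ρ : ℝ} (hab : a < b)
    (h : P b - P a ≤ ρ * (b - a)) {y z : ℝ} (hy : y < z) (hz : z ≤ a) :
    P z - P y ≤ ρ * (z - y) := by
  have h1 : P b - P z ≤ ρ * (b - z) := by
    rcases eq_or_lt_of_le hz with rfl | hlt
    · exact h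
    · have := hP.adjacent hlt hab
      have : P a - P z ≤ ρ * (a - z) := le_of_mul_le_mul_right
        (by nlinarith [mul_le_mul_of_nonneg_right h (sub_nonneg.2 hlt.le)]) (sub_pos.2 hab)
      linarith
  have := hP.adjacent hy (lt_of_le_of_lt hz hab)
  exact le_of_mul_le_mul_right
    (by nlinarith [mul_le_mul_of_nonneg_right h1 (sub_nonneg.2 hy.le)])
    (sub_pos.2 (lt_of_le_of_lt hz hab))

/-- `P` minus a parabola. -/
noncomputable def phi (P : ℝ → ℝ) (A lam x : ℝ) : ℝ := P x - (x - lam) ^ 2 / (2 * A)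

theorem exists_max (hP : Tame Kq τ P) {A : ℝ} (lam a b : ℝ) (hab : a ≤ b) :
    ∃ x ∈ Icc a b, phi P A lam x = sSup (phi P A lam '' Icc a b) ∧
      ∀ y ∈ Icc a b, phi P A lam y ≤ phi P A lam x := by
  have hc : Continuous (phi P A lam) := by
    unfold phi
    exact hP.continuous.sub (((continuous_id.sub continuous_const).pow 2).div_const _)
  obtain ⟨x, hx, hxe, hxm⟩ := isCompact_Icc.exists_sSup_image_eq_and_ge (nonempty_Icc.2 hab)
    hc.continuousOn
  exact ⟨x, hx, hxe.symm, hxm⟩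

theorem Tame.not_middle_low (hP : Tame Kq τ P) {A μ δ ρp ρm d B : ℝ} (hA : 0 < A) (hδ : 0 < δ)
    (hmp : ρm < ρp) (hm0 : 0 ≤ ρm) (hp1 : ρp ≤ 1)
    (hright : P μ + ρp * δ ≤ P (μ + δ))
    (hδA : δ ≤ A * (ρp - ρm) ^ 2 / 64) (hd0 : 0 ≤ d) (hdm : d < A * ((ρp + ρm) / 2))
    (hup : B ≤ 2 * A * P μ + 2 * δ * (2 * d + δ) - d ^ 2)
    (test : ∀ y r, r ≤ P y → 2 * A * r - (y - (μ - d)) ^ 2 ≤ B) : False := by
  have hΔ : 0 < ρp - ρm := sub_pos.2 hmp
  have hΔ1 : (ρp - ρm) ^ 2 ≤ ρp - ρm := by nlinarith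
  set u := A * (ρp - ρm) / 2 with hu
  have hδu : δ ≤ u := by
    rw [hu]; nlinarith
  have hlin : P μ + ρp * u ≤ P (μ + u) := by
    rcases eq_or_lt_of_le hδu with h | h
    · rw [← h]; exact hright
    · have := hP.right_slope (a := μ) (b := μ + δ) (by linarith) (ρ := ρp)
        (by ring_nf; linarith) (le_refl (μ + δ)) (show μ + δ < μ + u by linarith)
      linarith
  have := test (μ + u) _ hlin
  have hd1 : d ≤ A := by nlinarith
  have hδ1 : δ ≤ A := by nlinarith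
  have hgain : A * (ρp - ρm) * u ≤ 2 * (A * ρp - d) * u :=
    mul_le_mul_of_nonneg_right (by linarith) (by linarith)
  have h8 : 2 * δ * (2 * d + δ) ≤ A * (ρp - ρm) ^ 2 / 64 * (6 * A) := by
    calc 2 * δ * (2 * d + δ) = δ * (4 * d + 2 * δ) := by ring
      _ ≤ _ := mul_le_mul hδA (by linarith) (by linarith) (by positivity)
  rw [show μ + u - (μ - d) = u + d by ring] at this
  have hAu : A * (ρp - ρm) * u = 2 * u ^ 2 := by rw [hu]; ring
  have hu6 : A * (ρp - ρm) ^ 2 / 64 * (6 * A) < u ^ 2 := by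
    rw [hu]; linarith [pow_pos (mul_pos hA hΔ) 2]
  linarith

theorem Tame.not_middle_high (hP : Tame Kq τ P) {A μ δ ρp ρm d B : ℝ} (hA : 0 < A) (hδ : 0 < δ)
    (hmp : ρm < ρp) (hm0 : 0 ≤ ρm) (hp1 : ρp ≤ 1)
    (hleft : P μ - ρm * δ ≤ P (μ - δ))
    (hδA : δ ≤ A * (ρp - ρm) ^ 2 / 64) (hdm : A * ((ρp + ρm) / 2) ≤ d)
    (hup : B ≤ 2 * A * P μ + 2 * δ * (2 * d + δ) - d ^ 2)
    (test : ∀ y r, r ≤ P y → 2 * A * r - (y - (μ - d)) ^ 2 ≤ B) : False := by
  have hΔ : 0 < ρp - ρm := sub_pos.2 hmp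
  have hΔ1 : (ρp - ρm) ^ 2 ≤ ρp - ρm := by nlinarith
  set u := d - A * ρm with hu
  have hu0 : A * (ρp - ρm) / 2 ≤ u := by rw [hu]; linarith
  have hδu : δ ≤ u := le_trans (by nlinarith) hu0
  have hlin : P μ - ρm * u ≤ P (μ - u) := by
    rcases eq_or_lt_of_le hδu with h | h
    · rw [← h]; exact hleft
    · have := hP.left_slope (a := μ - δ) (b := μ) (by linarith) (ρ := ρm)
        (by ring_nf; linarith) (show μ - u < μ - δ by linarith) le_rfl
      linarith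
  have := test (μ - u) _ hlin
  rw [show (μ - u - (μ - d)) = A * ρm by rw [hu]; ring] at this
  have hu2 : (A * (ρp - ρm) / 2) ^ 2 ≤ u ^ 2 := pow_le_pow_left₀ (by positivity) hu0 2
  have h8 : δ * u ≤ u ^ 2 / 32 := by
    have : δ ≤ u / 32 := le_trans hδA (le_trans (by nlinarith)
      (div_le_div_of_nonneg_right hu0 (by norm_num)))
    nlinarith
  have h9 : δ * (A * ρm) ≤ A * (ρp - ρm) ^ 2 / 64 * A :=
    mul_le_mul hδA (by nlinarith) (by positivity) (by positivity)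
  have h10 : δ * δ ≤ δ * u := mul_le_mul_of_nonneg_left hδu hδ.le
  have e : d = u + A * ρm := by rw [hu]; ring
  rw [e] at hup
  have hkey : u ^ 2 ≤ 4 * (δ * u) + 4 * (δ * (A * ρm)) + 2 * (δ * δ) := by linarith
  linarith [pow_pos (mul_pos hA hΔ) 2]

theorem Tame.not_middle (hP : Tame Kq τ P) {A μ δ ρp ρm d z : ℝ} (hA : 0 < A) (hδ : 0 < δ)
    (hm0 : 0 ≤ ρm) (hmp : ρm < ρp) (hp1 : ρp ≤ 1) (hright : P μ + ρp * δ ≤ P (μ + δ))
    (hleft : P μ - ρm * δ ≤ P (μ - δ)) (hδA : δ ≤ A * (ρp - ρm) ^ 2 / 64) (hd0 : 0 ≤ d)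
    (h3 : μ - δ < z) (h1 : z < μ + δ)
    (hzglob : ∀ y, phi P A (μ - d) y ≤ phi P A (μ - d) z) : False := by
  have h2 : 0 < 2 * A := by linarith
  have hΔ : 0 < ρp - ρm := sub_pos.2 hmp
  have hΔ1 : (ρp - ρm) ^ 2 ≤ ρp - ρm := by nlinarith
  have hPz : P z ≤ P μ + δ * (d + δ) / A := by
    rcases le_or_gt z μ with hzμ | hzμ
    · have : 0 ≤ δ * (d + δ) / A := by positivity
      linarith [hP.mono hzμ]
    · have h4 := hzglob (μ + δ)
      have h5 := hP.adjacent hzμ h1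
      have h6 : P (μ + δ) - P z ≤ (d + δ) * (μ + δ - z) / A := by
        simp only [phi] at h4
        have e : (μ + δ - (μ - d)) ^ 2 / (2 * A) - (z - (μ - d)) ^ 2 / (2 * A)
            ≤ (d + δ) * (μ + δ - z) / A := by
          rw [← sub_div, div_le_div_iff₀ h2 hA]
          nlinarith [mul_nonneg hA.le (sq_nonneg (μ + δ - z))]
        linarith
      rw [le_div_iff₀ hA] at h6
      rw [← sub_le_iff_le_add', le_div_iff₀ hA]
      have h7 : (P z - P μ) * A * (μ + δ - z) ≤ (d + δ) * (z - μ) * (μ + δ - z) := by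
        calc (P z - P μ) * A * (μ + δ - z) = ((P z - P μ) * (μ + δ - z)) * A := by ring
          _ ≤ ((P (μ + δ) - P z) * (z - μ)) * A := mul_le_mul_of_nonneg_right h5 hA.le
          _ = ((P (μ + δ) - P z) * A) * (z - μ) := by ring
          _ ≤ (d + δ) * (μ + δ - z) * (z - μ) :=
            mul_le_mul_of_nonneg_right h6 (sub_nonneg.2 hzμ.le)
          _ = _ := by ring
      have := le_of_mul_le_mul_right h7 (sub_pos.2 h1)
      nlinarith
  have hz2 : d ^ 2 - 2 * d * δ ≤ (z - (μ - d)) ^ 2 := by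
    nlinarith [mul_nonneg hd0 (show (0 : ℝ) ≤ z - μ + δ by linarith), sq_nonneg (z - μ)]
  have hup : phi P A (μ - d) z * (2 * A) ≤ 2 * A * P μ + 2 * δ * (2 * d + δ) - d ^ 2 := by
    have e : phi P A (μ - d) z * (2 * A) = 2 * A * P z - (z - (μ - d)) ^ 2 := by
      simp only [phi]; field_simp
    have := mul_le_mul_of_nonneg_left hPz h2.le
    rw [show 2 * A * (P μ + δ * (d + δ) / A) = 2 * A * P μ + 2 * (δ * (d + δ)) by
      field_simp] at this
    linarith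
  have test : ∀ y r, r ≤ P y →
      2 * A * r - (y - (μ - d)) ^ 2 ≤ phi P A (μ - d) z * (2 * A) := by
    intro y r hr
    refine le_trans ?_ (mul_le_mul_of_nonneg_right (hzglob y) h2.le)
    have e : phi P A (μ - d) y * (2 * A) = 2 * A * P y - (y - (μ - d)) ^ 2 := by
      simp only [phi]; field_simp
    linarith [mul_le_mul_of_nonneg_left hr h2.le]
  by_cases hdm : d < A * ((ρp + ρm) / 2)
  · exact hP.not_middle_low hA hδ hmp hm0 hp1 hright hδA hd0 hdm hup test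
  · exact hP.not_middle_high hA hδ hmp hm0 hp1 hleft hδA (not_lt.1 hdm) hup test

theorem Tame.max_right (hP : Tame Kq τ P) {A μ δ ρp lam x : ℝ} (hA : 0 < A) (hδ : 0 < δ)
    (hright : P μ + ρp * δ ≤ P (μ + δ)) (hx : μ + δ ≤ x)
    (hmax : ∀ y, phi P A lam y ≤ phi P A lam x) : ρp * A ≤ x - lam := by
  by_contra hc
  rw [not_le] at hc
  set t := ρp * A - (x - lam) with htdef
  have ht : 0 < t := by linarith
  have h1 := hP.right_slope (a := μ) (b := μ + δ) (by linarith) (ρ := ρp) (by ring_nf; linarith)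
    hx (show x < x + t by linarith)
  have h2 : 0 < 2 * A := by linarith
  have h3 := mul_le_mul_of_nonneg_right (hmax (x + t)) h2.le
  have e : ∀ w, phi P A lam w * (2 * A) = 2 * A * P w - (w - lam) ^ 2 := fun w => by
    simp only [phi]; field_simp
  rw [e, e] at h3
  have h4 := mul_le_mul_of_nonneg_left h1 h2.le
  nlinarith [mul_pos ht ht]

theorem Tame.max_left (hP : Tame Kq τ P) {A μ δ ρm lam x : ℝ} (hA : 0 < A) (hδ : 0 < δ)
    (hleft : P μ - ρm * δ ≤ P (μ - δ)) (hx : x ≤ μ - δ)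
    (hmax : ∀ y, phi P A lam y ≤ phi P A lam x) : x - lam ≤ ρm * A := by
  by_contra hc
  rw [not_le] at hc
  set t := x - lam - ρm * A with htdef
  have ht : 0 < t := by linarith
  have h1 := hP.left_slope (a := μ - δ) (b := μ) (by linarith) (ρ := ρm) (by ring_nf; linarith)
    (show x - t < x by linarith) hx
  have h2 : 0 < 2 * A := by linarith
  have h3 := mul_le_mul_of_nonneg_right (hmax (x - t)) h2.le
  have e : ∀ w, phi P A lam w * (2 * A) = 2 * A * P w - (w - lam) ^ 2 := fun w => by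
    simp only [phi]; field_simp
  rw [e, e] at h3
  have h4 := mul_le_mul_of_nonneg_left h1 h2.le
  nlinarith [mul_pos ht ht]

/-- Two maximisers with well separated slopes. -/
theorem Tame.two_maximisers (hP : Tame Kq τ P) {A μ δ ρp ρm D : ℝ} (hA : 0 < A)
    (hτA : 8 * τ * (4 * A) ≤ 1) (hδ : 0 < δ) (hm0 : 0 ≤ ρm) (hmp : ρm < ρp) (hp1 : ρp ≤ 1)
    (hright : P μ + ρp * δ ≤ P (μ + δ)) (hleft : P μ - ρm * δ ≤ P (μ - δ))
    (hδA : δ ≤ A * (ρp - ρm) ^ 2 / 64) (hδD : δ ≤ D)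
    (hD : 4 * A * (Kq + 2 * τ * μ ^ 2 + 1) ≤ D ^ 2) :
    ∃ d, 0 ≤ d ∧ d ≤ D ∧ ∃ v, (∀ x, phi P A (μ - d) x ≤ v) ∧
      (∃ x, phi P A (μ - d) x = v ∧ ρp * A ≤ x - (μ - d)) ∧
      (∃ x, phi P A (μ - d) x = v ∧ x - (μ - d) ≤ ρm * A) := by
  set C := Kq + 2 * τ * μ ^ 2 with hC
  have hτ := hP.tau_nonneg
  have hC0 : 0 ≤ C := add_nonneg hP.Kq_nonneg (by positivity)
  set W := D + δ + √(16 * A * (C + 1) + 16 * D ^ 2) with hW
  have hsq : √(16 * A * (C + 1) + 16 * D ^ 2) ^ 2 = 16 * A * (C + 1) + 16 * D ^ 2 :=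
    Real.sq_sqrt (by positivity)
  have hs0 : 0 ≤ √(16 * A * (C + 1) + 16 * D ^ 2) := Real.sqrt_nonneg _
  have hΔ : 0 < ρp - ρm := sub_pos.2 hmp
  have hΔ1 : (ρp - ρm) ^ 2 ≤ ρp - ρm := by nlinarith
  have hδA' : δ ≤ A * ρp / 64 := by
    refine hδA.trans (div_le_div_of_nonneg_right (mul_le_mul_of_nonneg_left ?_ hA.le) (by norm_num))
    linarith
  -- continuity of the two one-sided maxima
  have hcont : ∀ a b : ℝ, Continuous fun d => sSup (phi P A (μ - d) '' Icc a b) := fun a b => by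
    refine isCompact_Icc.continuous_sSup (f := fun d x => phi P A (μ - d) x) ?_
    unfold phi
    have := hP.continuous
    fun_prop
  set R := fun d => sSup (phi P A (μ - d) '' Icc (μ + δ) (μ + W)) with hR
  set L := fun d => sSup (phi P A (μ - d) '' Icc (μ - W) (μ - δ)) with hL
  have hW1 : μ + δ ≤ μ + W := by linarith
  have hW2 : μ - W ≤ μ - δ := by linarith
  have h2 : 0 < 2 * A := by linarith
  have hzero : L 0 ≤ R 0 := by
    obtain ⟨x, hx, hxe, -⟩ := exists_max hP (A := A) (μ - 0) _ _ hW2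
    obtain ⟨y, hy, hye, hym⟩ := exists_max hP (A := A) (μ - 0) _ _ hW1
    rw [hL, hR]
    simp only
    rw [← hxe, ← hye]
    refine le_trans ?_ (hym (μ + δ) ⟨le_rfl, hW1⟩)
    simp only [phi, sub_zero]
    have h1 : P x ≤ P μ := hP.mono (by linarith [hx.2])
    have h3 : 0 ≤ (x - μ) ^ 2 / (2 * A) := by positivity
    have h4 : (μ + δ - μ) ^ 2 / (2 * A) ≤ ρp * δ := by
      rw [div_le_iff₀ h2]; nlinarith
    linarith
  have hbig : ∀ d, 0 ≤ d → d ≤ D → ∀ x, W ≤ |x - μ| → phi P A (μ - d) x < 0 := by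
    intro d hd0 hd x hx
    have h1 := hP.le_shift x μ
    have h3 : (16 * A * (C + 1) + 16 * D ^ 2) ≤ (x - μ) ^ 2 := by
      rw [← hsq, ← sq_abs (x - μ)]
      exact pow_le_pow_left₀ hs0 (by linarith) 2
    have h4 : (x - μ) ^ 2 / 2 - D ^ 2 ≤ (x - (μ - d)) ^ 2 := by
      nlinarith [sq_nonneg ((x - μ) + 2 * d), mul_le_mul hd hd hd0 (hd0.trans hd)]
    simp only [phi, sub_neg]
    rw [lt_div_iff₀ h2]
    have h1' : P x ≤ C + 2 * τ * (x - μ) ^ 2 := by rw [hC]; exact h1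
    have := mul_le_mul_of_nonneg_right h1' h2.le
    linarith [mul_le_mul_of_nonneg_right hτA (sq_nonneg (x - μ)), mul_nonneg hA.le hC0,
      sq_nonneg D]
  have hend : R D ≤ L D := by
    obtain ⟨x, hx, hxe, -⟩ := exists_max hP (A := A) (μ - D) _ _ hW1
    obtain ⟨y, hy, hye, hym⟩ := exists_max hP (A := A) (μ - D) _ _ hW2
    rw [hL, hR]
    simp only
    rw [← hxe, ← hye]
    refine le_trans ?_ (hym (μ - D) ⟨by linarith, by linarith⟩)
    simp only [phi, sub_self, ne_eq, OfNat.ofNat_ne_zero, not_false_eq_true, zero_pow, zero_div,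
      sub_zero]
    refine le_trans ?_ (hP.nonneg _)
    rw [sub_nonpos, le_div_iff₀ h2]
    have h1 := hP.le_shift x μ
    have h3 : (x - μ) ^ 2 + D ^ 2 ≤ (x - (μ - D)) ^ 2 := by
      nlinarith [mul_nonneg (sub_nonneg.2 hx.1) (hδ.le.trans hδD)]
    have h1' : P x ≤ C + 2 * τ * (x - μ) ^ 2 := by rw [hC]; exact h1
    have := mul_le_mul_of_nonneg_right h1' h2.le
    linarith [mul_le_mul_of_nonneg_right hτA (sq_nonneg (x - μ)), sq_nonneg (x - μ),
      mul_nonneg hA.le hC0]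
  obtain ⟨d, ⟨hd0, hdD⟩, hd⟩ := intermediate_value_Icc' (hδ.le.trans hδD)
    ((hcont (μ + δ) (μ + W)).sub (hcont (μ - W) (μ - δ))).continuousOn
    (show (0 : ℝ) ∈ Icc (R D - L D) (R 0 - L 0) from ⟨by linarith, by linarith⟩)
  refine ⟨d, hd0, hdD, R d, ?_⟩
  obtain ⟨xp, hxp, hxpe, hxpm⟩ := exists_max hP (A := A) (μ - d) _ _ hW1
  obtain ⟨xm, hxm, hxme, hxmm⟩ := exists_max hP (A := A) (μ - d) _ _ hW2
  have hRL : R d = L d := sub_eq_zero.1 hd
  -- the global maximum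
  obtain ⟨z, hz, -, hzm⟩ := exists_max hP (A := A) (μ - d) (μ - W) (μ + W) (by linarith)
  have hzglob : ∀ y, phi P A (μ - d) y ≤ phi P A (μ - d) z := by
    intro y
    by_cases hy : |y - μ| ≤ W
    · exact hzm y ⟨by linarith [(abs_le.1 hy).1], by linarith [(abs_le.1 hy).2]⟩
    · refine le_trans (hbig d hd0 hdD y (le_of_not_ge hy)).le (le_trans ?_
        (hzm (μ - d) ⟨by linarith, by linarith⟩))
      simpa [phi] using hP.nonneg _
  have hglob : ∀ y, phi P A (μ - d) y ≤ R d := by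
    intro y
    refine (hzglob y).trans ?_
    by_cases h1 : μ + δ ≤ z
    · exact (hxpm z ⟨h1, hz.2⟩).trans hxpe.le
    by_cases h3 : z ≤ μ - δ
    · rw [hRL]; exact (hxmm z ⟨hz.1, h3⟩).trans hxme.le
    exact (hP.not_middle hA hδ hm0 hmp hp1 hright hleft hδA hd0 (not_le.1 h3) (not_le.1 h1) hzglob).elim
  refine ⟨hglob, ⟨xp, hxpe, ?_⟩, ⟨xm, by rw [hRL]; exact hxme, ?_⟩⟩
  · exact hP.max_right hA hδ hright hxp.1 fun y => (hglob y).trans hxpe.ge
  · exact hP.max_left hA hδ hleft hxm.2 fun y => (hglob y).trans (hRL.trans hxme.symm).le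

/-- Perturbing the maximum of `P` minus a parabola. -/
theorem Tame.perturb (hP : Tame Kq τ P) {A lam v a η ρ θ Q x : ℝ} (hA : 0 < A) (ha : A ≤ a)
    (hτA : 8 * τ * A ≤ 1) (hη : 0 ≤ η) (hρ : 1 ≤ ρ) (hθ : 0 ≤ θ) (hv : ∀ y, phi P A lam y ≤ v)
    (hQ : Q ≤ Kq + τ * x ^ 2)
    (hsmall : (ρ - 1 + ρ * θ) + 2 * (1 - (1 - η) * A / a) ≤ 1) :
    ρ * (P x + θ * Q) - (1 - η) * (x - lam) ^ 2 / (2 * a)
      ≤ v + 2 * ((ρ - 1 + ρ * θ) + (1 - (1 - η) * A / a)) * (Kq + 2 * τ * lam ^ 2) := by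
  set ν₁ := ρ - 1 + ρ * θ with hν₁
  set ν₂ := 1 - (1 - η) * A / a with hν₂
  set C := Kq + 2 * τ * lam ^ 2 with hC
  set u2 := (x - lam) ^ 2 / (4 * A) with hu2
  have hτ := hP.tau_nonneg
  have ha0 : 0 < a := lt_of_lt_of_le hA ha
  have hν1 : 0 ≤ ν₁ := by rw [hν₁]; nlinarith
  have hν2 : 0 ≤ ν₂ := by rw [hν₂, sub_nonneg, div_le_one ha0]; nlinarith
  have hu0 : 0 ≤ u2 := by positivity
  have hC0 : 0 ≤ C := add_nonneg hP.Kq_nonneg (by positivity)
  have hv0 : 0 ≤ v := le_trans (by simpa [phi] using hP.nonneg lam) (hv lam)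
  have hq : Kq + τ * x ^ 2 ≤ C + u2 := by
    have h1 : 2 * τ * (x - lam) ^ 2 ≤ u2 := by
      rw [hu2, le_div_iff₀ (by positivity)]
      nlinarith [mul_le_mul_of_nonneg_right hτA (sq_nonneg (x - lam))]
    rw [hC]
    nlinarith [mul_nonneg hτ (sq_nonneg (x - 2 * lam))]
  have hPq := (hP.le_quad x).trans hq
  have hQq := hQ.trans hq
  have hphi : phi P A lam x = P x - 2 * u2 := by
    rw [hu2, phi]; field_simp; ring
  have hpen : (1 - η) * (x - lam) ^ 2 / (2 * a) = 2 * u2 * (1 - ν₂) := by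
    rw [hu2, hν₂]; field_simp; ring
  have h1 := hv x
  rw [hphi] at h1
  rw [hpen]
  have h2 : ρ * (P x + θ * Q) ≤ P x + ν₁ * (C + u2) := by
    rw [hν₁]
    nlinarith [mul_le_mul_of_nonneg_left hPq (sub_nonneg.2 hρ),
      mul_le_mul_of_nonneg_left hQq (mul_nonneg (zero_le_one.trans hρ) hθ)]
  set ν := ν₁ + 2 * ν₂ with hν
  have h3 : P x - 2 * u2 ≤ (1 - ν) * v + ν * (C - u2) := by
    nlinarith [mul_le_mul_of_nonneg_left h1 (sub_nonneg.2 hsmall),
      mul_le_mul_of_nonneg_left (show P x - 2 * u2 ≤ C - u2 by linarith)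
        (show 0 ≤ ν by positivity)]
  nlinarith [mul_nonneg (show 0 ≤ ν by positivity) hv0]

/-- A weak parabola barely changes the value. -/
theorem Tame.weak (hP : Tame Kq τ P) {lam a η ρ θ Q x : ℝ} (ha : 0 < a) (hη : η ≤ 1 / 2)
    (hτ1 : 2 * τ ≤ 1) (hρ : 1 ≤ ρ) (hθ : 0 ≤ θ) (hQ : Q ≤ Kq + τ * x ^ 2)
    (hν : ρ - 1 + ρ * θ ≤ 1) (hasmall : 8 * a * (Kq + 2 * τ * lam ^ 2 + 2) ≤ 1) :
    ρ * (P x + θ * Q) - (1 - η) * (x - lam) ^ 2 / (2 * a)
      ≤ P lam + (ρ - 1 + ρ * θ) * (Kq + 2 * τ * lam ^ 2)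
        + 2 * a * (Kq + 2 * τ * lam ^ 2 + 1) ^ 2 := by
  set ν₁ := ρ - 1 + ρ * θ with hν₁
  set C := Kq + 2 * τ * lam ^ 2 with hC
  set u := x - lam with hu
  have hτ := hP.tau_nonneg
  have hC0 : 0 ≤ C := add_nonneg hP.Kq_nonneg (by positivity)
  have hq : Kq + τ * x ^ 2 ≤ C + u ^ 2 := by
    rw [hC, hu]
    nlinarith [mul_nonneg hτ (sq_nonneg (x - 2 * lam)),
      mul_le_mul_of_nonneg_right hτ1 (sq_nonneg (x - lam))]
  have h2 : ρ * (P x + θ * Q) ≤ P x + ν₁ * (C + u ^ 2) := by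
    rw [hν₁]
    nlinarith [mul_le_mul_of_nonneg_left ((hP.le_quad x).trans hq) (sub_nonneg.2 hρ),
      mul_le_mul_of_nonneg_left (hQ.trans hq) (mul_nonneg (zero_le_one.trans hρ) hθ)]
  have h3 : P x ≤ P lam + (C + 1) * (|u| + u ^ 2) := by
    have hnn : 0 ≤ (C + 1) * (|u| + u ^ 2) := by positivity
    rcases le_or_gt u 0 with hu0 | hu0
    · linarith [hP.mono (show x ≤ lam by linarith)]
    rw [abs_of_pos hu0] at hnn ⊢
    rcases lt_trichotomy u 1 with hu1 | hu1 | hu1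
    · have h4 := hP.adjacent (show lam < x by linarith) (show x < lam + 1 by linarith)
      have h5 : P (lam + 1) ≤ C + 1 := by
        have := hP.le_shift (lam + 1) lam
        rw [hC]; nlinarith
      have h6 : (P x - P lam) * 1 ≤ (P (lam + 1) - P lam) * u := by rw [hu] at *; linarith
      nlinarith [hP.nonneg lam]
    all_goals
      have h5 : P x ≤ C + u ^ 2 := (hP.le_quad x).trans hq
      nlinarith [hP.nonneg lam, mul_nonneg hC0 (sq_nonneg u)]
  have h7 : u ^ 2 / (4 * a) ≤ (1 - η) * u ^ 2 / (2 * a) := by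
    rw [div_le_div_iff₀ (by positivity) (by positivity)]
    nlinarith [mul_nonneg (mul_nonneg ha.le (sq_nonneg u)) (sub_nonneg.2 hη)]
  have h8 : (C + 1) * |u| + (C + 2) * u ^ 2 - u ^ 2 / (4 * a) ≤ 2 * a * (C + 1) ^ 2 := by
    have h9 : (C + 2) * u ^ 2 ≤ u ^ 2 / (8 * a) := by
      rw [le_div_iff₀ (by positivity)]
      nlinarith [mul_le_mul_of_nonneg_right hasmall (sq_nonneg u)]
    have h10 : (C + 1) * |u| ≤ u ^ 2 / (8 * a) + 2 * a * (C + 1) ^ 2 := by
      rw [← sq_abs u, ← sub_le_iff_le_add, le_div_iff₀ (by positivity)]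
      nlinarith [sq_nonneg (|u| - 4 * a * (C + 1))]
    have h11 : u ^ 2 / (4 * a) = u ^ 2 / (8 * a) + u ^ 2 / (8 * a) := by field_simp; ring
    linarith
  nlinarith [mul_le_mul_of_nonneg_right hν (sq_nonneg u)]

end Vale.Agent.P171
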