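import Vale.Agent.P171.Kac
import Vale.Agent.P171.Convex

/-!
The iterative choice of strengths and radii.
-/

open MeasureTheory Finset Filter Topology
open scoped ENNReal Nat

namespace Vale.Agent.P171

/-- The first strength. -/
noncomputable def amax : ℝ := 2 ^ 21

/-- The margin of stability. -/
noncomputable def gap : ℝ := 256 * amax

/-- The bound on all attractions. -/
noncomputable def attr : ℝ := 2048 * amax

/-- The height of the core. -/
noncomputable def height : ℝ := 2 * gap + attr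

/-- The constant of the common quadratic bound. -/
noncomputable def kq : ℝ := 8 + 8 * gap + 2 * attr ^ 2 / gap

/-- The curvature of the common quadratic bound. -/
noncomputable def curv : ℝ := 8 / gap

/-- The quadratic bound near `mu`. -/
noncomputable def bnd (mu : ℝ) : ℝ := kq + 2 * curv * mu ^ 2

theorem amax_pos : 0 < amax := by unfold amax; positivity

theorem gap_pos : 0 < gap := by unfold gap; linarith [amax_pos]

theorem kq_nonneg : 0 ≤ kq := by
  have := gap_pos; unfold kq; positivity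

theorem curv_nonneg : 0 ≤ curv := by
  have := gap_pos; unfold curv; positivity

theorem bnd_nonneg (mu : ℝ) : 0 ≤ bnd mu := by
  have := curv_nonneg; have := kq_nonneg; unfold bnd; positivity

theorem curv_small : 2 * curv ≤ 1 := by
  unfold curv gap amax; norm_num

theorem curv_amax {a : ℝ} (ha : a ≤ amax) : 8 * curv * (4 * a) ≤ 1 := by
  have h : 8 * curv * (4 * amax) = 1 := by
    have := amax_pos; unfold curv gap; field_simp; ring
  have := curv_nonneg
  calc 8 * curv * (4 * a) ≤ 8 * curv * (4 * amax) := by gcongr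
    _ = 1 := h

theorem psi_quad (x : ℝ) : 8 * psi gap (x + attr / 2) ≤ kq + curv * x ^ 2 := by
  have hg := gap_pos
  set y := x + attr / 2 with hy
  have h1 : |y| ≤ y ^ 2 / (4 * gap) + gap := by
    rw [← sub_le_iff_le_add, le_div_iff₀ (by positivity), ← sq_abs y]
    nlinarith [sq_nonneg (|y| - 2 * gap)]
  have h2 : y ^ 2 / (2 * gap) ≤ x ^ 2 / gap + attr ^ 2 / (4 * gap) := by
    rw [div_add_div _ _ hg.ne' (by positivity), div_le_div_iff₀ (by positivity) (by positivity)]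
    rw [hy]
    nlinarith [mul_nonneg (mul_nonneg hg.le hg.le) (sq_nonneg (x - attr / 2))]
  have h3 : y ^ 2 / (4 * gap) + y ^ 2 / (4 * gap) = y ^ 2 / (2 * gap) := by field_simp; ring
  have h4 : kq + curv * x ^ 2
      = 8 * (1 + gap + (x ^ 2 / gap + attr ^ 2 / (4 * gap))) := by
    unfold kq curv; field_simp; ring
  rw [h4, psi]
  linarith

theorem Adm.tame {h : ℝ} {T : ℝ → ℝ} (hA : Adm h gap attr T) :
    Tame kq curv (pressure h T) where
  convex := hA.pressure_convex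
  mono := fun _ _ hxy => hA.pressure_mono (fun _ => le_rfl) hxy
  nonneg := hA.pressure_nonneg
  le_quad := fun x => (hA.pressure_le_quad x).trans (psi_quad x)
  tau_nonneg := curv_nonneg

theorem Profile.le_of {T : ℝ → ℝ} {S S' : ℝ} (hT : Profile T S) (h : S ≤ S') : Profile T S' :=
  ⟨hT.nonneg, hT.anti, fun J k => (hT.row J k).trans h⟩

theorem Profile.add {T T' : ℝ → ℝ} {S S' : ℝ} (hT : Profile T S) (hT' : Profile T' S') :
    Profile (fun r => T r + T' r) (S + S') :=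
  ⟨fun r => add_nonneg (hT.nonneg r) (hT'.nonneg r), fun _ _ h => add_le_add (hT.anti h) (hT'.anti h),
    fun J k => by rw [sum_add_distrib]; exact add_le_add (hT.row J k) (hT'.row J k)⟩

theorem Profile.const_mul {T : ℝ → ℝ} {S c : ℝ} (hT : Profile T S) (hc : 0 ≤ c) :
    Profile (fun r => c * T r) (c * S) :=
  ⟨fun r => mul_nonneg hc (hT.nonneg r), fun _ _ h => mul_le_mul_of_nonneg_left (hT.anti h) hc,
    fun J k => by rw [← mul_sum]; exact mul_le_mul_of_nonneg_left (hT.row J k) hc⟩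

theorem tail_eq_tails {a r₀ : ℝ} (ha : 0 ≤ a) (hr : 1 ≤ r₀) :
    ∃ A : ℕ → ℝ, Sched A (fun _ => r₀) ∧ ∑' i, A i = a ∧ tails A (fun _ => r₀) = tail a r₀ := by
  classical
  refine ⟨fun i => if i = 0 then a else 0, ⟨fun i => by split_ifs <;> linarith,
    summable_of_ne_finset_zero (s := {0}) fun i hi => by simp at hi; simp [hi], fun _ => hr⟩,
    by simp, ?_⟩
  funext r
  unfold tails
  rw [tsum_eq_single 0 fun i hi => by simp [hi, tail]]
  simp

theorem profile_tail {a r₀ : ℝ} (ha : 0 ≤ a) (hr : 1 ≤ r₀) : Profile (tail a r₀) (512 * a) := by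
  obtain ⟨A, hs, hsum, heq⟩ := tail_eq_tails ha hr
  have := hs.profile
  rwa [hsum, heq] at this

theorem tail_row {a r₀ ℓ c : ℝ} (ha : 0 ≤ a) (hr : 1 ≤ r₀) (hℓ : 0 < ℓ) (hc : 0 ≤ c)
    (hR : 6 * ℓ ≤ c * r₀) (J : Finset Lbl) (k : Lbl) :
    (∑ j ∈ J, tail a r₀ (dist (corner 0 ℓ k) (corner 0 ℓ j) - 4 * ℓ)) * ℓ ^ 3
      ≤ (1 + c) ^ 3 * a := by
  obtain ⟨A, hs, hsum, heq⟩ := tail_eq_tails ha hr
  have := hs.row_le hℓ hc (fun _ _ => hR) J k
  rwa [hsum, heq] at this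

theorem adm_of_profile {T : ℝ → ℝ} {t : ℝ} (hT : Profile T (512 * t)) (ht : t ≤ 4 * amax) :
    Adm height gap attr T :=
  ⟨hT.le_of (by unfold attr; linarith), by unfold gap amax; norm_num, le_rfl⟩

/-- What the upper bounds need about the present attraction. -/
structure Base (T : ℝ → ℝ) (r₀ : ℝ) : Prop where
  adm : Adm height gap attr T
  adm_two : Adm height gap attr fun r => 2 * T r
  vanish : ∀ r, r₀ ≤ r → T r = 0
  one_le : 1 ≤ r₀

theorem tendsto_grid (r₀ : ℝ) (hr : 0 < r₀) :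
    Tendsto (fun n : ℕ => (((n : ℝ) * r₀ + 1) / ((n : ℝ) * r₀)) ^ 3) atTop (𝓝 1) ∧
    Tendsto (fun n : ℕ => 3 / ((n : ℝ) - 3)) atTop (𝓝 0) ∧
    Tendsto (fun n : ℕ => 1 / ((n : ℝ) * r₀) ^ 3) atTop (𝓝 0) ∧
    Tendsto (fun n : ℕ => 1 / (n : ℝ)) atTop (𝓝 0) := by
  have h0 : Tendsto (fun n : ℕ => (n : ℝ) * r₀) atTop atTop :=
    tendsto_natCast_atTop_atTop.atTop_mul_const hr
  have h1 : Tendsto (fun n : ℕ => 1 / ((n : ℝ) * r₀)) atTop (𝓝 0) := h0.const_div_atTop 1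
  refine ⟨?_, ?_, ?_, tendsto_natCast_atTop_atTop.const_div_atTop 1⟩
  · have h2 : Tendsto (fun n : ℕ => (1 + 1 / ((n : ℝ) * r₀)) ^ 3) atTop (𝓝 ((1 + 0) ^ 3)) :=
      (tendsto_const_nhds.add h1).pow 3
    rw [add_zero, one_pow] at h2
    refine h2.congr' ?_
    filter_upwards [eventually_gt_atTop 0] with n hn
    have : (0 : ℝ) < (n : ℝ) * r₀ := by positivity
    field_simp
  · exact (tendsto_atTop_add_const_right _ (-3) tendsto_natCast_atTop_atTop).const_div_atTop 3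
  · have := h1.pow 3
    simp only [div_pow, one_pow] at this
    simpa using this

/-- The upper bound near a maximum, in the limit of large cells. -/
theorem Base.upper_max {T : ℝ → ℝ} {r₀ : ℝ} (hB : Base T r₀) {A lam v e : ℝ} (hA : 0 < A)
    (hA' : A ≤ amax) (hv : ∀ x, phi (pressure height T) A lam x ≤ v) (he : 0 < e) :
    ∃ R₀, ∀ R, R₀ ≤ R → 1 ≤ R → Adm height gap attr (fun r => T r + tail A R r) →
      pressure height (fun r => T r + tail A R r) lam ≤ v + e := by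
  have hr : 0 < r₀ := lt_of_lt_of_le one_pos hB.one_le
  obtain ⟨t1, t2, t3, t4⟩ := tendsto_grid r₀ hr
  set C := bnd lam with hC
  have tν1 : Tendsto (fun n : ℕ => (((n : ℝ) * r₀ + 1) / ((n : ℝ) * r₀)) ^ 3 - 1
      + (((n : ℝ) * r₀ + 1) / ((n : ℝ) * r₀)) ^ 3 * (3 / ((n : ℝ) - 3))) atTop (𝓝 0) := by
    simpa using (t1.sub_const 1).add (t1.mul t2)
  have tν2 : Tendsto (fun n : ℕ => 1 - (1 - 1 / (n : ℝ)) * A / ((1 + 1 / (n : ℝ)) ^ 3 * A))
      atTop (𝓝 0) := by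
    have := (((t4.const_sub 1).mul_const A).div (((t4.const_add 1).pow 3).mul_const A)
      (by simpa using hA.ne')).const_sub 1
    simpa [hA.ne'] using this
  have t5 := (((t4.div_const 2).add t3).add (((tν1.add tν2).const_mul 2).mul_const C))
  simp only [zero_div, add_zero, mul_zero, zero_mul] at t5
  have t6 := tν1.add (tν2.const_mul 2)
  simp only [mul_zero, add_zero] at t6
  obtain ⟨n, hn1, hn2, hn6⟩ := ((t5.eventually (eventually_le_nhds he)).and
    ((t6.eventually (eventually_le_nhds one_pos)).and (eventually_ge_atTop 6))).exists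
  have hn : (6 : ℝ) ≤ n := by exact_mod_cast hn6
  have hℓ : 0 < (n : ℝ) * r₀ := by positivity
  refine ⟨6 * ((n : ℝ) * r₀) * n, fun R hR hR1 hAdm => ?_⟩
  have hsp : Split height gap attr T (tail A R) r₀ :=
    ⟨hB.adm, hB.adm_two, tail_anti hA.le (by linarith), tail_nonneg hA.le (by linarith), hB.vanish,
      hB.one_le⟩
  have hcR : 6 * ((n : ℝ) * r₀) ≤ 1 / (n : ℝ) * R := by
    rw [one_div_mul_eq_div, le_div_iff₀ (by positivity)]; exact hR
  have ha : A ≤ (1 + 1 / (n : ℝ)) ^ 3 * A :=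
    le_mul_of_one_le_left hA.le (one_le_pow₀ (by linarith [show (0 : ℝ) ≤ 1 / n by positivity]))
  have hV : 2 ≤ ((n : ℝ) * r₀) ^ 3 * (1 / (n : ℝ)) ^ 2 := by
    rw [show ((n : ℝ) * r₀) ^ 3 * (1 / (n : ℝ)) ^ 2 = n * r₀ ^ 3 by field_simp]
    nlinarith [one_le_pow₀ (n := 3) hB.one_le]
  have hup := hsp.pressure_le hAdm lam (M := n) hn6 (a := (1 + 1 / (n : ℝ)) ^ 3 * A)
    (η := 1 / (n : ℝ)) (by positivity) (by positivity) hV
    (fun J k => tail_row hA.le hR1 hℓ (by positivity) hcR J k)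
    (G := v + 2 * (((((n : ℝ) * r₀ + 1) / ((n : ℝ) * r₀)) ^ 3 - 1
      + (((n : ℝ) * r₀ + 1) / ((n : ℝ) * r₀)) ^ 3 * (3 / ((n : ℝ) - 3)))
      + (1 - (1 - 1 / (n : ℝ)) * A / ((1 + 1 / (n : ℝ)) ^ 3 * A))) * C)
    (fun x => hB.adm.tame.perturb hA ha (by nlinarith [curv_amax hA', curv_nonneg]) (by positivity)
      (one_le_pow₀ ((one_le_div hℓ).2 (by linarith))) (div_nonneg (by norm_num) (by linarith)) hv
      (psi_quad x) hn2)
  linarith

/-- The upper bound for weak tails, in the limit of large cells. -/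
theorem Base.upper_weak {T : ℝ → ℝ} {r₀ : ℝ} (hB : Base T r₀) {a lam e : ℝ} (ha : 0 < a)
    (hsmall : 8 * a * (bnd lam + 2) ≤ 1) (he : 0 < e) :
    ∃ ℓ, 0 < ℓ ∧ ∀ Tr : ℝ → ℝ, Antitone Tr → (∀ r, 0 ≤ Tr r) →
      Adm height gap attr (fun r => T r + Tr r) →
      (∀ (J : Finset Lbl) (k : Lbl),
        (∑ j ∈ J, Tr (dist (corner 0 ℓ k) (corner 0 ℓ j) - 4 * ℓ)) * ℓ ^ 3 ≤ a) →
      pressure height (fun r => T r + Tr r) lam
        ≤ pressure height T lam + 2 * a * (bnd lam + 1) ^ 2 + e := by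
  have hr : 0 < r₀ := lt_of_lt_of_le one_pos hB.one_le
  obtain ⟨t1, t2, t3, t4⟩ := tendsto_grid r₀ hr
  set C := bnd lam with hC
  have tν1 : Tendsto (fun n : ℕ => (((n : ℝ) * r₀ + 1) / ((n : ℝ) * r₀)) ^ 3 - 1
      + (((n : ℝ) * r₀ + 1) / ((n : ℝ) * r₀)) ^ 3 * (3 / ((n : ℝ) - 3))) atTop (𝓝 0) := by
    simpa using (t1.sub_const 1).add (t1.mul t2)
  have t5 := ((t4.div_const 2).add t3).add (tν1.mul_const C)
  simp only [zero_div, add_zero, zero_mul] at t5
  obtain ⟨n, hn1, hn2, hn6⟩ := ((t5.eventually (eventually_le_nhds he)).and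
    ((tν1.eventually (eventually_le_nhds one_pos)).and (eventually_ge_atTop 6))).exists
  have hn : (6 : ℝ) ≤ n := by exact_mod_cast hn6
  have hℓ : 0 < (n : ℝ) * r₀ := by positivity
  refine ⟨(n : ℝ) * r₀, hℓ, fun Tr hTa hT0 hAdm hrow => ?_⟩
  have hsp : Split height gap attr T Tr r₀ :=
    ⟨hB.adm, hB.adm_two, hTa, hT0, hB.vanish, hB.one_le⟩
  have hV : 2 ≤ ((n : ℝ) * r₀) ^ 3 * (1 / (n : ℝ)) ^ 2 := by
    rw [show ((n : ℝ) * r₀) ^ 3 * (1 / (n : ℝ)) ^ 2 = n * r₀ ^ 3 by field_simp]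
    nlinarith [one_le_pow₀ (n := 3) hB.one_le]
  have hup := hsp.pressure_le hAdm lam (M := n) hn6 (a := a) (η := 1 / (n : ℝ)) ha (by positivity)
    hV hrow
    (G := pressure height T lam + ((((n : ℝ) * r₀ + 1) / ((n : ℝ) * r₀)) ^ 3 - 1
      + (((n : ℝ) * r₀ + 1) / ((n : ℝ) * r₀)) ^ 3 * (3 / ((n : ℝ) - 3))) * C
      + 2 * a * (C + 1) ^ 2)
    (fun x => hB.adm.tame.weak ha (by rw [div_le_div_iff₀ (by positivity) two_pos]; linarith)
      curv_small (one_le_pow₀ ((one_le_div hℓ).2 (by linarith)))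
      (div_nonneg (by norm_num) (by linarith)) (psi_quad x) hn2 hsmall)
  linarith

/-- The upper slope at stage `k`. -/
noncomputable def slopeUp (k : ℕ) : ℝ := 1 / 16 + 1 / 64 * (1 + (1 / 2) ^ k)

/-- The lower slope at stage `k`. -/
noncomputable def slopeDn (k : ℕ) : ℝ := 1 / 16 - 1 / 64 * (1 + (1 / 2) ^ k)

theorem half_pow_le_one (k : ℕ) : ((1 : ℝ) / 2) ^ k ≤ 1 := pow_le_one₀ (by norm_num) (by norm_num)

/-- A stage of the construction. -/
structure Stage where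
  T : ℝ → ℝ
  rad : ℝ
  tot : ℝ
  mu : ℝ
  dl : ℝ
  nxt : ℝ

/-- What is known at stage `k`. -/
structure Inv (k : ℕ) (st : Stage) : Prop where
  nxt_pos : 0 < st.nxt
  tot_nonneg : 0 ≤ st.tot
  room : st.tot + 2 * st.nxt ≤ 2 * amax
  prof : Profile st.T (512 * st.tot)
  one_le : 1 ≤ st.rad
  vanish : ∀ r, st.rad ≤ r → st.T r = 0
  nxt_small : 1 ≤ k → st.nxt * (16 * (bnd st.mu + 3) ^ 2 * 4 ^ k) ≤ 1
  dl_pos : 0 < st.dl
  dl_le : st.dl * 65536 ≤ st.nxt
  dl_small : 1 ≤ k → st.dl ≤ (1 / 2) ^ k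
  right : pressure height st.T st.mu + slopeUp k * st.dl ≤ pressure height st.T (st.mu + st.dl)
  left : pressure height st.T st.mu - slopeDn k * st.dl ≤ pressure height st.T (st.mu - st.dl)

theorem Inv.base {k : ℕ} {st : Stage} (h : Inv k st) : Base st.T st.rad where
  adm := adm_of_profile h.prof (by linarith [h.room, h.nxt_pos, amax_pos])
  adm_two := adm_of_profile (t := 2 * st.tot)
    (by rw [show 512 * (2 * st.tot) = 2 * (512 * st.tot) by ring]
        exact h.prof.const_mul zero_le_two) (by linarith [h.room, h.nxt_pos])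
  vanish := h.vanish
  one_le := h.one_le

/-- How a stage extends the previous one. -/
structure Next (k : ℕ) (st st' : Stage) : Prop where
  T_eq : st'.T = fun r => st.T r + tail st.nxt st'.rad r
  rad_le : st.rad ≤ st'.rad
  nxt_le : st'.nxt ≤ st.nxt / 2
  mu_le : 1 ≤ k → |st'.mu - st.mu| ≤ 2 * (1 / 2) ^ k
  upper : 1 ≤ k → ∃ ℓ, 0 < ℓ ∧ 6 * ℓ ≤ st'.rad ∧ ∀ Tr : ℝ → ℝ, Antitone Tr → (∀ r, 0 ≤ Tr r) →
      Adm height gap attr (fun r => st.T r + Tr r) →
      (∀ (J : Finset Lbl) (m : Lbl),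
        (∑ j ∈ J, Tr (dist (corner 0 ℓ m) (corner 0 ℓ j) - 4 * ℓ)) * ℓ ^ 3 ≤ 16 * st.nxt) →
      pressure height (fun r => st.T r + Tr r) st.mu
        ≤ pressure height st.T st.mu + 3 * (1 / 4) ^ k

theorem Inv.upper {k : ℕ} {st : Stage} (h : Inv k st) :
    ∃ ℓ, 0 < ℓ ∧ (1 ≤ k → ∀ Tr : ℝ → ℝ, Antitone Tr → (∀ r, 0 ≤ Tr r) →
      Adm height gap attr (fun r => st.T r + Tr r) →
      (∀ (J : Finset Lbl) (m : Lbl),
        (∑ j ∈ J, Tr (dist (corner 0 ℓ m) (corner 0 ℓ j) - 4 * ℓ)) * ℓ ^ 3 ≤ 16 * st.nxt) →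
      pressure height (fun r => st.T r + Tr r) st.mu
        ≤ pressure height st.T st.mu + 3 * (1 / 4) ^ k) := by
  by_cases hk : 1 ≤ k
  · have hA := h.nxt_pos
    have hC := bnd_nonneg st.mu
    have hn := h.nxt_small hk
    have h4 : (4 : ℝ) ≤ 4 ^ k := le_self_pow₀ (by norm_num) (by omega)
    have hs : 8 * (16 * st.nxt) * (bnd st.mu + 2) ≤ 1 := by
      have : 8 * (bnd st.mu + 2) ≤ (bnd st.mu + 3) ^ 2 * 4 ^ k := by
        calc 8 * (bnd st.mu + 2) ≤ (bnd st.mu + 3) ^ 2 * 4 := by nlinarith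
          _ ≤ _ := mul_le_mul_of_nonneg_left h4 (sq_nonneg _)
      nlinarith [mul_le_mul_of_nonneg_left this (mul_nonneg (by norm_num : (0 : ℝ) ≤ 16) hA.le)]
    obtain ⟨ℓ, hℓ0, hℓ⟩ := h.base.upper_weak (a := 16 * st.nxt) (lam := st.mu)
      (e := (1 / 4 : ℝ) ^ k) (by linarith) hs (by positivity)
    refine ⟨ℓ, hℓ0, fun _ Tr h1 h2 h3 h4 => (hℓ Tr h1 h2 h3 h4).trans ?_⟩
    have : 2 * (16 * st.nxt) * (bnd st.mu + 1) ^ 2 ≤ 2 * (1 / 4) ^ k := by
      rw [div_pow, one_pow, mul_one_div, le_div_iff₀ (by positivity)]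
      have : (bnd st.mu + 1) ^ 2 * 4 ^ k ≤ (bnd st.mu + 3) ^ 2 * 4 ^ k := by gcongr; linarith
      nlinarith [mul_le_mul_of_nonneg_left this hA.le]
    linarith
  · exact ⟨1, one_pos, fun hk' => absurd hk' hk⟩

theorem Inv.split_point {k : ℕ} {st : Stage} (h : Inv k st) :
    ∃ d, 0 ≤ d ∧ (1 ≤ k → d ≤ 2 * (1 / 2) ^ k) ∧ ∃ v,
      (∀ x, phi (pressure height st.T) st.nxt (st.mu - d) x ≤ v) ∧
      (∃ x, phi (pressure height st.T) st.nxt (st.mu - d) x = v
        ∧ slopeUp k * st.nxt ≤ x - (st.mu - d)) ∧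
      (∃ x, phi (pressure height st.T) st.nxt (st.mu - d) x = v
        ∧ x - (st.mu - d) ≤ slopeDn k * st.nxt) := by
  have hC := bnd_nonneg st.mu
  have hA := h.nxt_pos
  have hAmax : st.nxt ≤ amax := by linarith [h.tot_nonneg, h.room]
  have hq0 : (0 : ℝ) < (1 / 2) ^ k := by positivity
  have hq1 : ((1 : ℝ) / 2) ^ k ≤ 1 := half_pow_le_one k
  have hΔ : (1 : ℝ) / 1024 ≤ (slopeUp k - slopeDn k) ^ 2 := by
    have : (1 : ℝ) / 32 ≤ slopeUp k - slopeDn k := by simp only [slopeUp, slopeDn]; linarith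
    nlinarith
  set D := st.dl + √(4 * st.nxt * (bnd st.mu + 1)) with hD
  have hsq0 := Real.sqrt_nonneg (4 * st.nxt * (bnd st.mu + 1))
  have hsq := Real.sq_sqrt (show 0 ≤ 4 * st.nxt * (bnd st.mu + 1) by positivity)
  obtain ⟨d, hd0, hdD, hrest⟩ :=
    h.base.adm.tame.two_maximisers hA (curv_amax hAmax) h.dl_pos
      (show 0 ≤ slopeDn k by simp only [slopeDn]; linarith)
      (show slopeDn k < slopeUp k by simp only [slopeUp, slopeDn]; linarith)
      (show slopeUp k ≤ 1 by simp only [slopeUp]; linarith) h.right h.left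
      (by linarith [h.dl_le, mul_le_mul_of_nonneg_left hΔ hA.le])
      (show st.dl ≤ D by linarith)
      (by
        have := pow_le_pow_left₀ hsq0 (show √(4 * st.nxt * (bnd st.mu + 1)) ≤ D by
          linarith [h.dl_pos]) 2
        rw [hsq] at this
        exact this)
  refine ⟨d, hd0, fun hk => hdD.trans ?_, hrest⟩
  have : √(4 * st.nxt * (bnd st.mu + 1)) ≤ (1 / 2) ^ k := by
    rw [Real.sqrt_le_left hq0.le]
    have hn := h.nxt_small hk
    have e1 : ((1 / 2 : ℝ) ^ k) ^ 2 * 4 ^ k = 1 := by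
      rw [← pow_mul, mul_comm k 2, pow_mul, ← mul_pow]; norm_num
    have h16 : 4 * (bnd st.mu + 1) ≤ 16 * (bnd st.mu + 3) ^ 2 := by nlinarith
    refine le_of_mul_le_mul_right ?_ (show (0 : ℝ) < 4 ^ k by positivity)
    rw [e1]
    linarith [mul_le_mul_of_nonneg_right h16
      (mul_nonneg hA.le (show (0 : ℝ) ≤ 4 ^ k by positivity))]
  linarith [h.dl_small hk]

theorem slope_gain {a h γ s P0 Pp v e ρ x mu : ℝ} (ha : 0 < a) (hh : 0 < h) (hhγ : h ≤ a * γ)
    (he : e = γ * h / 4) (hP0 : P0 ≤ v + e)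
    (hv : v = s - (x - mu) ^ 2 / (2 * a)) (hρ : ρ * a ≤ x - mu)
    (hPp : s - (x - (mu + h)) ^ 2 / (2 * a) - e ≤ Pp) :
    P0 + (ρ - γ) * h ≤ Pp := by
  have e1 : (x - (mu + h)) ^ 2 / (2 * a)
      = (x - mu) ^ 2 / (2 * a) - (x - mu) / a * h + h ^ 2 / (2 * a) := by
    field_simp; ring
  have h1 : h ^ 2 / (2 * a) ≤ γ * h / 2 := by
    rw [div_le_div_iff₀ (by linarith) two_pos]
    nlinarith [mul_le_mul_of_nonneg_right hhγ hh.le]
  have h2 : ρ * h ≤ (x - mu) / a * h :=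
    mul_le_mul_of_nonneg_right ((le_div_iff₀ ha).2 hρ) hh.le
  linarith

theorem slope_loss {a h γ s P0 Pm v e ρ x mu : ℝ} (ha : 0 < a) (hh : 0 < h) (hhγ : h ≤ a * γ)
    (he : e = γ * h / 4) (hP0 : P0 ≤ v + e)
    (hv : v = s - (x - mu) ^ 2 / (2 * a)) (hρ : x - mu ≤ ρ * a)
    (hPm : s - (x - (mu - h)) ^ 2 / (2 * a) - e ≤ Pm) :
    P0 - (ρ + γ) * h ≤ Pm := by
  have e1 : (x - (mu - h)) ^ 2 / (2 * a)
      = (x - mu) ^ 2 / (2 * a) + (x - mu) / a * h + h ^ 2 / (2 * a) := by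
    field_simp; ring
  have h1 : h ^ 2 / (2 * a) ≤ γ * h / 2 := by
    rw [div_le_div_iff₀ (by linarith) two_pos]
    nlinarith [mul_le_mul_of_nonneg_right hhγ hh.le]
  have h2 : (x - mu) / a * h ≤ ρ * h :=
    mul_le_mul_of_nonneg_right ((div_le_iff₀ ha).2 hρ) hh.le
  linarith

theorem exists_next {k : ℕ} {st : Stage} (h : Inv k st) :
    ∃ st', Inv (k + 1) st' ∧ Next k st st' := by
  have hA := h.nxt_pos
  have hAmax : st.nxt ≤ amax := by linarith [h.tot_nonneg, h.room]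
  obtain ⟨d, hd0, hdk, v, hv, ⟨xp, hxp, hxp'⟩, ⟨xm, hxm, hxm'⟩⟩ := h.split_point
  obtain ⟨ℓ, hℓ0, hℓ⟩ := h.upper
  have hC' := bnd_nonneg (st.mu - d)
  have hden : 0 < 16 * (bnd (st.mu - d) + 3) ^ 2 * 4 ^ (k + 1) := by positivity
  obtain ⟨γ, hγ⟩ : ∃ γ : ℝ, γ = 1 / 128 * (1 / 2) ^ k := ⟨_, rfl⟩
  have hγ0 : 0 < γ := by rw [hγ]; positivity
  obtain ⟨a', ha'⟩ : ∃ a' : ℝ,
      a' = min (st.nxt / 2) (1 / (16 * (bnd (st.mu - d) + 3) ^ 2 * 4 ^ (k + 1))) := ⟨_, rfl⟩
  have ha'0 : 0 < a' := by rw [ha']; exact lt_min (by linarith) (by positivity)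
  have ha'1 : a' ≤ st.nxt / 2 := by rw [ha']; exact min_le_left _ _
  have ha'2 : a' ≤ 1 / (16 * (bnd (st.mu - d) + 3) ^ 2 * 4 ^ (k + 1)) := by
    rw [ha']; exact min_le_right _ _
  obtain ⟨h', hh0, hh1, hh2, hh3⟩ : ∃ h' : ℝ, 0 < h' ∧ h' * 65536 ≤ a' ∧ h' ≤ st.nxt * γ
      ∧ h' ≤ (1 / 2) ^ (k + 1) := by
    refine ⟨min (min (a' / 65536) (st.nxt * γ)) ((1 / 2) ^ (k + 1)),
      lt_min (lt_min (by positivity) (by positivity)) (by positivity),
      (le_div_iff₀ (by norm_num)).1 ((min_le_left _ _).trans (min_le_left _ _)),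
      (min_le_left _ _).trans (min_le_right _ _), min_le_right _ _⟩
  obtain ⟨e, he⟩ : ∃ e : ℝ, e = γ * h' / 4 := ⟨_, rfl⟩
  have he0 : 0 < e := by rw [he]; positivity
  obtain ⟨R1, hR1⟩ := h.base.upper_max hA hAmax hv he0
  obtain ⟨R2, hR2⟩ := h.base.adm.kac_lower hA xp (st.mu - d + h') he0
  obtain ⟨R3, hR3⟩ := h.base.adm.kac_lower hA xm (st.mu - d - h') he0
  obtain ⟨R, hRa, hRb, hRc, hRr, hRl⟩ : ∃ R, R1 ≤ R ∧ R2 ≤ R ∧ R3 ≤ R ∧ st.rad ≤ R ∧ 6 * ℓ ≤ R :=
    ⟨max (max R1 R2) (max R3 (max st.rad (6 * ℓ))), by simp, by simp, by simp, by simp, by simp⟩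
  have hR1' : 1 ≤ R := h.one_le.trans hRr
  have hprof : Profile (fun r => st.T r + tail st.nxt R r) (512 * (st.tot + st.nxt)) := by
    rw [mul_add]; exact h.prof.add (profile_tail hA.le hR1')
  have hadm : Adm height gap attr fun r => st.T r + tail st.nxt R r :=
    adm_of_profile hprof (by linarith [h.room, amax_pos])
  have u1 := hR1 R hRa hR1' hadm
  have u2 := hR2 R hRb hadm
  have u3 := hR3 R hRc hadm
  have hup : slopeUp (k + 1) = slopeUp k - γ := by
    rw [hγ]; simp only [slopeUp, pow_succ]; ring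
  have hdn : slopeDn (k + 1) = slopeDn k + γ := by
    rw [hγ]; simp only [slopeDn, pow_succ]; ring
  refine ⟨⟨fun r => st.T r + tail st.nxt R r, R, st.tot + st.nxt, st.mu - d, h', a'⟩, ?_, ?_⟩
  · refine ⟨ha'0, by linarith [h.tot_nonneg], by linarith [h.room], hprof, hR1', ?_,
      fun _ => (le_div_iff₀ hden).1 ha'2, hh0, hh1, fun _ => hh3, ?_, ?_⟩
    · intro r hr
      simp only at hr ⊢
      rw [h.vanish r (hRr.trans hr), tail, if_neg (not_lt.2 hr), add_zero]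
    · rw [hup]
      exact slope_gain hA hh0 hh2 he u1 hxp.symm hxp' u2
    · rw [hdn]
      exact slope_loss hA hh0 hh2 he u1 hxm.symm hxm' u3
  · refine ⟨rfl, hRr, ha'1, fun hk => ?_, fun hk => ⟨ℓ, hℓ0, hRl, hℓ hk⟩⟩
    simp only
    rw [show st.mu - d - st.mu = -d by ring, abs_neg, abs_of_nonneg hd0]
    exact hdk hk

theorem pressure_zero_le : pressure height (fun _ => 0) 0 ≤ 1 := by
  refine csSup_le (image_nonempty _ _ _) ?_
  rintro _ ⟨ℓ, hℓ, rfl⟩
  have hℓ0 : 0 < ℓ := hℓ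
  have hh : 0 ≤ height := by unfold height attr; linarith [gap_pos, amax_pos]
  simp only
  rw [div_le_one (by positivity)]
  refine le_trans (logZ_le_of_GP_le (c := ℓ ^ 3) ?_)
    (pow_le_pow_left₀ hℓ0.le (by linarith) 3)
  have hsum := Real.summable_pow_div_factorial (ℓ ^ 3)
  rw [Real.exp_eq_exp_ℝ, NormedSpace.exp_eq_tsum_div,
    ENNReal.ofReal_tsum_of_nonneg (fun N => by positivity) hsum]
  refine ENNReal.tsum_le_tsum fun N => ?_
  refine (mul_le_mul_right (lintegral_mono (g := fun _ => 1) fun x => ?_) _).trans ?_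
  · simp only [wgt, zero_mul, zero_sub]
    refine ENNReal.ofReal_le_one.2 (Real.exp_le_one_iff.2 (neg_nonpos.2 (en_nonneg fun a _ b _ => ?_)))
    simp only [pot, core, sub_zero]
    split_ifs <;> linarith
  · rw [lintegral_one, Measure.pi_univ, onCube, Measure.restrict_apply_univ,
      volume_cubeAt _ hℓ0.le, prod_const, card_univ, Fintype.card_fin,
      div_eq_inv_mul, ENNReal.ofReal_mul (by positivity), ENNReal.ofReal_inv_of_pos (by positivity),
      ENNReal.ofReal_natCast, ENNReal.ofReal_pow (show 0 ≤ ℓ ^ 3 by positivity)]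

theorem four_le_pressure_zero (h : Adm height gap attr fun _ => (0 : ℝ)) :
    4 ≤ pressure height (fun _ => 0) 32 := by
  have h1 : (32 : ℝ) ≤ logZc height (fun _ => 0) 1 32 := by
    refine le_logZ_of_le_GP (h.GP_ne_top 32 zero_le_one) ?_
    refine le_trans ?_ (ENNReal.le_tsum 1)
    have hw : ∀ x : Fin 1 → Pt, wgt 32 (pot height fun _ => 0) (conf x)
        = ENNReal.ofReal (Real.exp 32) := fun x => by
      simp [wgt, en_conf, card_conf]
    simp only [term, hw, lintegral_const, Measure.pi_univ, onCube, Measure.restrict_apply_univ,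
      volume_cubeAt _ zero_le_one]
    simp
  have := h.le_pressure (32 : ℝ) one_pos
  norm_num at this
  linarith

theorem profile_zero : Profile (fun _ => (0 : ℝ)) (512 * 0) :=
  ⟨fun _ => le_rfl, fun _ _ _ => le_rfl, fun J k => by simp⟩

/-- The first stage. -/
theorem inv_zero : Inv 0 ⟨fun _ => 0, 1, 0, 0, 32, amax⟩ := by
  have hadm : Adm height gap attr fun _ => (0 : ℝ) :=
    adm_of_profile profile_zero (by linarith [amax_pos])
  refine ⟨amax_pos, le_rfl, by simp, profile_zero, le_rfl, fun _ _ => rfl, fun hk => by omega,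
    by norm_num, by unfold amax; norm_num, fun hk => by omega, ?_, ?_⟩
  · simp only [zero_add, slopeUp]
    norm_num
    linarith [pressure_zero_le, four_le_pressure_zero hadm]
  · simp only [zero_sub, slopeDn]
    norm_num
    linarith [pressure_zero_le, hadm.pressure_nonneg (-32)]

/-- All stages. -/
noncomputable def stages : (k : ℕ) → {st : Stage // Inv k st}
  | 0 => ⟨_, inv_zero⟩
  | k + 1 => ⟨(exists_next (stages k).2).choose, (exists_next (stages k).2).choose_spec.1⟩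

theorem next_stages (k : ℕ) : Next k (stages k).1 (stages (k + 1)).1 := by
  rw [stages]
  exact (exists_next (stages k).2).choose_spec.2

end Vale.Agent.P171
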