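import Vale.Agent.P171.Config
import Mathlib.Analysis.SpecialFunctions.Log.Basic
import Mathlib.Analysis.Convex.SpecificFunctions.Basic
import Mathlib.Analysis.SpecialFunctions.Exp
import Mathlib.MeasureTheory.Function.SpecialFunctions.Basic

/-!
Pair energies, Boltzmann weights, and elementary inequalities for partition functions.
-/

open MeasureTheory Finset
open scoped ENNReal Nat

namespace Vale.Agent.P171

variable {α : Type*}

/-- Bilinear sum over two configurations. -/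
def bil (w : α → α → ℝ) (s t : Multiset α) : ℝ := (s.map fun a => (t.map (w a)).sum).sum

/-- The pair energy of a configuration. -/
noncomputable def en (w : α → α → ℝ) (s : Multiset α) : ℝ :=
  (bil w s s - (s.map fun a => w a a).sum) / 2

theorem bil_add_left (w : α → α → ℝ) (s s' t : Multiset α) :
    bil w (s + s') t = bil w s t + bil w s' t := by simp [bil]

theorem bil_add_right (w : α → α → ℝ) (s t t' : Multiset α) :
    bil w s (t + t') = bil w s t + bil w s t' := by
  simp [bil, Multiset.sum_map_add]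

theorem bil_sum_left (w : α → α → ℝ) {κ : Type*} (J : Finset κ) (s : κ → Multiset α)
    (t : Multiset α) : bil w (∑ j ∈ J, s j) t = ∑ j ∈ J, bil w (s j) t := by
  classical
  induction J using Finset.induction with
  | empty => simp [bil]
  | insert a J ha ih => rw [sum_insert ha, sum_insert ha, bil_add_left, ih]

theorem bil_sum_right (w : α → α → ℝ) {κ : Type*} (J : Finset κ) (s : Multiset α)
    (t : κ → Multiset α) : bil w s (∑ j ∈ J, t j) = ∑ j ∈ J, bil w s (t j) := by
  classical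
  induction J using Finset.induction with
  | empty => simp [bil]
  | insert a J ha ih => rw [sum_insert ha, sum_insert ha, bil_add_right, ih]

theorem bil_congr {w w' : α → α → ℝ} {s t : Multiset α}
    (h : ∀ a ∈ s, ∀ b ∈ t, w a b = w' a b) : bil w s t = bil w' s t := by
  refine congrArg Multiset.sum (Multiset.map_congr rfl fun a ha => ?_)
  exact congrArg Multiset.sum (Multiset.map_congr rfl fun b hb => h a ha b hb)

theorem bil_mono {w w' : α → α → ℝ} {s t : Multiset α}
    (h : ∀ a ∈ s, ∀ b ∈ t, w a b ≤ w' a b) : bil w s t ≤ bil w' s t :=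
  Multiset.sum_map_le_sum_map _ _ fun a ha => Multiset.sum_map_le_sum_map _ _ fun b hb => h a ha b hb

theorem bil_const (c : ℝ) (s t : Multiset α) :
    bil (fun _ _ => c) s t = c * (Multiset.card s : ℝ) * (Multiset.card t : ℝ) := by
  simp [bil]; ring

theorem bil_sub (w w' : α → α → ℝ) (s t : Multiset α) :
    bil (fun a b => w a b - w' a b) s t = bil w s t - bil w' s t := by
  simp [bil, Multiset.sum_map_sub]

theorem bil_smul (c : ℝ) (w : α → α → ℝ) (s t : Multiset α) :
    bil (fun a b => c * w a b) s t = c * bil w s t := by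
  simp [bil, Multiset.sum_map_mul_left]

theorem en_sub (w w' : α → α → ℝ) (s : Multiset α) :
    en (fun a b => w a b - w' a b) s = en w s - en w' s := by
  simp only [en, bil_sub, Multiset.sum_map_sub]; ring

theorem en_smul (c : ℝ) (w : α → α → ℝ) (s : Multiset α) :
    en (fun a b => c * w a b) s = c * en w s := by
  simp only [en, bil_smul, Multiset.sum_map_mul_left]; ring

theorem en_congr {w w' : α → α → ℝ} {s : Multiset α} (h : ∀ a ∈ s, ∀ b ∈ s, w a b = w' a b) :
    en w s = en w' s := by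
  unfold en
  rw [bil_congr h, Multiset.map_congr rfl fun a ha => h a ha a ha]

theorem en_nonneg {w : α → α → ℝ} {s : Multiset α} (h : ∀ a ∈ s, ∀ b ∈ s, 0 ≤ w a b) :
    0 ≤ en w s := by
  have : (s.map fun a => w a a).sum ≤ bil w s s := by
    refine Multiset.sum_map_le_sum_map _ _ fun a ha => ?_
    exact Multiset.single_le_sum (fun x hx => by
      obtain ⟨b, hb, rfl⟩ := Multiset.mem_map.1 hx; exact h a ha b hb) _
      (Multiset.mem_map_of_mem _ ha)
  unfold en
  linarith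

theorem en_mono {w w' : α → α → ℝ} {s : Multiset α} (h : ∀ a ∈ s, ∀ b ∈ s, w a b ≤ w' a b) :
    en w s ≤ en w' s := by
  have := en_nonneg (w := fun a b => w' a b - w a b) (s := s) fun a ha b hb => sub_nonneg.2 (h a ha b hb)
  rw [en_sub] at this
  linarith

theorem en_le_half_bil {w : α → α → ℝ} {s : Multiset α} (h : ∀ a ∈ s, 0 ≤ w a a) :
    en w s ≤ bil w s s / 2 := by
  have : 0 ≤ (s.map fun a => w a a).sum :=
    Multiset.sum_nonneg fun x hx => by
      obtain ⟨a, ha, rfl⟩ := Multiset.mem_map.1 hx; exact h a ha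
  unfold en
  linarith

theorem bil_conf {ι κ : Type*} [Fintype ι] [Fintype κ] (w : α → α → ℝ) (x : ι → α) (y : κ → α) :
    bil w (conf x) (conf y) = ∑ i, ∑ j, w (x i) (y j) := by
  simp only [bil, conf, Multiset.map_map, Function.comp_def]
  rfl

theorem en_conf {ι : Type*} [Fintype ι] (w : α → α → ℝ) (x : ι → α) :
    en w (conf x) = ((∑ i, ∑ j, w (x i) (x j)) - ∑ i, w (x i) (x i)) / 2 := by
  rw [en, bil_conf]
  simp only [conf, Multiset.map_map, Function.comp_def]
  rfl

/-- Decomposition of a configuration into the cells of a partition. -/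
theorem sum_part {κ : Type*} (J : Finset κ) {Q : κ → Set α}
    (hdis : ∀ i ∈ J, ∀ j ∈ J, i ≠ j → Disjoint (Q i) (Q j)) (s : Multiset α)
    (hs : ∀ a ∈ s, ∃ j ∈ J, a ∈ Q j) : ∑ j ∈ J, part (Q j) s = s := by
  classical
  induction J using Finset.induction generalizing s with
  | empty =>
    rw [sum_empty, eq_comm]
    exact Multiset.eq_zero_of_forall_notMem fun a ha => by
      obtain ⟨j, hj, -⟩ := hs a ha; exact absurd hj (notMem_empty j)
  | insert a J ha ih =>
    rw [sum_insert ha]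
    set t := s.filter (fun x => ¬x ∈ Q a) with ht
    have hst : part (Q a) s + t = s := by
      unfold part
      exact Multiset.filter_add_not (fun x => x ∈ Q a) s
    have h1 : ∑ j ∈ J, part (Q j) s = ∑ j ∈ J, part (Q j) t := by
      refine sum_congr rfl fun j hj => ?_
      conv_lhs => rw [← hst, part_add]
      rw [part_eq_zero (Q := Q j) (s := part (Q a) s), zero_add]
      intro x hx hxj
      have hxa : x ∈ Q a := by
        unfold part at hx; exact (Multiset.mem_filter.1 hx).2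
      exact Set.disjoint_left.1 (hdis a (mem_insert_self _ _) j (mem_insert_of_mem hj)
        (fun h => ha (h ▸ hj))) hxa hxj
    rw [h1, ih (fun i hi j hj => hdis i (mem_insert_of_mem hi) j (mem_insert_of_mem hj)) t, hst]
    intro x hx
    rw [ht, Multiset.mem_filter] at hx
    obtain ⟨j, hj, hxj⟩ := hs x hx.1
    rcases mem_insert.1 hj with rfl | hj
    · exact absurd hxj hx.2
    · exact ⟨j, hj, hxj⟩

theorem mem_part {Q : Set α} {s : Multiset α} {a : α} : a ∈ part Q s ↔ a ∈ s ∧ a ∈ Q := by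
  simp [part]

/-- The number of points in `Q`. -/
noncomputable def count (Q : Set α) (s : Multiset α) : ℝ := (Multiset.card (part Q s) : ℝ)

theorem sum_count {κ : Type*} (J : Finset κ) {Q : κ → Set α}
    (hdis : ∀ i ∈ J, ∀ j ∈ J, i ≠ j → Disjoint (Q i) (Q j)) (s : Multiset α)
    (hs : ∀ a ∈ s, ∃ j ∈ J, a ∈ Q j) : ∑ j ∈ J, count (Q j) s = (Multiset.card s : ℝ) := by
  conv_rhs => rw [← sum_part J hdis s hs]
  simp [count]

theorem bil_parts {κ : Type*} (J : Finset κ) {Q : κ → Set α}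
    (hdis : ∀ i ∈ J, ∀ j ∈ J, i ≠ j → Disjoint (Q i) (Q j)) {s : Multiset α}
    (hs : ∀ a ∈ s, ∃ j ∈ J, a ∈ Q j) (w : α → α → ℝ) :
    bil w s s = ∑ i ∈ J, ∑ j ∈ J, bil w (part (Q i) s) (part (Q j) s) := by
  conv_lhs => rw [← sum_part J hdis s hs]
  rw [bil_sum_left]
  simp only [bil_sum_right]

/-- A kernel that is constant on pairs of cells. -/
theorem bil_cellwise {κ : Type*} (J : Finset κ) {Q : κ → Set α}
    (hdis : ∀ i ∈ J, ∀ j ∈ J, i ≠ j → Disjoint (Q i) (Q j)) {s : Multiset α}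
    (hs : ∀ a ∈ s, ∃ j ∈ J, a ∈ Q j) (w : α → α → ℝ) (W : κ → κ → ℝ)
    (hW : ∀ i ∈ J, ∀ j ∈ J, ∀ a ∈ Q i, ∀ b ∈ Q j, w a b = W i j) :
    bil w s s = ∑ i ∈ J, ∑ j ∈ J, W i j * count (Q i) s * count (Q j) s := by
  rw [bil_parts J hdis hs]
  refine sum_congr rfl fun i hi => sum_congr rfl fun j hj => ?_
  rw [bil_congr (w' := fun _ _ => W i j) fun a ha b hb =>
    hW i hi j hj a (mem_part.1 ha).2 b (mem_part.1 hb).2, bil_const]
  rfl

/-- Symmetric nonnegative matrices with bounded row sums. -/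
theorem quad_le_of_row {κ : Type*} (J : Finset κ) (W : κ → κ → ℝ) (n : κ → ℝ)
    (h0 : ∀ i ∈ J, ∀ j ∈ J, 0 ≤ W i j) (hsymm : ∀ i ∈ J, ∀ j ∈ J, W i j = W j i) {a : ℝ}
    (hrow : ∀ i ∈ J, ∑ j ∈ J, W i j ≤ a) :
    ∑ i ∈ J, ∑ j ∈ J, W i j * n i * n j ≤ a * ∑ i ∈ J, n i ^ 2 := by
  have h1 : ∑ i ∈ J, ∑ j ∈ J, W i j * n i * n j
      ≤ ∑ i ∈ J, ∑ j ∈ J, (W i j * n i ^ 2 / 2 + W i j * n j ^ 2 / 2) :=
    sum_le_sum fun i hi => sum_le_sum fun j hj => by
      nlinarith [mul_nonneg (h0 i hi j hj) (sq_nonneg (n i - n j))]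
  refine h1.trans ?_
  rw [mul_sum]
  simp only [sum_add_distrib]
  have h2 : ∑ i ∈ J, ∑ j ∈ J, W i j * n j ^ 2 / 2 = ∑ i ∈ J, ∑ j ∈ J, W i j * n i ^ 2 / 2 := by
    rw [sum_comm]
    exact sum_congr rfl fun j hj => sum_congr rfl fun i hi => by rw [hsymm i hi j hj]
  rw [h2, ← sum_add_distrib]
  refine sum_le_sum fun i hi => ?_
  rw [← sum_add_distrib]
  calc ∑ j ∈ J, (W i j * n i ^ 2 / 2 + W i j * n i ^ 2 / 2) = (∑ j ∈ J, W i j) * n i ^ 2 := by
        rw [Finset.sum_mul]; exact sum_congr rfl fun j _ => by ring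
    _ ≤ a * n i ^ 2 := mul_le_mul_of_nonneg_right (hrow i hi) (sq_nonneg _)

variable [MeasurableSpace α]

/-- Boltzmann weight with chemical potential `lam`. -/
noncomputable def wgt (lam : ℝ) (w : α → α → ℝ) (s : Multiset α) : ℝ≥0∞ :=
  ENNReal.ofReal (Real.exp (lam * (Multiset.card s : ℝ) - en w s))

theorem confMeas_wgt {lam : ℝ} {w : α → α → ℝ} (hw : Measurable (Function.uncurry w)) :
    ConfMeas (wgt lam w) := by
  intro N
  simp only [wgt, card_conf, en_conf]
  refine ENNReal.measurable_ofReal.comp (Real.measurable_exp.comp (measurable_const.sub ?_))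
  refine ((Finset.measurable_sum _ fun i _ => Finset.measurable_sum _ fun j _ => ?_).sub
    (Finset.measurable_sum _ fun i _ => ?_)).div_const 2
  · exact Measurable.comp (g := Function.uncurry w) (f := fun x : Fin N → α => (x i, x j)) hw
      ((measurable_pi_apply i).prodMk (measurable_pi_apply j))
  · exact Measurable.comp (g := Function.uncurry w) (f := fun x : Fin N → α => (x i, x i)) hw
      ((measurable_pi_apply i).prodMk (measurable_pi_apply i))

theorem wgt_mono {lam lam' : ℝ} {w w' : α → α → ℝ} {s : Multiset α} (hl : lam ≤ lam')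
    (hw : ∀ a ∈ s, ∀ b ∈ s, w' a b ≤ w a b) : wgt lam w s ≤ wgt lam' w' s := by
  refine ENNReal.ofReal_le_ofReal (Real.exp_le_exp.2 ?_)
  have := en_mono hw
  have := mul_le_mul_of_nonneg_right hl (Nat.cast_nonneg (α := ℝ) (Multiset.card s))
  linarith

/-- Logarithm of the partition function. -/
noncomputable def logZ (ν : Measure α) (lam : ℝ) (w : α → α → ℝ) : ℝ :=
  Real.log (GP ν (wgt lam w)).toReal

theorem term_zero (ν : Measure α) (F : Multiset α → ℝ≥0∞) : term ν F (Fin 0) = F 0 := by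
  rw [term, Measure.pi_of_empty, lintegral_dirac]
  simp [conf]

theorem empty_le_GP (ν : Measure α) (F : Multiset α → ℝ≥0∞) : F 0 ≤ GP ν F := by
  calc F 0 = ((0 : ℕ) ! : ℝ≥0∞)⁻¹ * term ν F (Fin 0) := by simp [term_zero]
    _ ≤ GP ν F := ENNReal.le_tsum 0

theorem one_le_GP_wgt (ν : Measure α) (lam : ℝ) (w : α → α → ℝ) : 1 ≤ GP ν (wgt lam w) := by
  refine le_trans ?_ (empty_le_GP ν _)
  simp [wgt, en, bil]

theorem one_le_toReal {ν : Measure α} {lam : ℝ} {w : α → α → ℝ} (h : GP ν (wgt lam w) ≠ ⊤) :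
    1 ≤ (GP ν (wgt lam w)).toReal := by
  simpa using ENNReal.toReal_mono h (one_le_GP_wgt ν lam w)

theorem logZ_nonneg (ν : Measure α) (lam : ℝ) (w : α → α → ℝ) : 0 ≤ logZ ν lam w := by
  by_cases h : GP ν (wgt lam w) = ⊤
  · simp [logZ, h]
  · exact Real.log_nonneg (one_le_toReal h)

theorem GP_wgt_eq_exp {ν : Measure α} {lam : ℝ} {w : α → α → ℝ} (h : GP ν (wgt lam w) ≠ ⊤) :
    GP ν (wgt lam w) = ENNReal.ofReal (Real.exp (logZ ν lam w)) := by
  rw [logZ, Real.exp_log (lt_of_lt_of_le one_pos (one_le_toReal h)), ENNReal.ofReal_toReal h]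

theorem logZ_le_of_GP_le {ν : Measure α} {lam : ℝ} {w : α → α → ℝ} {c : ℝ}
    (h : GP ν (wgt lam w) ≤ ENNReal.ofReal (Real.exp c)) : logZ ν lam w ≤ c := by
  have hfin : GP ν (wgt lam w) ≠ ⊤ := ne_top_of_le_ne_top ENNReal.ofReal_ne_top h
  rw [GP_wgt_eq_exp hfin, ENNReal.ofReal_le_ofReal_iff (Real.exp_nonneg c)] at h
  exact Real.exp_le_exp.1 h

theorem le_logZ_of_le_GP {ν : Measure α} {lam : ℝ} {w : α → α → ℝ} {c : ℝ}
    (hfin : GP ν (wgt lam w) ≠ ⊤) (h : ENNReal.ofReal (Real.exp c) ≤ GP ν (wgt lam w)) :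
    c ≤ logZ ν lam w := by
  rw [GP_wgt_eq_exp hfin, ENNReal.ofReal_le_ofReal_iff (Real.exp_nonneg _)] at h
  exact Real.exp_le_exp.1 h

theorem weighted_exp_le (u v θ : ℝ) (h0 : 0 ≤ θ) (h1 : θ ≤ 1) :
    Real.exp (θ * u + (1 - θ) * v) ≤ θ * Real.exp u + (1 - θ) * Real.exp v := by
  have := convexOn_exp.2 (Set.mem_univ u) (Set.mem_univ v) h0 (sub_nonneg.2 h1) (by ring)
  simpa [smul_eq_mul] using this

/-- Log-convexity in the chemical potential and the kernel together. -/
theorem logZ_convex {ν : Measure α} {l₁ l₂ : ℝ} {w₁ w₂ : α → α → ℝ}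
    (hw₁ : Measurable (Function.uncurry w₁)) (hw₂ : Measurable (Function.uncurry w₂))
    (h₁ : GP ν (wgt l₁ w₁) ≠ ⊤) (h₂ : GP ν (wgt l₂ w₂) ≠ ⊤) {θ : ℝ} (h0 : 0 ≤ θ) (hθ : θ ≤ 1) :
    logZ ν (θ * l₁ + (1 - θ) * l₂) (fun a b => θ * w₁ a b + (1 - θ) * w₂ a b)
      ≤ θ * logZ ν l₁ w₁ + (1 - θ) * logZ ν l₂ w₂ := by
  refine logZ_le_of_GP_le ?_
  set c₁ := logZ ν l₁ w₁ with hc₁
  set c₂ := logZ ν l₂ w₂ with hc₂
  set C := θ * c₁ + (1 - θ) * c₂ with hC
  have hpt : ∀ s : Multiset α,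
      wgt (θ * l₁ + (1 - θ) * l₂) (fun a b => θ * w₁ a b + (1 - θ) * w₂ a b) s ≤
        ENNReal.ofReal (θ * Real.exp (C - c₁)) * wgt l₁ w₁ s +
          ENNReal.ofReal ((1 - θ) * Real.exp (C - c₂)) * wgt l₂ w₂ s := by
    intro s
    simp only [wgt]
    rw [← ENNReal.ofReal_mul (by positivity),
      ← ENNReal.ofReal_mul (mul_nonneg (sub_nonneg.2 hθ) (Real.exp_nonneg _)),
      ← ENNReal.ofReal_add (by positivity)
        (mul_nonneg (mul_nonneg (sub_nonneg.2 hθ) (Real.exp_nonneg _)) (Real.exp_nonneg _)),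
      mul_assoc, mul_assoc, ← Real.exp_add, ← Real.exp_add]
    refine ENNReal.ofReal_le_ofReal (le_trans (le_of_eq ?_) (weighted_exp_le _ _ θ h0 hθ))
    congr 1
    have e : en (fun a b => θ * w₁ a b + (1 - θ) * w₂ a b) s
        = θ * en w₁ s + (1 - θ) * en w₂ s := by
      have hb := bil_sub (fun a b => θ * w₁ a b) (fun a b => (θ - 1) * w₂ a b) s s
      have : (fun a b => θ * w₁ a b + (1 - θ) * w₂ a b)
          = fun a b => θ * w₁ a b - (θ - 1) * w₂ a b := by funext a b; ring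
      rw [this, en_sub, en_smul, en_smul]; ring
    rw [e, hC]; ring
  refine (GP_mono hpt).trans ?_
  rw [GP_add ν ((ConfMeas.const _).mul (confMeas_wgt hw₁)), GP_const_mul ν (confMeas_wgt hw₁),
    GP_const_mul ν (confMeas_wgt hw₂), GP_wgt_eq_exp h₁, GP_wgt_eq_exp h₂, ← hc₁, ← hc₂,
    ← ENNReal.ofReal_mul (by positivity),
    ← ENNReal.ofReal_mul (mul_nonneg (sub_nonneg.2 hθ) (Real.exp_nonneg _)),
    ← ENNReal.ofReal_add (by positivity)
      (mul_nonneg (mul_nonneg (sub_nonneg.2 hθ) (Real.exp_nonneg _)) (Real.exp_nonneg _)),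
    mul_assoc, mul_assoc, ← Real.exp_add, ← Real.exp_add]
  refine ENNReal.ofReal_le_ofReal (le_of_eq ?_)
  rw [sub_add_cancel, sub_add_cancel]; ring

/-- Jensen's inequality for a tilt `exp (P - Q)` with `P, Q ≥ 0`. -/
theorem GP_jensen {ν : Measure α} {F : Multiset α → ℝ≥0∞} (hF : ConfMeas F)
    {P Q : Multiset α → ℝ} (hPm : ∀ N : ℕ, Measurable fun x : Fin N → α => P (conf x))
    (hQm : ∀ N : ℕ, Measurable fun x : Fin N → α => Q (conf x))
    (hP0 : ∀ s, 0 ≤ P s) (hQ0 : ∀ s, 0 ≤ Q s) {z p q : ℝ} (hz : 0 < z) (hp : 0 ≤ p) (hq : 0 ≤ q)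
    (hzv : GP ν F = ENNReal.ofReal z)
    (hpv : GP ν (fun s => ENNReal.ofReal (P s) * F s) = ENNReal.ofReal (p * z))
    (hqv : GP ν (fun s => ENNReal.ofReal (Q s) * F s) = ENNReal.ofReal (q * z)) :
    ENNReal.ofReal (Real.exp (p - q) * z) ≤
      GP ν (fun s => ENNReal.ofReal (Real.exp (P s - Q s)) * F s) := by
  set E := Real.exp (p - q) with hE
  have hEp : 0 < E := Real.exp_pos _
  have hFP : ConfMeas fun s => ENNReal.ofReal (P s) * F s :=
    fun N => (ENNReal.measurable_ofReal.comp (hPm N)).mul (hF N)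
  have hFQ : ConfMeas fun s => ENNReal.ofReal (Q s) * F s :=
    fun N => (ENNReal.measurable_ofReal.comp (hQm N)).mul (hF N)
  have hFE : ConfMeas fun s => ENNReal.ofReal (Real.exp (P s - Q s)) * F s :=
    fun N => (ENNReal.measurable_ofReal.comp
      (Real.measurable_exp.comp ((hPm N).sub (hQm N)))).mul (hF N)
  have hpt : ∀ s, ENNReal.ofReal (E * (1 + q)) * F s + ENNReal.ofReal E * (ENNReal.ofReal (P s) * F s)
      ≤ ENNReal.ofReal (Real.exp (P s - Q s)) * F s
        + (ENNReal.ofReal E * (ENNReal.ofReal (Q s) * F s) + ENNReal.ofReal (E * p) * F s) := by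
    intro s
    rw [← mul_assoc, ← mul_assoc, ← ENNReal.ofReal_mul hEp.le, ← ENNReal.ofReal_mul hEp.le,
      ← add_mul, ← add_mul, ← add_mul, ← ENNReal.ofReal_add (by positivity)
        (mul_nonneg hEp.le (hP0 s)), ← ENNReal.ofReal_add (mul_nonneg hEp.le (hQ0 s)) (by positivity),
      ← ENNReal.ofReal_add (Real.exp_nonneg _)
        (add_nonneg (mul_nonneg hEp.le (hQ0 s)) (by positivity))]
    refine mul_le_mul_left (ENNReal.ofReal_le_ofReal ?_) _
    have h := Real.add_one_le_exp (P s - Q s - (p - q))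
    rw [Real.exp_sub, ← hE, le_div_iff₀ hEp] at h
    linarith
  have hmono := GP_mono (ν := ν) hpt
  rw [GP_add ν ((ConfMeas.const _).mul hF), GP_add ν hFE,
    GP_add ν ((ConfMeas.const _).mul hFQ), GP_const_mul ν hF, GP_const_mul ν hF,
    GP_const_mul ν hFP, GP_const_mul ν hFQ, hzv, hpv, hqv,
    ← ENNReal.ofReal_mul (by positivity), ← ENNReal.ofReal_mul hEp.le,
    ← ENNReal.ofReal_mul hEp.le, ← ENNReal.ofReal_mul (by positivity),
    ← ENNReal.ofReal_add (by positivity) (by positivity),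
    ← ENNReal.ofReal_add (by positivity) (by positivity)] at hmono
  have hb : ENNReal.ofReal (E * (1 + q) * z + E * (p * z))
      = ENNReal.ofReal (E * z) + ENNReal.ofReal (E * (q * z) + E * p * z) := by
    rw [← ENNReal.ofReal_add (by positivity) (by positivity)]
    congr 1; ring
  rw [hb] at hmono
  exact (ENNReal.add_le_add_iff_right ENNReal.ofReal_ne_top).1 hmono

end Vale.Agent.P171
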