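import Vale.Agent.P171.Energy
import Mathlib.Analysis.InnerProductSpace.PiL2
import Mathlib.MeasureTheory.Measure.Haar.InnerProductSpace
import Mathlib.MeasureTheory.Measure.Lebesgue.EqHaar
import Mathlib.MeasureTheory.Function.Floor

/-!
Cubic cells in three dimensions and the tail profiles.
-/

open MeasureTheory Finset
open scoped ENNReal Nat

namespace Vale.Agent.P171

/-- Three-dimensional Euclidean space. -/
abbrev Pt : Type := EuclideanSpace ℝ (Fin 3)

/-- Labels of cells. -/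
abbrev Lbl : Type := Fin 3 → ℤ

/-- The half-open cube `[0, ℓ)³`. -/
def cube0 (ℓ : ℝ) : Set Pt := {x | ∀ i, 0 ≤ x i ∧ x i < ℓ}

/-- The half-open cube of side `ℓ` with lower corner `o`. -/
def cubeAt (o : Pt) (ℓ : ℝ) : Set Pt := {x | ∀ i, o i ≤ x i ∧ x i < o i + ℓ}

/-- The point with coordinates `s + p k i`. -/
noncomputable def corner (s p : ℝ) (k : Lbl) : Pt := WithLp.toLp 2 fun i => s + p * (k i : ℝ)

theorem corner_apply (s p : ℝ) (k : Lbl) (i : Fin 3) : corner s p k i = s + p * (k i : ℝ) := rfl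

/-- The cell with label `k` of the grid of mesh `ℓ` shifted by `s`. -/
def cell (s ℓ : ℝ) (k : Lbl) : Set Pt := cubeAt (corner s ℓ k) ℓ

theorem mem_cell {s ℓ : ℝ} {k : Lbl} {x : Pt} :
    x ∈ cell s ℓ k ↔ ∀ i, s + ℓ * (k i : ℝ) ≤ x i ∧ x i < s + ℓ * (k i : ℝ) + ℓ := Iff.rfl

/-- The label of the cell containing `x`. -/
noncomputable def idx (s ℓ : ℝ) (x : Pt) : Lbl := fun i => ⌊(x i - s) / ℓ⌋

theorem mem_cell_iff_idx {s ℓ : ℝ} (hℓ : 0 < ℓ) {k : Lbl} {x : Pt} :
    x ∈ cell s ℓ k ↔ idx s ℓ x = k := by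
  rw [mem_cell, funext_iff]
  refine forall_congr' fun i => ?_
  simp only [idx, Int.floor_eq_iff, le_div_iff₀ hℓ, div_lt_iff₀ hℓ]
  constructor <;> rintro ⟨h1, h2⟩ <;> constructor <;> linarith

theorem disjoint_cell {s ℓ : ℝ} (hℓ : 0 < ℓ) {k k' : Lbl} (h : k ≠ k') :
    Disjoint (cell s ℓ k) (cell s ℓ k') :=
  Set.disjoint_left.2 fun x hx hx' => h <| by
    rw [← (mem_cell_iff_idx hℓ).1 hx, (mem_cell_iff_idx hℓ).1 hx']

theorem measurableSet_cubeAt (o : Pt) (ℓ : ℝ) : MeasurableSet (cubeAt o ℓ) := by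
  have : cubeAt o ℓ = ⋂ i, (fun x : Pt => x i) ⁻¹' Set.Ico (o i) (o i + ℓ) := by
    ext x; simp [cubeAt]
  rw [this]
  exact MeasurableSet.iInter fun i => ((EuclideanSpace.proj i).continuous.measurable) measurableSet_Ico

theorem measurable_coord (i : Fin 3) : Measurable fun x : Pt => x i :=
  (EuclideanSpace.proj (𝕜 := ℝ) i).continuous.measurable

theorem measurableSet_cell (s ℓ : ℝ) (k : Lbl) : MeasurableSet (cell s ℓ k) :=
  measurableSet_cubeAt _ _

theorem measurable_idx (s ℓ : ℝ) : Measurable (idx s ℓ) :=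
  measurable_pi_lambda _ fun i =>
    Int.measurable_floor.comp (((measurable_coord i).sub_const s).div_const ℓ)

theorem volume_cubeAt (o : Pt) {ℓ : ℝ} (hℓ : 0 ≤ ℓ) :
    volume (cubeAt o ℓ) = ENNReal.ofReal (ℓ ^ 3) := by
  have h : cubeAt o ℓ = (MeasurableEquiv.toLp 2 (Fin 3 → ℝ)).symm ⁻¹'
      Set.univ.pi fun i => Set.Ico (o i) (o i + ℓ) := by
    ext x; simp [cubeAt]
  rw [h, (EuclideanSpace.volume_preserving_symm_measurableEquiv_toLp (Fin 3)).measure_preimage
    (MeasurableSet.univ_pi fun i => measurableSet_Ico).nullMeasurableSet]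
  simp [volume_pi_pi, Real.volume_Ico, ENNReal.ofReal_pow hℓ]

/-- Lebesgue measure on a cube. -/
noncomputable def onCube (o : Pt) (ℓ : ℝ) : Measure Pt := volume.restrict (cubeAt o ℓ)

theorem isFiniteMeasure_onCube (o : Pt) (ℓ : ℝ) : IsFiniteMeasure (onCube o ℓ) := by
  rcases le_or_gt 0 ℓ with h | h
  · exact ⟨by rw [onCube, Measure.restrict_apply_univ, volume_cubeAt o h]; exact ENNReal.ofReal_lt_top⟩
  · have : cubeAt o ℓ = ∅ := Set.eq_empty_of_forall_notMem fun x hx => by
      have := hx 0; linarith [this.1, this.2]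
    exact ⟨by simp [onCube, this]⟩

instance (o : Pt) (ℓ : ℝ) : IsFiniteMeasure (onCube o ℓ) := isFiniteMeasure_onCube o ℓ

theorem ae_mem_onCube (o : Pt) (ℓ : ℝ) : ∀ᵐ x ∂onCube o ℓ, x ∈ cubeAt o ℓ :=
  ae_restrict_mem (measurableSet_cubeAt o ℓ)

theorem conf_map {ι : Type*} [Fintype ι] (g : Pt → Pt) (x : ι → Pt) :
    conf (fun i => g (x i)) = (conf x).map g := by
  simp [conf, Multiset.map_map, Function.comp_def]

/-- Translation invariance of grand-canonical integrals on cubes. -/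
theorem GP_translate (o : Pt) (ℓ : ℝ) (F : Multiset Pt → ℝ≥0∞) :
    GP (onCube o ℓ) F = GP (onCube 0 ℓ) (fun s => F (s.map (· + o))) := by
  have hmp : MeasurePreserving (MeasurableEquiv.addRight o) (onCube 0 ℓ) (onCube o ℓ) := by
    have h := (measurePreserving_add_right (volume : Measure Pt) o).restrict_preimage
      (s := cubeAt o ℓ) (measurableSet_cubeAt o ℓ)
    have hs : (fun x : Pt => x + o) ⁻¹' cubeAt o ℓ = cubeAt 0 ℓ := by
      ext x
      simp only [Set.mem_preimage, cubeAt, Set.mem_setOf_eq, PiLp.add_apply, PiLp.zero_apply]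
      refine forall_congr' fun i => ?_
      constructor <;> rintro ⟨a, b⟩ <;> constructor <;> linarith
    rw [hs] at h
    exact h
  unfold GP term
  refine tsum_congr fun N => ?_
  congr 1
  have hpi := measurePreserving_pi (fun _ : Fin N => onCube 0 ℓ) (fun _ : Fin N => onCube o ℓ)
    (f := fun _ => MeasurableEquiv.addRight o) (fun _ => hmp)
  have hme : (fun (a : Fin N → Pt) i => MeasurableEquiv.addRight o (a i))
      = (MeasurableEquiv.piCongrRight fun _ : Fin N => MeasurableEquiv.addRight o) := rfl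
  rw [← hpi.map_eq, hme, lintegral_map_equiv]
  refine lintegral_congr fun x => ?_
  exact congrArg F (conf_map (fun a => a + o) x)

theorem wgt_map (lam : ℝ) (w : Pt → Pt → ℝ) (g : Pt → Pt) (s : Multiset Pt)
    (hw : ∀ a b, w (g a) (g b) = w a b) : wgt lam w (s.map g) = wgt lam w s := by
  simp only [wgt, en, bil, Multiset.card_map, Multiset.map_map, Function.comp_def, hw]

theorem GP_onCube_mono {o o' : Pt} {ℓ ℓ' : ℝ} (h : cubeAt o ℓ ⊆ cubeAt o' ℓ')
    (F : Multiset Pt → ℝ≥0∞) : GP (onCube o ℓ) F ≤ GP (onCube o' ℓ') F :=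
  ENNReal.tsum_le_tsum fun N => mul_le_mul_right (by
    unfold term onCube
    rw [← Measure.restrict_pi_pi, ← Measure.restrict_pi_pi]
    exact lintegral_mono_set fun x hx i hi => h (hx i hi)) _

theorem sum_onCube {κ : Type*} (J : Finset κ) {o : κ → Pt} {ℓ : ℝ}
    (hdis : ∀ i ∈ J, ∀ j ∈ J, i ≠ j → Disjoint (cubeAt (o i) ℓ) (cubeAt (o j) ℓ)) :
    ∑ j ∈ J, onCube (o j) ℓ = volume.restrict (⋃ j ∈ J, cubeAt (o j) ℓ) := by
  rw [Measure.restrict_biUnion_finset (fun i hi j hj hij => hdis i hi j hj hij)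
    (fun j => measurableSet_cubeAt _ _)]
  ext t ht
  rw [Measure.finsetSum_apply, Measure.sum_apply _ ht, tsum_fintype, ← sum_coe_sort]
  rfl

theorem GP_restrict_mono {D D' : Set Pt} (h : D ⊆ D') (hfin : volume D' ≠ ⊤)
    (F : Multiset Pt → ℝ≥0∞) : GP (volume.restrict D) F ≤ GP (volume.restrict D') F := by
  have : Fact (volume D' < ⊤) := ⟨hfin.lt_top⟩
  have : Fact (volume D < ⊤) := ⟨lt_of_le_of_lt (measure_mono h) hfin.lt_top⟩
  exact ENNReal.tsum_le_tsum fun N => mul_le_mul_right (by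
    unfold term
    rw [← Measure.restrict_pi_pi, ← Measure.restrict_pi_pi]
    exact lintegral_mono_set fun x hx i hi => h (hx i hi)) _

theorem abs_coord_le_dist (x y : Pt) (i : Fin 3) : |x i - y i| ≤ dist x y := by
  rw [dist_eq_norm]
  simpa [Real.norm_eq_abs] using PiLp.norm_apply_le (x - y) i

theorem dist_le_two_mul {x y : Pt} {b : ℝ} (hb : 0 ≤ b) (h : ∀ i, |x i - y i| ≤ b) :
    dist x y ≤ 2 * b := by
  rw [EuclideanSpace.dist_eq, Real.sqrt_le_left (by linarith)]
  calc ∑ i : Fin 3, dist (x i) (y i) ^ 2 ≤ ∑ _i : Fin 3, b ^ 2 :=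
        sum_le_sum fun i _ => by
          rw [Real.dist_eq]
          exact pow_le_pow_left₀ (abs_nonneg _) (h i) 2
    _ = 3 * b ^ 2 := by simp
    _ ≤ (2 * b) ^ 2 := by nlinarith [sq_nonneg b]

/-- Points of one cube are within twice its side of the corner. -/
theorem dist_corner_le {o x : Pt} {ℓ : ℝ} (hℓ : 0 ≤ ℓ) (hx : x ∈ cubeAt o ℓ) :
    dist x o ≤ 2 * ℓ :=
  dist_le_two_mul hℓ fun i => abs_le.2 ⟨by linarith [(hx i).1], by linarith [(hx i).2]⟩

/-- The volume of the unit ball. -/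
noncomputable def ballVol : ℝ := (volume (Metric.ball (0 : Pt) 1)).toReal

theorem ballVol_pos : 0 < ballVol :=
  ENNReal.toReal_pos (Metric.measure_ball_pos volume _ one_pos).ne' measure_ball_lt_top.ne

theorem volume_ball (x : Pt) {r : ℝ} (hr : 0 ≤ r) :
    volume (Metric.ball x r) = ENNReal.ofReal (r ^ 3 * ballVol) := by
  rw [Measure.addHaar_ball volume x hr, finrank_euclideanSpace_fin,
    ENNReal.ofReal_mul (by positivity), ballVol, ENNReal.ofReal_toReal measure_ball_lt_top.ne]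

/-- Cells whose corners lie in a ball number at most the volume of a larger ball. -/
theorem card_cells_le {p : ℝ} (hp : 0 < p) (c : Pt) {r : ℝ} (J : Finset Lbl)
    (hJ : ∀ j ∈ J, dist (corner 0 p j) c < r) (hr : 0 ≤ r) :
    (J.card : ℝ) * p ^ 3 ≤ (r + 2 * p) ^ 3 * ballVol := by
  have hd : ∀ i ∈ J, ∀ j ∈ J, i ≠ j → Disjoint (cell 0 p i) (cell 0 p j) :=
    fun i _ j _ h => disjoint_cell hp h
  have hsub : (⋃ j ∈ J, cell 0 p j) ⊆ Metric.ball c (r + 2 * p) := by
    intro x hx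
    obtain ⟨j, hj, hxj⟩ := Set.mem_iUnion₂.1 hx
    rw [Metric.mem_ball]
    linarith [dist_triangle x (corner 0 p j) c, dist_corner_le hp.le hxj, hJ j hj]
  have h := measure_mono (μ := volume) hsub
  rw [measure_biUnion_finset (fun i hi j hj hij => hd i hi j hj hij)
    (fun j _ => measurableSet_cell _ _ _), volume_ball c (by linarith)] at h
  simp only [cell, volume_cubeAt _ hp.le, sum_const, nsmul_eq_mul] at h
  have hbp := ballVol_pos
  rw [← ENNReal.ofReal_natCast, ← ENNReal.ofReal_mul (Nat.cast_nonneg _),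
    ENNReal.ofReal_le_ofReal_iff (by positivity)] at h
  exact h

/-- Cells with labels in a box. -/
noncomputable def box (a b : ℤ) : Finset Lbl := Fintype.piFinset fun _ => Finset.Ico a b

theorem mem_box {a b : ℤ} {k : Lbl} : k ∈ box a b ↔ ∀ i, a ≤ k i ∧ k i < b := by
  simp [box]

theorem card_box {a b : ℤ} (h : a ≤ b) : ((box a b).card : ℝ) = ((b - a : ℤ) : ℝ) ^ 3 := by
  have h1 : (((b - a).toNat : ℕ) : ℝ) = ((b - a : ℤ) : ℝ) := by
    exact_mod_cast Int.toNat_of_nonneg (sub_nonneg.2 h)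
  simp [box, Fintype.card_piFinset, prod_const, ← h1]

/-- Cells of a ball of radius `r` have volume at least that of a smaller ball. -/
theorem le_card_cells {p : ℝ} (hp : 0 < p) {r : ℝ} (hr : 2 * p ≤ r) (m : ℤ) (hm : r ≤ p * m) :
    (r - 2 * p) ^ 3 * ballVol ≤
      (((box (-m) (m + 1)).filter fun j => dist (corner 0 p j) 0 < r).card : ℝ) * p ^ 3 := by
  set J := (box (-m) (m + 1)).filter fun j => dist (corner 0 p j) 0 < r with hJdef
  have hsub : Metric.ball (0 : Pt) (r - 2 * p) ⊆ ⋃ j ∈ J, cell 0 p j := by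
    intro x hx
    rw [Metric.mem_ball] at hx
    have hmem : x ∈ cell 0 p (idx 0 p x) := (mem_cell_iff_idx hp).2 rfl
    refine Set.mem_iUnion₂.2 ⟨idx 0 p x, ?_, hmem⟩
    have hd : dist (corner 0 p (idx 0 p x)) 0 < r := by
      have h1 := dist_corner_le hp.le hmem
      have h2 := dist_triangle (corner 0 p (idx 0 p x)) x 0
      rw [dist_comm] at h1
      linarith
    refine mem_filter.2 ⟨mem_box.2 fun i => ?_, hd⟩
    have := abs_coord_le_dist (corner 0 p (idx 0 p x)) 0 i
    rw [corner_apply, PiLp.zero_apply, zero_add, sub_zero] at this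
    have h3 := abs_lt.1 (lt_of_le_of_lt this (lt_of_lt_of_le hd hm))
    constructor
    · have : (((-m : ℤ)) : ℝ) < (idx 0 p x i : ℝ) := by
        push_cast; nlinarith
      exact_mod_cast this.le
    · have : ((idx 0 p x i : ℤ) : ℝ) < ((m + 1 : ℤ) : ℝ) := by
        push_cast; nlinarith
      exact_mod_cast this
  have h := measure_mono (μ := volume) hsub
  rw [measure_biUnion_finset (fun i _ j _ hij => disjoint_cell hp hij)
    (fun j _ => measurableSet_cell _ _ _), volume_ball 0 (by linarith)] at h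
  simp only [cell, volume_cubeAt _ hp.le, sum_const, nsmul_eq_mul] at h
  rw [← ENNReal.ofReal_natCast, ← ENNReal.ofReal_mul (Nat.cast_nonneg _),
    ENNReal.ofReal_le_ofReal_iff (by positivity)] at h
  exact h

end Vale.Agent.P171
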