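import Vale.Agent.P171.Upper

/-!
The lower bound: a long flat tail gains the square of the mean density.
-/

open MeasureTheory Finset Filter Topology
open scoped ENNReal

namespace Vale.Agent.P171

variable {h g S : ℝ} {T T' : ℝ → ℝ}

theorem count_nonneg (Q : Set Pt) (s : Multiset Pt) : 0 ≤ count Q s := Nat.cast_nonneg _

theorem measurable_count {Q : Set Pt} (hQ : MeasurableSet Q) (N : ℕ) :
    Measurable fun x : Fin N → Pt => count Q (conf x) := by
  have hc : ConfMeas fun t : Multiset Pt => ENNReal.ofReal (Multiset.card t : ℝ) := fun N => by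
    simp only [card_conf]; exact measurable_const
  have h : (fun x : Fin N → Pt => count Q (conf x))
      = fun x => (ENNReal.ofReal (Multiset.card (part Q (conf x)) : ℝ)).toReal := by
    funext x; simp [count]
  rw [h]
  exact (confMeas_part hc hQ N).ennreal_toReal

/-- A product measure of identical cells. -/
theorem GP_prod_moment {κ : Type*} [DecidableEq κ] (J : Finset κ) {Q : κ → Set Pt}
    (hQ : ∀ j ∈ J, MeasurableSet (Q j))
    (hdis : ∀ i ∈ J, ∀ j ∈ J, i ≠ j → Disjoint (Q i) (Q j))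
    (ν : κ → Measure Pt) [∀ j, IsFiniteMeasure (ν j)] (hν : ∀ j ∈ J, ∀ᵐ a ∂ν j, a ∈ Q j)
    {w : Multiset Pt → ℝ≥0∞} (hw : ConfMeas w) {Z m : ℝ} (hZ : 0 ≤ Z) (hm : 0 ≤ m)
    (h0 : ∀ j ∈ J, GP (ν j) w = ENNReal.ofReal Z)
    (h1 : ∀ j ∈ J, GP (ν j) (fun t => ENNReal.ofReal (Multiset.card t : ℝ) * w t)
      = ENNReal.ofReal (m * Z))
    {I : Finset κ} (hI : I ⊆ J) :
    GP (∑ j ∈ J, ν j)
        (fun s => ENNReal.ofReal (∏ i ∈ I, count (Q i) s) * cellProd J Q (fun _ => w) s)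
      = ENNReal.ofReal (m ^ I.card * Z ^ J.card) := by
  let f : κ → Multiset Pt → ℝ≥0∞ := fun j t =>
    (if j ∈ I then ENNReal.ofReal (Multiset.card t : ℝ) else 1) * w t
  have hf : ∀ j ∈ J, ConfMeas (f j) := by
    intro j _ N
    by_cases hj : j ∈ I <;> simp only [f, hj, if_true, if_false, card_conf, one_mul]
    · exact (hw N).const_mul _
    · exact hw N
  have hfun : (fun s => ENNReal.ofReal (∏ i ∈ I, count (Q i) s) * cellProd J Q (fun _ => w) s)
      = cellProd J Q f := by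
    funext s
    simp only [cellProd, f]
    rw [prod_mul_distrib, ← prod_filter, filter_mem_eq_inter, inter_eq_right.2 hI,
      ENNReal.ofReal_prod_of_nonneg fun i _ => count_nonneg _ _]
    rfl
  rw [hfun, GP_cellProd J hQ hdis ν hν hf]
  have : ∀ j ∈ J, GP (ν j) (f j)
      = (if j ∈ I then ENNReal.ofReal m else 1) * ENNReal.ofReal Z := by
    intro j hj
    by_cases hjI : j ∈ I <;> simp only [f, hjI, if_true, if_false, one_mul]
    · rw [h1 j hj, ENNReal.ofReal_mul hm]
    · exact h0 j hj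
  rw [prod_congr rfl this, prod_mul_distrib, ← prod_filter, filter_mem_eq_inter,
    inter_eq_right.2 hI, prod_const, prod_const, ← ENNReal.ofReal_pow hm,
    ← ENNReal.ofReal_pow hZ, ← ENNReal.ofReal_mul (by positivity)]

/-- Linear combinations of the moments. -/
theorem GP_sum_moment {κ ι : Type*} [DecidableEq κ] (J : Finset κ) {Q : κ → Set Pt}
    (hQ : ∀ j ∈ J, MeasurableSet (Q j))
    (hdis : ∀ i ∈ J, ∀ j ∈ J, i ≠ j → Disjoint (Q i) (Q j))
    (ν : κ → Measure Pt) [∀ j, IsFiniteMeasure (ν j)] (hν : ∀ j ∈ J, ∀ᵐ a ∂ν j, a ∈ Q j)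
    {w : Multiset Pt → ℝ≥0∞} (hw : ConfMeas w) {Z m : ℝ} (hZ : 0 ≤ Z) (hm : 0 ≤ m)
    (h0 : ∀ j ∈ J, GP (ν j) w = ENNReal.ofReal Z)
    (h1 : ∀ j ∈ J, GP (ν j) (fun t => ENNReal.ofReal (Multiset.card t : ℝ) * w t)
      = ENNReal.ofReal (m * Z))
    (K : Finset ι) {I : ι → Finset κ} (hI : ∀ z ∈ K, I z ⊆ J) {c : ℝ} (hc : 0 ≤ c) {d : ℕ}
    (hd : ∀ z ∈ K, (I z).card = d) :
    GP (∑ j ∈ J, ν j) (fun s => ENNReal.ofReal (c * ∑ z ∈ K, ∏ i ∈ I z, count (Q i) s)
        * cellProd J Q (fun _ => w) s)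
      = ENNReal.ofReal (c * ((K.card : ℝ) * m ^ d) * Z ^ J.card) := by
  have hF : ConfMeas (cellProd J Q fun _ => w) := confMeas_cellProd J hQ fun _ _ => hw
  have hterm : ∀ z ∈ K, ConfMeas fun s =>
      ENNReal.ofReal (∏ i ∈ I z, count (Q i) s) * cellProd J Q (fun _ => w) s := fun z hz N =>
    (ENNReal.measurable_ofReal.comp
      (Finset.measurable_prod _ fun i hi => measurable_count (hQ i (hI z hz hi)) N)).mul (hF N)
  have hfun : (fun s => ENNReal.ofReal (c * ∑ z ∈ K, ∏ i ∈ I z, count (Q i) s)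
        * cellProd J Q (fun _ => w) s)
      = fun s => ENNReal.ofReal c * ∑ z ∈ K,
          ENNReal.ofReal (∏ i ∈ I z, count (Q i) s) * cellProd J Q (fun _ => w) s := by
    funext s
    rw [ENNReal.ofReal_mul hc, ENNReal.ofReal_sum_of_nonneg
      (fun z _ => prod_nonneg fun i _ => count_nonneg _ _), mul_assoc, sum_mul]
  rw [hfun, GP_const_mul _ (ConfMeas.finset_sum K hterm), GP_finset_sum _ _ hterm,
    sum_congr rfl fun z hz => by rw [GP_prod_moment J hQ hdis ν hν hw hZ hm h0 h1 (hI z hz), hd z hz],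
    sum_const, nsmul_eq_mul, ← ENNReal.ofReal_natCast, ← ENNReal.ofReal_mul (by positivity),
    ← ENNReal.ofReal_mul hc]
  congr 1
  ring

/-- The gain from the long tail in a finite cube. -/
theorem Adm.kac_cube (hA : Adm h g S T) (hA' : Adm h g S T') (hle : ∀ r, T r ≤ T' r)
    {τ R ℓ : ℝ} (hτ : 0 ≤ τ) (hgain : ∀ r, r < R → τ ≤ T' r) (hℓ : 0 < ℓ)
    (D : Finset Lbl) (r : ℕ) (hD : ∀ d ∈ D, d ≠ 0 ∧ (∀ i, |d i| ≤ (r : ℤ))
      ∧ dist (corner 0 (ℓ + 1) d) 0 + 4 * (ℓ + 1) < R)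
    (x lam : ℝ) {K : ℕ} (hK : 2 * r < K)
    (ha : 0 < τ * D.card * (((K : ℝ) - 2 * r) / K) ^ 3) :
    (K : ℝ) ^ 3 * (logZc h T ℓ x
        - (x - lam) ^ 2 / (2 * (τ * D.card * (((K : ℝ) - 2 * r) / K) ^ 3)))
      ≤ logZc h T' ((K : ℝ) * (ℓ + 1)) lam := by
  classical
  set p := ℓ + 1 with hp
  have hp0 : 0 < p := by linarith
  set J := box 0 (K : ℤ) with hJ
  set In := box (r : ℤ) ((K : ℤ) - r) with hIn
  set Q : Lbl → Set Pt := fun j => cubeAt (corner 0 p j) ℓ with hQ
  set ν : Lbl → Measure Pt := fun j => onCube (corner 0 p j) ℓ with hν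
  have : ∀ j, IsFiniteMeasure (ν j) := fun j => isFiniteMeasure_onCube _ _
  have hdis : ∀ i ∈ J, ∀ j ∈ J, i ≠ j → Disjoint (Q i) (Q j) :=
    fun i _ j _ hij => disjoint_subcube hℓ.le hij
  have hm : ∀ j ∈ J, MeasurableSet (Q j) := fun j _ => measurableSet_cubeAt _ _
  have hidx : ∀ j, ∀ a ∈ Q j, idx 0 p a = j := fun j a ha =>
    (mem_cell_iff_idx hp0).1 (subcube_subset_cell j ha)
  have hνQ : ∀ j ∈ J, ∀ᵐ a ∂ν j, a ∈ Q j := fun j _ => ae_mem_onCube _ _
  -- one cell
  set w := wgt x (pot h T) with hw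
  have hwm : ConfMeas w := confMeas_wgt hA.measurable
  set Z := Real.exp (logZc h T ℓ x) with hZ
  have hZ0 : 0 < Z := Real.exp_pos _
  have hZv : GP (onCube 0 ℓ) w = ENNReal.ofReal Z := GP_wgt_eq_exp (hA.GP_ne_top x hℓ.le)
  set E := (GP (onCube 0 ℓ) fun t => ENNReal.ofReal (Multiset.card t : ℝ) * w t).toReal with hE
  set m := E / Z with hmdef
  have hm0 : 0 ≤ m := div_nonneg ENNReal.toReal_nonneg hZ0.le
  have hEv : (GP (onCube 0 ℓ) fun t => ENNReal.ofReal (Multiset.card t : ℝ) * w t)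
      = ENNReal.ofReal (m * Z) := by
    rw [hmdef, div_mul_cancel₀ _ hZ0.ne', hE, ENNReal.ofReal_toReal]
    refine ne_top_of_le_ne_top (hA.GP_ne_top (x + 1) hℓ.le) (GP_mono fun t => ?_)
    simp only [hw, wgt]
    rw [← ENNReal.ofReal_mul (Nat.cast_nonneg _)]
    refine ENNReal.ofReal_le_ofReal ?_
    refine (mul_le_mul_of_nonneg_right (le_trans (by linarith)
      (Real.add_one_le_exp (Multiset.card t : ℝ))) (Real.exp_nonneg _)).trans (le_of_eq ?_)
    rw [← Real.exp_add]
    congr 1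
    ring
  have h0 : ∀ j ∈ J, GP (ν j) w = ENNReal.ofReal Z := fun j _ => by
    rw [← hZv]; exact GP_wgt_cubeAt _ _ _ _ _
  have h1 : ∀ j ∈ J, GP (ν j) (fun t => ENNReal.ofReal (Multiset.card t : ℝ) * w t)
      = ENNReal.ofReal (m * Z) := fun j _ => by
    rw [← hEv, hν, GP_translate]
    congr 1
    funext t
    rw [Multiset.card_map, hw, wgt_map x _ _ t fun a b => pot_translate h T _ a b]
  -- pairs of cells
  have hmemJ : ∀ i ∈ In, ∀ d ∈ D, i + d ∈ J := by
    intro i hi d hd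
    refine mem_box.2 fun k => ?_
    have h1 := mem_box.1 hi k
    have h2 := abs_le.1 ((hD d hd).2.1 k)
    simp only [Pi.add_apply]
    omega
  have hInJ : In ⊆ J := fun i hi => mem_box.2 fun k => by
    have h1 := mem_box.1 hi k
    omega
  set Pr := In ×ˢ D with hPr
  set u := x - lam with hu
  let Pf : Multiset Pt → ℝ := fun s =>
    τ / 2 * (∑ z ∈ Pr, ∏ i ∈ ({z.1, z.1 + z.2} : Finset Lbl), count (Q i) s)
      + max (-u) 0 * ∑ j ∈ J, ∏ i ∈ ({j} : Finset Lbl), count (Q i) s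
  let Qf : Multiset Pt → ℝ := fun s =>
    max u 0 * ∑ j ∈ J, ∏ i ∈ ({j} : Finset Lbl), count (Q i) s
  set F := cellProd J Q (fun _ => w) with hF
  have hFm : ConfMeas F := confMeas_cellProd J hm fun _ _ => hwm
  have hne : ∀ z ∈ Pr, z.1 ≠ z.1 + z.2 := fun z hz h => (hD z.2 (mem_product.1 hz).2).1
    (by simpa using h)
  have hsub2 : ∀ z ∈ Pr, ({z.1, z.1 + z.2} : Finset Lbl) ⊆ J := fun z hz => by
    rw [insert_subset_iff, singleton_subset_iff]
    exact ⟨hInJ (mem_product.1 hz).1, hmemJ _ (mem_product.1 hz).1 _ (mem_product.1 hz).2⟩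
  have hcard2 : ∀ z ∈ Pr, ({z.1, z.1 + z.2} : Finset Lbl).card = 2 :=
    fun z hz => card_pair (hne z hz)
  have hsub1 : ∀ j ∈ J, ({j} : Finset Lbl) ⊆ J := fun j hj => singleton_subset_iff.2 hj
  have hs1 : ∀ s, 0 ≤ ∑ j ∈ J, ∏ i ∈ ({j} : Finset Lbl), count (Q i) s :=
    fun s => sum_nonneg fun j _ => prod_nonneg fun i _ => count_nonneg _ _
  have hs2 : ∀ s, 0 ≤ τ / 2 * ∑ z ∈ Pr, ∏ i ∈ ({z.1, z.1 + z.2} : Finset Lbl), count (Q i) s :=
    fun s => mul_nonneg (by positivity)
      (sum_nonneg fun j _ => prod_nonneg fun i _ => count_nonneg _ _)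
  have hmeas1 : ∀ N, Measurable fun y : Fin N → Pt =>
      ∑ j ∈ J, ∏ i ∈ ({j} : Finset Lbl), count (Q i) (conf y) := fun N =>
    Finset.measurable_sum _ fun j hj => Finset.measurable_prod _ fun i hi =>
      measurable_count (hm i (hsub1 j hj hi)) N
  have hmeas2 : ∀ N, Measurable fun y : Fin N → Pt =>
      τ / 2 * ∑ z ∈ Pr, ∏ i ∈ ({z.1, z.1 + z.2} : Finset Lbl), count (Q i) (conf y) := fun N =>
    (Finset.measurable_sum _ fun j hj => Finset.measurable_prod _ fun i hi =>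
      measurable_count (hm i (hsub2 j hj hi)) N).const_mul _
  set ZJ := Z ^ J.card with hZJ
  set pv := τ / 2 * ((Pr.card : ℝ) * m ^ 2) + max (-u) 0 * ((J.card : ℝ) * m ^ 1) with hpv
  set qv := max u 0 * ((J.card : ℝ) * m ^ 1) with hqv
  have hFv : GP (∑ j ∈ J, ν j) F = ENNReal.ofReal ZJ := by
    have := GP_prod_moment J hm hdis ν hνQ hwm hZ0.le hm0 h0 h1 (empty_subset J)
    simpa using this
  have hpp : 0 ≤ τ / 2 * ((Pr.card : ℝ) * m ^ 2) :=
    mul_nonneg (div_nonneg hτ zero_le_two) (mul_nonneg (Nat.cast_nonneg _) (sq_nonneg _))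
  have hqq : ∀ {v : ℝ}, 0 ≤ max v 0 * ((J.card : ℝ) * m ^ 1) := fun {v} =>
    mul_nonneg (le_max_right _ _) (mul_nonneg (Nat.cast_nonneg _) (pow_nonneg hm0 _))
  have hPv : GP (∑ j ∈ J, ν j) (fun s => ENNReal.ofReal (Pf s) * F s)
      = ENNReal.ofReal (pv * ZJ) := by
    have hb : ∀ s, 0 ≤ max (-u) 0 * ∑ j ∈ J, ∏ i ∈ ({j} : Finset Lbl), count (Q i) s :=
      fun s => mul_nonneg (le_max_right _ _) (hs1 s)
    simp only [Pf, ENNReal.ofReal_add (hs2 _) (hb _), add_mul]
    rw [GP_add _ (fun N => (ENNReal.measurable_ofReal.comp (hmeas2 N)).mul (hFm N)),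
      GP_sum_moment J hm hdis ν hνQ hwm hZ0.le hm0 h0 h1 Pr hsub2 (by positivity) hcard2,
      GP_sum_moment J hm hdis ν hνQ hwm hZ0.le hm0 h0 h1 J hsub1 (le_max_right _ _)
        fun j _ => card_singleton j,
      ← ENNReal.ofReal_add (mul_nonneg hpp (pow_nonneg hZ0.le _))
        (mul_nonneg hqq (pow_nonneg hZ0.le _))]
    congr 1
    rw [hpv]; ring
  have hQv : GP (∑ j ∈ J, ν j) (fun s => ENNReal.ofReal (Qf s) * F s)
      = ENNReal.ofReal (qv * ZJ) :=
    GP_sum_moment J hm hdis ν hνQ hwm hZ0.le hm0 h0 h1 J hsub1 (le_max_right _ _)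
      fun j _ => card_singleton j
  have hjen := GP_jensen (ν := ∑ j ∈ J, ν j) hFm (P := Pf) (Q := Qf)
    (fun N => (hmeas2 N).add ((hmeas1 N).const_mul _))
    (fun N => (hmeas1 N).const_mul _)
    (fun s => add_nonneg (hs2 s) (mul_nonneg (le_max_right _ _) (hs1 s)))
    (fun s => mul_nonneg (le_max_right _ _) (hs1 s))
    (z := ZJ) (p := pv) (q := qv) (pow_pos hZ0 _) (add_nonneg hpp hqq) hqq hFv hPv hQv
  have hK0 : (0 : ℝ) < K := by exact_mod_cast (show 0 < K by omega)
  have hL : 0 ≤ (K : ℝ) * p := by positivity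
  refine le_logZ_of_le_GP (hA'.GP_ne_top lam hL) ((le_trans ?_ hjen).trans ?_)
  · rw [hZJ, hZ, ← Real.exp_nat_mul, ← Real.exp_add]
    refine ENNReal.ofReal_le_ofReal (Real.exp_le_exp.2 ?_)
    have hKr : (2 * r : ℤ) ≤ K := by exact_mod_cast hK.le
    have hJc : (J.card : ℝ) = (K : ℝ) ^ 3 := by
      rw [hJ, card_box (by positivity)]; push_cast; ring
    have hPc : (Pr.card : ℝ) = ((K : ℝ) - 2 * r) ^ 3 * D.card := by
      rw [hPr, card_product, Nat.cast_mul, hIn, card_box (by linarith)]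
      push_cast; ring
    set a := τ * (D.card : ℝ) * (((K : ℝ) - 2 * r) / K) ^ 3 with hadef
    have hsq : 0 ≤ (K : ℝ) ^ 3 * (a * m - u) ^ 2 / (2 * a) :=
      div_nonneg (mul_nonneg (pow_nonneg hK0.le _) (sq_nonneg _)) (by linarith)
    have e1 : pv - qv = (K : ℝ) ^ 3 * (a / 2 * m ^ 2 - u * m) := by
      rw [hpv, hqv, hJc, hPc]
      have : max u 0 - max (-u) 0 = u := by
        rcases le_total u 0 with hu0 | hu0
        · rw [max_eq_right hu0, max_eq_left (by linarith)]; ring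
        · rw [max_eq_left hu0, max_eq_right (by linarith)]; ring
      have ea : (K : ℝ) ^ 3 * a = τ * (D.card : ℝ) * ((K : ℝ) - 2 * r) ^ 3 := by
        rw [hadef]
        calc _ = τ * (D.card : ℝ) * ((K : ℝ) * (((K : ℝ) - 2 * r) / K)) ^ 3 := by ring
          _ = _ := by rw [mul_div_cancel₀ _ hK0.ne']
      linear_combination (-(K : ℝ) ^ 3 * m) * this - m ^ 2 / 2 * ea
    have e2 : (K : ℝ) ^ 3 * (a * m - u) ^ 2 / (2 * a)
        = (K : ℝ) ^ 3 * (a / 2 * m ^ 2 - u * m) + (K : ℝ) ^ 3 * (u ^ 2 / (2 * a)) := by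
      field_simp; ring
    rw [hJc]
    linarith
  · rw [sum_onCube J hdis]
    have hn : (((K : ℕ) : ℤ) : ℝ) * (ℓ + 1) ≤ (K : ℝ) * p := by rw [hp]; push_cast; exact le_rfl
    have hfin : volume (cubeAt (0 : Pt) ((K : ℝ) * p)) ≠ ⊤ := by
      rw [volume_cubeAt 0 hL]; exact ENNReal.ofReal_ne_top
    have : Fact (volume (⋃ j ∈ J, cubeAt (corner 0 p j) ℓ) < ⊤) :=
      ⟨(ne_top_of_le_ne_top hfin (measure_mono (tiles_subset hℓ.le hn))).lt_top⟩
    refine (GP_mono_ae (A := ⋃ j ∈ J, Q j)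
      (ae_restrict_mem (Finset.measurableSet_biUnion _ hm)) fun s hs => ?_).trans
      (GP_restrict_mono (tiles_subset hℓ.le hn) hfin _)
    have hsJ : ∀ a ∈ s, ∃ k ∈ J, a ∈ Q k := fun a ha => by simpa using hs a ha
    let w' : Pt → Pt → ℝ := fun a b => if idx 0 p a = idx 0 p b then pot h T a b else 0
    let W : Lbl → Lbl → ℝ := fun i j => if i ∈ In ∧ j - i ∈ D then τ else 0
    rw [hF, ← wgt_eq_prod J hdis hsJ (w' := w') x
      (fun j _ a ha b hb => if_pos (by rw [hidx j a ha, hidx j b hb]))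
      (fun i _ j _ hij a ha b hb => if_neg (by rw [hidx i a ha, hidx j b hb]; exact hij))]
    simp only [wgt]
    rw [← ENNReal.ofReal_mul (Real.exp_nonneg _), ← Real.exp_add]
    refine ENNReal.ofReal_le_ofReal (Real.exp_le_exp.2 ?_)
    have hen : en (pot h T') s
        ≤ en w' s - en (fun a b => W (idx 0 p a) (idx 0 p b)) s := by
      rw [← en_sub]
      refine en_mono fun a ha b hb => ?_
      obtain ⟨i, -, hai⟩ := hsJ a ha
      obtain ⟨j, -, hbj⟩ := hsJ b hb
      simp only [w', W, hidx i a hai, hidx j b hbj]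
      by_cases hij : i = j
      · subst hij
        rw [if_pos rfl, if_neg (by rintro ⟨-, hd⟩; exact (hD _ hd).1 (sub_self i))]
        simp only [pot, sub_zero]
        linarith [hle (dist a b)]
      · rw [if_neg hij]
        have h1 := one_le_dist_of_ne hℓ.le hij hai hbj
        simp only [pot, core, if_neg (not_lt.2 h1)]
        split_ifs with hW
        · obtain ⟨-, hd⟩ := hW
          have hdist : dist (corner 0 p i) (corner 0 p j) = dist (corner 0 p (j - i)) 0 := by
            simp only [EuclideanSpace.dist_eq, corner_apply, Real.dist_eq, PiLp.zero_apply]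
            congr 1
            refine sum_congr rfl fun k _ => ?_
            simp only [sq_abs, Pi.sub_apply]
            push_cast
            ring
          have := dist_triangle4 a (corner 0 p i) (corner 0 p j) b
          rw [dist_comm (corner 0 p j) b] at this
          have := dist_corner_le hp0.le (subcube_subset_cell i hai)
          have := dist_corner_le hp0.le (subcube_subset_cell j hbj)
          have := (hD _ hd).2.2
          linarith [hgain (dist a b) (by linarith)]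
        · linarith [hA'.prof.nonneg (dist a b)]
    have hWen : τ / 2 * (∑ z ∈ Pr, ∏ i ∈ ({z.1, z.1 + z.2} : Finset Lbl), count (Q i) s)
        = en (fun a b => W (idx 0 p a) (idx 0 p b)) s := by
      have hdiag : (s.map fun a => W (idx 0 p a) (idx 0 p a)).sum = 0 := by
        refine Multiset.sum_eq_zero fun v hv => ?_
        obtain ⟨a, -, rfl⟩ := Multiset.mem_map.1 hv
        exact if_neg (by rintro ⟨-, hd⟩; exact (hD _ hd).1 (sub_self _))
      unfold en
      rw [hdiag, sub_zero, bil_cellwise J hdis hsJ _ W fun i _ j _ a ha b hb => by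
        simp only [hidx i a ha, hidx j b hb]]
      rw [div_mul_eq_mul_div, mul_sum]
      congr 1
      rw [hPr, sum_product]
      have hin : ∀ i ∈ J, i ∉ In → ∑ j ∈ J, W i j * count (Q i) s * count (Q j) s = 0 :=
        fun i _ hi => sum_eq_zero fun j _ => by simp [W, hi]
      rw [← sum_subset hInJ hin]
      refine sum_congr rfl fun i hi => ?_
      have hfilt : ∑ j ∈ J, W i j * count (Q i) s * count (Q j) s
          = ∑ j ∈ J.filter (fun j => j - i ∈ D), W i j * count (Q i) s * count (Q j) s :=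
        (sum_filter_of_ne fun j _ hne => by
          by_contra hd; simp [W, hd] at hne).symm
      rw [hfilt]
      refine sum_nbij' (fun d => i + d) (fun j => j - i) ?_ ?_ ?_ ?_ ?_
      · intro d hd; simp [hmemJ i hi d hd, hd]
      · intro j hj; exact (mem_filter.1 hj).2
      · intro d _; simp
      · intro j _; simp
      · intro d hd
        rw [prod_pair (fun h => (hD d hd).1 (by simpa using h))]
        simp [W, hi, hd, mul_assoc]
    simp only [Pf, Qf, prod_singleton, sum_count J hdis s hsJ]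
    have hmax : max (-u) 0 - max u 0 = lam - x := by
      rcases le_total u 0 with hu0 | hu0
      · rw [max_eq_right hu0, max_eq_left (by linarith)]; linarith
      · rw [max_eq_left hu0, max_eq_right (by linarith)]; linarith
    nlinarith

/-- The pressure with a long tail, from below. -/
theorem Adm.kac_lower (hA : Adm h g S T) {A : ℝ} (hApos : 0 < A) (x lam : ℝ) {e : ℝ} (he : 0 < e) :
    ∃ R₀ : ℝ, ∀ R, R₀ ≤ R → Adm h g S (fun r => T r + tail A R r) →
      pressure h T x - (x - lam) ^ 2 / (2 * A) - e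
        ≤ pressure h (fun r => T r + tail A R r) lam := by
  obtain ⟨_, ⟨ℓ, hℓ, rfl⟩, hlt⟩ := exists_lt_of_lt_csSup (image_nonempty h T x)
    (show pressure h T x - e / 2 < pressure h T x by linarith)
  have hℓ0 : 0 < ℓ := hℓ
  set p := ℓ + 1 with hp
  have hp0 : 0 < p := by linarith
  set V := p ^ 3 with hV
  have hV0 : 0 < V := by positivity
  set u := x - lam with hu
  have hbv := ballVol_pos
  have ht : Tendsto (fun R : ℝ => u ^ 2 /
      (2 * (A * ((1 - 6 * p / R) ^ 3 - V / ballVol * (1 / R) ^ 3)))) atTop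
      (𝓝 (u ^ 2 / (2 * (A * ((1 - 0) ^ 3 - V / ballVol * 0 ^ 3))))) :=
    Tendsto.div tendsto_const_nhds
      ((((tendsto_const_nhds.sub (tendsto_id.const_div_atTop (6 * p))).pow 3).sub
        (((tendsto_id.const_div_atTop 1).pow 3).const_mul _)).const_mul A |>.const_mul 2)
      (by simp [hApos.ne'])
  have hlim : u ^ 2 / (2 * (A * ((1 - 0) ^ 3 - V / ballVol * 0 ^ 3))) < u ^ 2 / (2 * A) + e / 2 := by
    simp; linarith
  have hpos : Tendsto (fun R : ℝ => (1 - 6 * p / R) ^ 3 - V / ballVol * (1 / R) ^ 3) atTop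
      (𝓝 ((1 - 0) ^ 3 - V / ballVol * 0 ^ 3)) :=
    (((tendsto_const_nhds.sub (tendsto_id.const_div_atTop (6 * p))).pow 3).sub
      (((tendsto_id.const_div_atTop 1).pow 3).const_mul _))
  obtain ⟨R₀, hR₀⟩ := eventually_atTop.1 ((ht.eventually (eventually_lt_nhds hlim)).and
    ((hpos.eventually (eventually_gt_nhds (show (0 : ℝ) < (1 - 0) ^ 3 - V / ballVol * 0 ^ 3 by
      norm_num))).and (eventually_ge_atTop (max 1 (6 * p)))))
  refine ⟨R₀, fun R hR hAdm => ?_⟩
  obtain ⟨hsmall, hbr, hR'⟩ := hR₀ R hR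
  have hR1 : 1 ≤ R := le_trans (le_max_left _ _) hR'
  have hR6 : 6 * p ≤ R := le_trans (le_max_right _ _) hR'
  have hR0 : 0 < R := by linarith
  set r : ℕ := ⌈R / p⌉₊ with hr
  have hrm : R - 4 * p ≤ p * ((r : ℤ) : ℝ) := by
    have := Nat.le_ceil (R / p)
    rw [div_le_iff₀ hp0] at this
    push_cast
    linarith
  set D0 := (box (-(r : ℤ)) ((r : ℤ) + 1)).filter fun j => dist (corner 0 p j) 0 < R - 4 * p
    with hD0
  set D := D0.erase 0 with hDdef
  have hcard := le_card_cells hp0 (r := R - 4 * p) (by linarith) (r : ℤ) hrm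
  rw [← hD0] at hcard
  have hDc : (D0.card : ℝ) ≤ D.card + 1 := by rw [hDdef]; have := pred_card_le_card_erase (s := D0) (a := (0 : Lbl)); exact_mod_cast (by omega : D0.card ≤ (D0.erase 0).card + 1)
  set τ := A / (ballVol * R ^ 3) with hτ
  have hτ0 : 0 < τ := by positivity
  have hτD : A * ((1 - 6 * p / R) ^ 3 - V / ballVol * (1 / R) ^ 3) ≤ τ * D.card * V := by
    have e1 : A * ((1 - 6 * p / R) ^ 3 - V / ballVol * (1 / R) ^ 3)
        = τ * ((R - 6 * p) ^ 3 * ballVol - V) := by rw [hτ]; field_simp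
    rw [e1, mul_assoc]
    refine mul_le_mul_of_nonneg_left ?_ hτ0.le
    have := mul_le_mul_of_nonneg_right hDc hV0.le
    rw [show R - 4 * p - 2 * p = R - 6 * p by ring] at hcard
    linarith
  have hpos' : 0 < τ * D.card * V := lt_of_lt_of_le (by positivity) hτD
  have hle : ∀ s, T s ≤ T s + tail A R s := fun s => by
    linarith [tail_nonneg hApos.le hR0.le s]
  set P' := pressure h (fun s => T s + tail A R s) lam with hP'
  set B := u ^ 2 / (2 * (τ * D.card)) with hB
  have hτDp : 0 < τ * (D.card : ℝ) := by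
    rcases lt_or_ge 0 (τ * (D.card : ℝ)) with h | h
    · exact h
    · nlinarith
  have hmain : logZc h T ℓ x - B ≤ V * P' := by
    have t1 : Tendsto (fun K : ℕ => logZc h T ℓ x
        - u ^ 2 / (2 * (τ * D.card * (1 - (2 * r : ℝ) / K) ^ 3))) atTop
        (𝓝 (logZc h T ℓ x - u ^ 2 / (2 * (τ * D.card * (1 - 0) ^ 3)))) :=
      tendsto_const_nhds.sub (Tendsto.div tendsto_const_nhds
        ((((tendsto_const_nhds.sub (tendsto_natCast_atTop_atTop.const_div_atTop (2 * r : ℝ))).pow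
          3).const_mul _).const_mul 2) (by simp [hτDp.ne']))
    have t2 : Tendsto (fun K : ℕ => (p + 1 / K) ^ 3 * P') atTop (𝓝 ((p + 0) ^ 3 * P')) :=
      ((tendsto_const_nhds.add (tendsto_natCast_atTop_atTop.const_div_atTop 1)).pow 3).mul_const _
    have hlimit := le_of_tendsto_of_tendsto t1 t2 ?_
    · simpa [hB, hV] using hlimit
    filter_upwards [eventually_gt_atTop (2 * r)] with K hK
    have hK0 : (0 : ℝ) < K := by exact_mod_cast (show 0 < K by omega)
    have hKr : (2 * r : ℝ) < K := by exact_mod_cast hK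
    have hfrac : 1 - (2 * r : ℝ) / K = ((K : ℝ) - 2 * r) / K := by field_simp
    have hpK : 0 < ((K : ℝ) - 2 * r) / K := div_pos (by linarith) hK0
    have hkc := hA.kac_cube hAdm hle (τ := τ) (R := R) hτ0.le
      (fun s hs => by
        have h0 := hA.prof.nonneg s
        simp only [tail, if_pos hs]
        linarith) hℓ0 D r (fun d hd => by
        obtain ⟨hd0, hd1⟩ := mem_erase.1 hd
        obtain ⟨hd2, hd3⟩ := mem_filter.1 hd1
        refine ⟨hd0, fun i => abs_le.2 ?_, by linarith⟩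
        have := mem_box.1 hd2 i
        omega) x lam hK (by positivity)
    have hlp := hAdm.le_pressure lam (show 0 < (K : ℝ) * (ℓ + 1) by positivity)
    rw [hfrac]
    have e2 : ((K : ℝ) * (ℓ + 1) + 1) ^ 3 = (K : ℝ) ^ 3 * (p + 1 / K) ^ 3 := by
      rw [hp]; field_simp
    rw [e2, mul_assoc] at hlp
    exact le_of_mul_le_mul_left (hkc.trans hlp) (by positivity)
  have hB' : B / V < u ^ 2 / (2 * A) + e / 2 := by
    refine lt_of_le_of_lt ?_ hsmall
    rw [hB, div_div, show 2 * (τ * (D.card : ℝ)) * V = 2 * (τ * D.card * V) by ring]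
    exact div_le_div_of_nonneg_left (sq_nonneg _) (by positivity) (by linarith)
  have hlt' : pressure h T x - e / 2 < logZc h T ℓ x / V := hlt
  have : logZc h T ℓ x / V - B / V ≤ P' := by
    rw [← sub_div, div_le_iff₀ hV0]; linarith
  linarith

end Vale.Agent.P171
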