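import Vale.Agent.P171.Geometry
import Mathlib.Analysis.SpecialFunctions.Exponential
import Mathlib.MeasureTheory.Constructions.BorelSpace.Order

/-!
The potentials (soft core minus flat tails) and their stability.
-/

open MeasureTheory Finset
open scoped ENNReal Nat

namespace Vale.Agent.P171

/-- The soft core. -/
noncomputable def core (h r : ℝ) : ℝ := if r < 1 then h else 0

/-- A flat tail of total integral `A` and radius `R`. -/
noncomputable def tail (A R r : ℝ) : ℝ := if r < R then A / (ballVol * R ^ 3) else 0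

/-- A sequence of tails. -/
noncomputable def tails (A R : ℕ → ℝ) (r : ℝ) : ℝ := ∑' i, tail (A i) (R i) r

/-- Soft core minus an attraction profile, as a kernel on points. -/
noncomputable def pot (h : ℝ) (T : ℝ → ℝ) (x y : Pt) : ℝ := core h (dist x y) - T (dist x y)

/-- Admissible strengths and radii. -/
structure Sched (A R : ℕ → ℝ) : Prop where
  nonneg : ∀ i, 0 ≤ A i
  summable : Summable A
  one_le : ∀ i, 1 ≤ R i

variable {A R : ℕ → ℝ}

theorem tail_nonneg {a r₀ : ℝ} (ha : 0 ≤ a) (hr : 0 ≤ r₀) (r : ℝ) : 0 ≤ tail a r₀ r := by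
  have := ballVol_pos
  unfold tail; split_ifs <;> positivity

theorem tail_le {a r₀ : ℝ} (ha : 0 ≤ a) (hr : 1 ≤ r₀) (r : ℝ) : tail a r₀ r ≤ a / ballVol := by
  have := ballVol_pos
  unfold tail
  split_ifs
  · gcongr
    exact le_mul_of_one_le_right this.le (one_le_pow₀ hr)
  · positivity

theorem tail_anti {a r₀ : ℝ} (ha : 0 ≤ a) (hr : 0 ≤ r₀) : Antitone (tail a r₀) := by
  intro x y hxy
  have := tail_nonneg ha hr x
  by_cases h : y < r₀
  · simp [tail, h, lt_of_le_of_lt hxy h]
  · simpa [tail, h] using this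

theorem Sched.summable_tail (hs : Sched A R) (r : ℝ) : Summable fun i => tail (A i) (R i) r :=
  Summable.of_nonneg_of_le (fun i => tail_nonneg (hs.nonneg i) (zero_le_one.trans (hs.one_le i)) r)
    (fun i => tail_le (hs.nonneg i) (hs.one_le i) r) (hs.summable.div_const _)

theorem Sched.tails_nonneg (hs : Sched A R) (r : ℝ) : 0 ≤ tails A R r :=
  tsum_nonneg fun i => tail_nonneg (hs.nonneg i) (zero_le_one.trans (hs.one_le i)) r

theorem Sched.tails_anti (hs : Sched A R) : Antitone (tails A R) := fun x y hxy =>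
  Summable.tsum_le_tsum
    (fun i => tail_anti (hs.nonneg i) (zero_le_one.trans (hs.one_le i)) hxy)
    (hs.summable_tail y) (hs.summable_tail x)

theorem tail_smul (c a r₀ r : ℝ) : tail (c * a) r₀ r = c * tail a r₀ r := by
  unfold tail; split_ifs <;> ring

theorem tails_smul (c : ℝ) (A R : ℕ → ℝ) (r : ℝ) :
    tails (fun i => c * A i) R r = c * tails A R r := by
  simp only [tails, tail_smul, tsum_mul_left]

theorem measurable_pot {h : ℝ} {T : ℝ → ℝ} (hT : Measurable T) :
    Measurable (Function.uncurry (pot h T)) := by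
  have hd : Measurable fun p : Pt × Pt => dist p.1 p.2 := measurable_fst.dist measurable_snd
  have hc : Measurable (core h) :=
    Measurable.ite measurableSet_Iio measurable_const measurable_const
  exact (hc.comp hd).sub (hT.comp hd)

theorem pot_translate (h : ℝ) (T : ℝ → ℝ) (o a b : Pt) :
    pot h T (a + o) (b + o) = pot h T a b := by simp [pot, dist_add_right]

theorem pot_symm (h : ℝ) (T : ℝ → ℝ) (a b : Pt) : pot h T a b = pot h T b a := by
  simp [pot, dist_comm]

theorem dist_corner (s ℓ : ℝ) (i j : Lbl) :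
    dist (corner s ℓ i) (corner s ℓ j) = dist (corner 0 ℓ i) (corner 0 ℓ j) := by
  simp [EuclideanSpace.dist_eq, corner_apply, Real.dist_eq, add_sub_add_left_eq_sub]

/-- An upper bound of an antitone profile on a pair of cells. -/
theorem profile_le {T : ℝ → ℝ} (hT : Antitone T) {s ℓ : ℝ} (hℓ : 0 ≤ ℓ) {i j : Lbl} {a b : Pt}
    (ha : a ∈ cell s ℓ i) (hb : b ∈ cell s ℓ j) :
    T (dist a b) ≤ T (dist (corner 0 ℓ i) (corner 0 ℓ j) - 4 * ℓ) := by
  refine hT ?_
  rw [← dist_corner s]
  have h1 := dist_corner_le hℓ ha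
  have h2 := dist_corner_le hℓ hb
  have := dist_triangle4 (corner s ℓ i) a b (corner s ℓ j)
  rw [dist_comm (corner s ℓ i) a] at this
  linarith

/-- Bound on the total tail strength seen from one cell. -/
theorem Sched.row_le (hs : Sched A R) {ℓ c : ℝ} (hℓ : 0 < ℓ) (hc : 0 ≤ c)
    (hR : ∀ i, A i ≠ 0 → 6 * ℓ ≤ c * R i) (J : Finset Lbl) (k : Lbl) :
    (∑ j ∈ J, tails A R (dist (corner 0 ℓ k) (corner 0 ℓ j) - 4 * ℓ)) * ℓ ^ 3
      ≤ (1 + c) ^ 3 * ∑' i, A i := by
  have hone : ∀ i, (∑ j ∈ J, tail (A i) (R i) (dist (corner 0 ℓ k) (corner 0 ℓ j) - 4 * ℓ)) * ℓ ^ 3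
      ≤ (1 + c) ^ 3 * A i := by
    intro i
    by_cases hA : A i = 0
    · simp [hA, tail]
    have hR0 : 0 < R i := lt_of_lt_of_le one_pos (hs.one_le i)
    have hbv := ballVol_pos
    have hA0 := hs.nonneg i
    simp only [tail, ← sum_filter, sum_const, nsmul_eq_mul]
    have hcard := card_cells_le hℓ (corner 0 ℓ k) (r := R i + 4 * ℓ)
      (J.filter fun j => dist (corner 0 ℓ k) (corner 0 ℓ j) - 4 * ℓ < R i)
      (fun j hj => by rw [dist_comm]; linarith [(mem_filter.1 hj).2]) (by linarith)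
    have hb : (R i + 4 * ℓ + 2 * ℓ) ^ 3 ≤ ((1 + c) * R i) ^ 3 :=
      pow_le_pow_left₀ (by linarith) (by linarith [hR i hA]) 3
    rw [mul_right_comm]
    calc _ ≤ ((1 + c) * R i) ^ 3 * ballVol * (A i / (ballVol * R i ^ 3)) :=
          mul_le_mul_of_nonneg_right (hcard.trans (mul_le_mul_of_nonneg_right hb hbv.le))
            (by positivity)
      _ = _ := by field_simp
  unfold tails
  rw [← Summable.tsum_finsetSum fun j _ => hs.summable_tail _, ← tsum_mul_right, ← tsum_mul_left]
  exact Summable.tsum_le_tsum hone ((summable_sum fun j _ => hs.summable_tail _).mul_right _)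
    (hs.summable.mul_left _)

theorem dist_lt_one_of_half_cell {k : Lbl} {a b : Pt} (ha : a ∈ cell 0 (1 / 2) k)
    (hb : b ∈ cell 0 (1 / 2) k) : dist a b < 1 := by
  rw [EuclideanSpace.dist_eq, Real.sqrt_lt' one_pos]
  calc ∑ i : Fin 3, dist (a i) (b i) ^ 2 ≤ ∑ _i : Fin 3, ((1 : ℝ) / 2) ^ 2 :=
        sum_le_sum fun i _ => by
          rw [Real.dist_eq]
          refine pow_le_pow_left₀ (abs_nonneg _) (abs_le.2 ?_) 2
          have h1 := mem_cell.1 ha i
          have h2 := mem_cell.1 hb i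
          constructor <;> linarith
    _ < 1 ^ 2 := by norm_num

/-- A profile with bounded sums over half-unit cells. -/
structure Profile (T : ℝ → ℝ) (S : ℝ) : Prop where
  nonneg : ∀ r, 0 ≤ T r
  anti : Antitone T
  row : ∀ (J : Finset Lbl) (k : Lbl),
    ∑ j ∈ J, T (dist (corner 0 (1 / 2) k) (corner 0 (1 / 2) j) - 4 * (1 / 2)) ≤ S

theorem Sched.profile (hs : Sched A R) : Profile (tails A R) (512 * ∑' i, A i) := by
  refine ⟨hs.tails_nonneg, hs.tails_anti, fun J k => ?_⟩
  have h := hs.row_le (ℓ := 1 / 2) (c := 3) (by norm_num) (by norm_num)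
    (fun i _ => by linarith [hs.one_le i]) J k
  norm_num at h ⊢
  linarith

theorem Profile.nonneg_S {T : ℝ → ℝ} {S : ℝ} (hT : Profile T S) : 0 ≤ S := by
  simpa using hT.row ∅ 0

/-- Stability with a superstable margin. -/
theorem Profile.stable {T : ℝ → ℝ} {S h : ℝ} (hT : Profile T S) (hh : S ≤ h) (J : Finset Lbl)
    {s : Multiset Pt} (hs : ∀ a ∈ s, ∃ k ∈ J, a ∈ cell 0 (1 / 2) k) :
    (h - S) / 2 * (∑ k ∈ J, count (cell 0 (1 / 2) k) s ^ 2 - (Multiset.card s : ℝ))
      - S / 2 * (Multiset.card s : ℝ) ≤ en (pot h T) s := by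
  classical
  set W : Lbl → Lbl → ℝ := fun i j => (if i = j then h else 0)
    - T (dist (corner 0 (1 / 2) i) (corner 0 (1 / 2) j) - 4 * (1 / 2)) with hW
  set w : Pt → Pt → ℝ := fun a b => W (idx 0 (1 / 2) a) (idx 0 (1 / 2) b) with hw
  have hh0 : 0 ≤ h := hT.nonneg_S.trans hh
  have hidx : ∀ a : Pt, a ∈ cell 0 (1 / 2) (idx 0 (1 / 2) a) :=
    fun a => (mem_cell_iff_idx (by norm_num)).2 rfl
  have hle : en w s ≤ en (pot h T) s := by
    refine en_mono fun a _ b _ => ?_
    have hp := profile_le hT.anti (by norm_num) (hidx a) (hidx b)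
    simp only [hw, hW, pot, core]
    by_cases he : idx 0 (1 / 2) a = idx 0 (1 / 2) b
    · rw [if_pos he, if_pos (dist_lt_one_of_half_cell (he ▸ hidx a) (hidx b))]
      linarith
    · rw [if_neg he]
      split_ifs <;> linarith
  refine le_trans ?_ hle
  have hdis : ∀ i ∈ J, ∀ j ∈ J, i ≠ j → Disjoint (cell 0 (1 / 2) i) (cell 0 (1 / 2) j) :=
    fun i _ j _ hij => disjoint_cell (by norm_num) hij
  have hbil := bil_cellwise J hdis hs w W fun i _ j _ a ha b hb => by
    simp only [hw, (mem_cell_iff_idx (by norm_num)).1 ha, (mem_cell_iff_idx (by norm_num)).1 hb]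
  have hdiag : (s.map fun a => w a a).sum ≤ h * (Multiset.card s : ℝ) := by
    refine (Multiset.sum_map_le_sum_map _ (fun _ => h) fun a _ => ?_).trans (le_of_eq ?_)
    · simp only [hw, hW, if_true]
      linarith [hT.nonneg (dist (corner 0 (1 / 2) (idx 0 (1 / 2) a))
        (corner 0 (1 / 2) (idx 0 (1 / 2) a)) - 4 * (1 / 2))]
    · simp [mul_comm]
  have hquad := quad_le_of_row J
    (fun i j => T (dist (corner 0 (1 / 2) i) (corner 0 (1 / 2) j) - 4 * (1 / 2)))
    (fun k => count (cell 0 (1 / 2) k) s) (fun i _ j _ => hT.nonneg _)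
    (fun i _ j _ => by rw [dist_comm]) (fun i _ => hT.row J i)
  have hsplit : bil w s s = h * ∑ k ∈ J, count (cell 0 (1 / 2) k) s ^ 2 -
      ∑ i ∈ J, ∑ j ∈ J, T (dist (corner 0 (1 / 2) i) (corner 0 (1 / 2) j) - 4 * (1 / 2))
        * count (cell 0 (1 / 2) i) s * count (cell 0 (1 / 2) j) s := by
    rw [hbil, mul_sum, ← sum_sub_distrib]
    refine sum_congr rfl fun i hi => ?_
    simp only [hW, sub_mul, sum_sub_distrib, ite_mul, zero_mul]
    rw [sum_ite_eq, if_pos hi, sq, mul_assoc]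
  unfold en
  rw [hsplit]
  linarith

/-- The bound on the free energy of one half-unit cell. -/
noncomputable def psi (g y : ℝ) : ℝ := 1 + |y| + y ^ 2 / (4 * g)

theorem psi_nonneg {g : ℝ} (hg : 0 < g) (y : ℝ) : 0 ≤ psi g y := by
  unfold psi; positivity

theorem tsum_inv_factorial :
    ∑' N : ℕ, (N ! : ℝ≥0∞)⁻¹ = ENNReal.ofReal (Real.exp 1) := by
  have hsum := Real.summable_pow_div_factorial 1
  rw [Real.exp_eq_exp_ℝ, NormedSpace.exp_eq_tsum_div, ENNReal.ofReal_tsum_of_nonneg
    (fun N => by positivity) hsum]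
  refine tsum_congr fun N => ?_
  rw [one_pow, one_div, ENNReal.ofReal_inv_of_pos (by positivity), ENNReal.ofReal_natCast]

theorem superstable_exponent {g y : ℝ} (hg : 0 < g) (N : ℕ) :
    y * N - g * ((N : ℝ) ^ 2 - N) ≤ |y| + y ^ 2 / (4 * g) := by
  have hq : 0 ≤ y ^ 2 / (4 * g) := by positivity
  rcases Nat.eq_zero_or_pos N with rfl | hN
  · simp; positivity
  · have h1 : (1 : ℝ) ≤ N := by exact_mod_cast hN
    have hkey : (y - g * ((N : ℝ) - 1)) * ((N : ℝ) - 1) ≤ y ^ 2 / (4 * g) := by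
      rw [le_div_iff₀ (by positivity)]
      nlinarith [sq_nonneg (y - 2 * g * ((N : ℝ) - 1))]
    nlinarith [le_abs_self y, mul_nonneg hg.le (sub_nonneg.2 h1)]

/-- The free energy of a cube is at most quadratic in the chemical potential. -/
theorem Profile.GP_cube_le {T : ℝ → ℝ} {S h g : ℝ} (hT : Profile T S) (hg : 0 < g)
    (hgh : 2 * g + S ≤ h) (lam : ℝ) {L : ℝ} (hL : 0 ≤ L) :
    GP (onCube 0 L) (wgt lam (pot h T))
      ≤ ENNReal.ofReal (Real.exp ((2 * L + 1) ^ 3 * psi g (lam + S / 2))) := by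
  classical
  set y := lam + S / 2 with hy
  set m : ℤ := ⌈2 * L⌉ with hm
  set J := box 0 m with hJ
  have hm0 : 0 ≤ m := Int.ceil_nonneg (by linarith)
  have hS := hT.nonneg_S
  let f : Lbl → Multiset Pt → ℝ≥0∞ := fun _ t => ENNReal.ofReal
    (Real.exp (y * (Multiset.card t : ℝ) - g * ((Multiset.card t : ℝ) ^ 2 - (Multiset.card t : ℝ))))
  have hf : ∀ j ∈ J, ConfMeas (f j) := fun j _ N => by
    simp only [f, card_conf]; exact measurable_const
  have hcov : cubeAt 0 L ⊆ ⋃ j ∈ J, cell 0 (1 / 2) j := by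
    intro x hx
    refine Set.mem_iUnion₂.2 ⟨idx 0 (1 / 2) x, mem_box.2 fun i => ?_,
      (mem_cell_iff_idx (by norm_num)).2 rfl⟩
    have h := hx i
    simp only [PiLp.zero_apply, zero_add] at h
    simp only [idx, sub_zero]
    refine ⟨Int.floor_nonneg.2 (by linarith [h.1]), Int.floor_lt.2 ?_⟩
    have := Int.le_ceil (2 * L)
    linarith [h.2]
  have hdis : ∀ i ∈ J, ∀ j ∈ J, i ≠ j → Disjoint (cell 0 (1 / 2) i) (cell 0 (1 / 2) j) :=
    fun i _ j _ hij => disjoint_cell (by norm_num) hij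
  have hfin : volume (⋃ j ∈ J, cell 0 (1 / 2) j) ≠ ⊤ := by
    rw [measure_biUnion_finset (fun i _ j _ hij => disjoint_cell (by norm_num) hij)
      (fun j _ => measurableSet_cell _ _ _)]
    refine ENNReal.sum_ne_top.2 fun j _ => ?_
    rw [cell, volume_cubeAt _ (by norm_num : (0 : ℝ) ≤ 1 / 2)]
    exact ENNReal.ofReal_ne_top
  have step1 : GP (onCube 0 L) (wgt lam (pot h T))
      ≤ GP (∑ j ∈ J, onCube (corner 0 (1 / 2) j) (1 / 2))
          (cellProd J (cell 0 (1 / 2)) f) := by
    rw [sum_onCube J hdis]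
    have : Fact (volume (⋃ j ∈ J, cell 0 (1 / 2) j) < ⊤) := ⟨hfin.lt_top⟩
    refine (GP_restrict_mono hcov hfin _).trans (GP_mono_ae (A := ⋃ j ∈ J, cell 0 (1 / 2) j)
      (ae_restrict_mem (Finset.measurableSet_biUnion _ fun j _ => measurableSet_cell _ _ _))
      fun s hs => ?_)
    have hsJ : ∀ a ∈ s, ∃ k ∈ J, a ∈ cell 0 (1 / 2) k := fun a ha => by
      simpa using hs a ha
    have hst := hT.stable (le_trans (by linarith) hgh : S ≤ h) J hsJ
    simp only [cellProd, f, wgt]
    rw [← ENNReal.ofReal_prod_of_nonneg fun j _ => Real.exp_nonneg _, ← Real.exp_sum]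
    refine ENNReal.ofReal_le_ofReal (Real.exp_le_exp.2 ?_)
    rw [sum_sub_distrib, ← mul_sum, ← mul_sum, sum_sub_distrib]
    simp only [← count.eq_def]
    rw [sum_count J hdis s hsJ]
    have hsq : (Multiset.card s : ℝ) ≤ ∑ k ∈ J, count (cell 0 (1 / 2) k) s ^ 2 := by
      rw [← sum_count J hdis s hsJ]
      refine sum_le_sum fun k _ => ?_
      unfold count
      exact_mod_cast Nat.le_self_pow two_ne_zero _
    have := mul_le_mul_of_nonneg_right (show g ≤ (h - S) / 2 by linarith) (sub_nonneg.2 hsq)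
    rw [hy]
    linarith
  refine step1.trans ?_
  rw [GP_cellProd J (fun j _ => measurableSet_cell _ _ _) hdis
    (fun j => onCube (corner 0 (1 / 2) j) (1 / 2)) (fun j _ => ae_mem_onCube _ _) hf]
  calc ∏ j ∈ J, GP (onCube (corner 0 (1 / 2) j) (1 / 2)) (f j)
      ≤ ∏ _j ∈ J, ENNReal.ofReal (Real.exp (psi g y)) := by
        refine prod_le_prod' fun j _ => ?_
        rw [show psi g y = 1 + (|y| + y ^ 2 / (4 * g)) by unfold psi; ring, Real.exp_add,
          ENNReal.ofReal_mul (Real.exp_nonneg _), ← tsum_inv_factorial, ← ENNReal.tsum_mul_right]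
        refine ENNReal.tsum_le_tsum fun N => mul_le_mul_right ?_ _
        simp only [f, term, card_conf, Fintype.card_fin, lintegral_const, Measure.pi_univ,
          prod_const, card_univ]
        refine (mul_le_of_le_one_right' ?_).trans
          (ENNReal.ofReal_le_ofReal (Real.exp_le_exp.2 (superstable_exponent hg N)))
        refine pow_le_one' ?_ _
        rw [onCube, Measure.restrict_apply_univ, volume_cubeAt _ (by norm_num)]
        exact ENNReal.ofReal_le_one.2 (by norm_num)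
    _ = ENNReal.ofReal (Real.exp ((J.card : ℝ) * psi g y)) := by
        rw [prod_const, ← ENNReal.ofReal_pow (Real.exp_nonneg _), ← Real.exp_nat_mul]
    _ ≤ _ := by
        refine ENNReal.ofReal_le_ofReal (Real.exp_le_exp.2
          (mul_le_mul_of_nonneg_right ?_ (psi_nonneg hg y)))
        rw [hJ, card_box hm0, sub_zero]
        exact pow_le_pow_left₀ (by exact_mod_cast hm0)
          (Int.ceil_lt_add_one (2 * L)).le 3

end Vale.Agent.P171
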