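import Vale.Agent.P171.Construction
import Mathlib.Analysis.Calculus.Deriv.Basic
import Mathlib.Analysis.SpecificLimits.Basic

/-!
The limiting potential and the kink of its pressure.
-/

open MeasureTheory Finset Filter Topology
open scoped ENNReal

namespace Vale.Agent.P171

/-- The strengths. -/
noncomputable def str (k : ℕ) : ℝ := (stages k).1.nxt

/-- The radii. -/
noncomputable def rds (k : ℕ) : ℝ := (stages (k + 1)).1.rad

/-- The centres. -/
noncomputable def ctr (k : ℕ) : ℝ := (stages k).1.mu

/-- The limiting attraction. -/
noncomputable def attraction : ℝ → ℝ := tails str rds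

theorem str_halving (k i : ℕ) : str (i + k) ≤ str k * (1 / 2) ^ i := by
  induction i with
  | zero => simp
  | succ i ih =>
    rw [pow_succ, show i + 1 + k = (i + k) + 1 by omega]
    have := (next_stages (i + k)).nxt_le
    simp only [str] at ih ⊢
    linarith

theorem str_nonneg (k : ℕ) : 0 ≤ str k := (stages k).2.nxt_pos.le

theorem summable_str_shift (k : ℕ) : Summable fun i => str (i + k) :=
  Summable.of_nonneg_of_le (fun i => str_nonneg _) (str_halving k)
    (summable_geometric_two.mul_left (str k))

theorem sum_str_shift_le (k : ℕ) : ∑' i, str (i + k) ≤ 2 * str k := by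
  refine (Summable.tsum_le_tsum (str_halving k) (summable_str_shift k)
    (summable_geometric_two.mul_left (str k))).trans (le_of_eq ?_)
  rw [tsum_mul_left, tsum_geometric_two]
  ring

theorem sched : Sched str rds :=
  ⟨str_nonneg, by simpa using summable_str_shift 0, fun i => (stages (i + 1)).2.one_le⟩

theorem sched_shift (k : ℕ) : Sched (fun i => str (i + k)) (fun i => rds (i + k)) :=
  ⟨fun i => str_nonneg _, summable_str_shift k, fun i => (stages (i + k + 1)).2.one_le⟩

theorem str_zero : str 0 = amax := by
  show (stages 0).1.nxt = amax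
  rw [stages]

theorem adm_attraction : Adm height gap attr attraction := by
  refine adm_of_profile sched.profile ?_
  have := sum_str_shift_le 0
  simp only [Nat.add_zero, str_zero] at this
  linarith [amax_pos]

theorem stage_T (k : ℕ) (r : ℝ) :
    (stages k).1.T r = ∑ i ∈ range k, tail (str i) (rds i) r := by
  induction k with
  | zero => simp [stages]
  | succ k ih => rw [sum_range_succ, ← ih, (next_stages k).T_eq]; rfl

theorem attraction_eq (k : ℕ) (r : ℝ) :
    attraction r = (stages k).1.T r
      + tails (fun i => str (i + k)) (fun i => rds (i + k)) r := by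
  rw [stage_T]
  exact ((sched.summable_tail r).sum_add_tsum_nat_add k).symm

theorem stage_le_pressure (k : ℕ) (x : ℝ) :
    pressure height (stages k).1.T x ≤ pressure height attraction x :=
  adm_attraction.pressure_mono (fun r => by
    rw [attraction_eq k r]
    linarith [(sched_shift k).tails_nonneg r]) le_rfl

theorem rds_mono : Monotone rds :=
  monotone_nat_of_le_succ fun k => (next_stages (k + 1)).rad_le

/-- The pressure at the centre of stage `k` hardly changes afterwards. -/
theorem pressure_center_le {k : ℕ} (hk : 1 ≤ k) :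
    pressure height attraction (ctr k)
      ≤ pressure height (stages k).1.T (ctr k) + 3 * (1 / 4) ^ k := by
  obtain ⟨ℓ, hℓ0, hℓR, hℓ⟩ := (next_stages k).upper hk
  have heq : attraction = fun r => (stages k).1.T r
      + tails (fun i => str (i + k)) (fun i => rds (i + k)) r := funext (attraction_eq k)
  rw [heq]
  refine hℓ _ (sched_shift k).tails_anti (sched_shift k).tails_nonneg (heq ▸ adm_attraction)
    fun J m => ((sched_shift k).row_le hℓ0 zero_le_one (fun i _ => ?_) J m).trans ?_
  · rw [one_mul]
    exact hℓR.trans (rds_mono (Nat.le_add_left k i))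
  · have := sum_str_shift_le k
    simp only [str] at this ⊢
    linarith

theorem ctr_step {k : ℕ} (hk : 1 ≤ k) : |ctr (k + 1) - ctr k| ≤ 2 * (1 / 2) ^ k :=
  (next_stages k).mu_le hk

theorem exists_limit :
    ∃ mu, ∀ k, 1 ≤ k → |ctr k - mu| ≤ 4 * (1 / 2) ^ k := by
  have hd : ∀ n, dist (ctr (n + 1)) (ctr (n + 1 + 1)) ≤ 2 / 2 / 2 ^ n := fun n => by
    rw [dist_comm, Real.dist_eq]
    refine (ctr_step (Nat.le_add_left 1 n)).trans (le_of_eq ?_)
    rw [div_pow, one_pow, pow_succ]
    field_simp
  obtain ⟨mu, hmu⟩ := cauchySeq_tendsto_of_complete (cauchySeq_of_le_geometric_two hd)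
  refine ⟨mu, fun k hk => ?_⟩
  obtain ⟨n, rfl⟩ : ∃ n, k = n + 1 := ⟨k - 1, by omega⟩
  have := dist_le_of_le_geometric_two_of_tendsto hd hmu n
  rw [Real.dist_eq] at this
  refine this.trans (le_of_eq ?_)
  rw [div_pow, one_pow, pow_succ]
  field_simp
  ring

/-- The pressure of the limiting potential has a kink. -/
theorem exists_kink : ∃ mu, ¬ DifferentiableAt ℝ (pressure height attraction) mu := by
  obtain ⟨mu, hmu⟩ := exists_limit
  refine ⟨mu, fun hdiff => ?_⟩
  set F := pressure height attraction with hF
  set D := deriv F mu with hD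
  have hlo := (hasDerivAt_iff_isLittleO.1 hdiff.hasDerivAt).def
    (show (0 : ℝ) < 1 / 4096 by norm_num)
  obtain ⟨ε, hε, hball⟩ := Metric.eventually_nhds_iff.1 hlo
  have hq : Tendsto (fun k : ℕ => ((1 : ℝ) / 2) ^ k) atTop (𝓝 0) :=
    tendsto_pow_atTop_nhds_zero_of_lt_one (by norm_num) (by norm_num)
  obtain ⟨k, hk1, hk2, hk3⟩ := ((eventually_ge_atTop 1).and
    ((hq.eventually (eventually_lt_nhds (show (0 : ℝ) < ε / 8 by positivity))).and
      (hq.eventually (eventually_lt_nhds (show (0 : ℝ) < 1 / 1024 by norm_num))))).exists
  set w := ((1 : ℝ) / 2) ^ k with hw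
  have hw0 : 0 < w := by positivity
  have happ : ∀ y, |y - mu| ≤ 5 * w → |F y - F mu - (y - mu) * D| ≤ 5 * w / 4096 := by
    intro y hy
    have := hball (show dist y mu < ε by rw [Real.dist_eq]; linarith)
    simp only [smul_eq_mul, Real.norm_eq_abs] at this
    rw [← hD] at this
    linarith
  have hinv := (stages k).2
  have hc := abs_le.1 (hmu k hk1)
  set c := ctr k with hcdef
  have a0 := abs_le.1 (happ c (by rw [abs_le]; constructor <;> linarith))
  have a1 := abs_le.1 (happ (c + w) (by rw [abs_le]; constructor <;> linarith))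
  have a2 := abs_le.1 (happ (c - w) (by rw [abs_le]; constructor <;> linarith))
  have hPk := hinv.base.adm.tame
  have hdl : (stages k).1.dl ≤ w := hinv.dl_small hk1
  have b1 : pressure height (stages k).1.T c + slopeUp k * w
      ≤ pressure height (stages k).1.T (c + w) := by
    rcases eq_or_lt_of_le hdl with h | h
    · rw [← h]; exact hinv.right
    · have := hPk.right_slope (a := c) (b := c + (stages k).1.dl) (ρ := slopeUp k)
        (by linarith [hinv.dl_pos]) (by have := hinv.right; simp only [hcdef, ctr] at *; ring_nf at *; linarith)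
        le_rfl (show c + (stages k).1.dl < c + w by linarith)
      have := hinv.right
      simp only [hcdef, ctr] at *
      linarith
  have b2 : pressure height (stages k).1.T c - slopeDn k * w
      ≤ pressure height (stages k).1.T (c - w) := by
    rcases eq_or_lt_of_le hdl with h | h
    · rw [← h]; exact hinv.left
    · have := hPk.left_slope (a := c - (stages k).1.dl) (b := c) (ρ := slopeDn k)
        (by linarith [hinv.dl_pos]) (by have := hinv.left; simp only [hcdef, ctr] at *; ring_nf at *; linarith)
        (show c - w < c - (stages k).1.dl by linarith) le_rfl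
      have := hinv.left
      simp only [hcdef, ctr] at *
      linarith
  have b3 := pressure_center_le hk1
  have b4 := stage_le_pressure k (c + w)
  have b5 := stage_le_pressure k (c - w)
  have b6 : ((1 : ℝ) / 4) ^ k = w * w := by rw [hw, ← mul_pow]; norm_num
  have b7 : w * w ≤ w / 1024 := by nlinarith
  have e1 : slopeUp k - slopeDn k = 1 / 32 * (1 + w) := by
    simp only [slopeUp, slopeDn, hw]; ring
  have b8 : (slopeUp k - slopeDn k) * w ≥ w / 32 := by rw [e1]; nlinarith
  rw [b6, ← hF, ← hcdef] at b3
  linarith

end Vale.Agent.P171
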