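import Vale.Agent.P171.Kernels
import Mathlib.Analysis.Convex.Function
import Mathlib.Order.Filter.AtTopBot.Field

/-!
The pressure, its basic properties, and the bound from below by tiling.
-/

open MeasureTheory Finset Filter Topology
open scoped ENNReal

namespace Vale.Agent.P171

theorem en_sum {α κ : Type*} (J : Finset κ) (w : κ → α → α → ℝ) (s : Multiset α) :
    en (fun a b => ∑ j ∈ J, w j a b) s = ∑ j ∈ J, en (w j) s := by
  classical
  induction J using Finset.induction with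
  | empty => simp [en, bil]
  | insert i J hi ih =>
    simp only [sum_insert hi]
    have h := en_sub (fun a b => w i a b + ∑ j ∈ J, w j a b) (w i) s
    simp only [add_sub_cancel_left] at h
    rw [ih] at h
    linarith

/-- Energy of a kernel that vanishes between different cells. -/
theorem en_block {α κ : Type*} (J : Finset κ) {Q : κ → Set α}
    (hdis : ∀ i ∈ J, ∀ j ∈ J, i ≠ j → Disjoint (Q i) (Q j)) {s : Multiset α}
    (hs : ∀ a ∈ s, ∃ j ∈ J, a ∈ Q j) {w w' : α → α → ℝ}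
    (hsame : ∀ j ∈ J, ∀ a ∈ Q j, ∀ b ∈ Q j, w' a b = w a b)
    (hdiff : ∀ i ∈ J, ∀ j ∈ J, i ≠ j → ∀ a ∈ Q i, ∀ b ∈ Q j, w' a b = 0) :
    en w' s = ∑ j ∈ J, en w (part (Q j) s) := by
  classical
  have hb : bil w' s s = ∑ j ∈ J, bil w (part (Q j) s) (part (Q j) s) := by
    rw [bil_parts J hdis hs]
    refine sum_congr rfl fun i hi => ?_
    rw [sum_eq_single i]
    · exact bil_congr fun a ha b hb => hsame i hi a (mem_part.1 ha).2 b (mem_part.1 hb).2
    · intro j hj hji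
      rw [bil_congr (w' := fun _ _ => 0) fun a ha b hb =>
        hdiff i hi j hj hji.symm a (mem_part.1 ha).2 b (mem_part.1 hb).2]
      simp [bil]
    · exact fun h => absurd hi h
  have hd : (s.map fun a => w' a a).sum
      = ∑ j ∈ J, ((part (Q j) s).map fun a => w a a).sum := by
    have key : ∀ (K : Finset κ), K ⊆ J →
        ((∑ j ∈ K, part (Q j) s).map fun a => w' a a).sum
          = ∑ j ∈ K, ((part (Q j) s).map fun a => w a a).sum := by
      intro K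
      induction K using Finset.induction with
      | empty => simp
      | insert i K hi ih =>
        intro hK
        rw [sum_insert hi, sum_insert hi, Multiset.map_add, Multiset.sum_add,
          ih ((subset_insert i K).trans hK)]
        congr 1
        refine congrArg Multiset.sum (Multiset.map_congr rfl fun a ha => ?_)
        exact hsame i (hK (mem_insert_self _ _)) a (mem_part.1 ha).2 a (mem_part.1 ha).2
    rw [← key J subset_rfl, sum_part J hdis s hs]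
  unfold en
  rw [hb, hd, ← sum_sub_distrib, sum_div]

theorem wgt_eq_prod {α κ : Type*} (J : Finset κ) {Q : κ → Set α}
    (hdis : ∀ i ∈ J, ∀ j ∈ J, i ≠ j → Disjoint (Q i) (Q j)) {s : Multiset α}
    (hs : ∀ a ∈ s, ∃ j ∈ J, a ∈ Q j) {w w' : α → α → ℝ} (lam : ℝ)
    (hsame : ∀ j ∈ J, ∀ a ∈ Q j, ∀ b ∈ Q j, w' a b = w a b)
    (hdiff : ∀ i ∈ J, ∀ j ∈ J, i ≠ j → ∀ a ∈ Q i, ∀ b ∈ Q j, w' a b = 0) :
    wgt lam w' s = cellProd J Q (fun _ => wgt lam w) s := by
  simp only [wgt, cellProd]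
  rw [← ENNReal.ofReal_prod_of_nonneg fun j _ => Real.exp_nonneg _, ← Real.exp_sum,
    sum_sub_distrib, ← mul_sum, ← en_block J hdis hs hsame hdiff]
  simp only [← count.eq_def]
  rw [sum_count J hdis s hs]

/-- An admissible attraction for the core height `h`. -/
structure Adm (h g S : ℝ) (T : ℝ → ℝ) : Prop where
  prof : Profile T S
  one_le_g : 1 ≤ g
  core_ge : 2 * g + S ≤ h

theorem Adm.g_pos {h g S : ℝ} {T : ℝ → ℝ} (hA : Adm h g S T) : 0 < g :=
  lt_of_lt_of_le one_pos hA.one_le_g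

theorem Adm.measurable {h g S : ℝ} {T : ℝ → ℝ} (hA : Adm h g S T) :
    Measurable (Function.uncurry (pot h T)) :=
  measurable_pot hA.prof.anti.measurable

/-- Free energy of the cube `[0, ℓ)³`. -/
noncomputable def logZc (h : ℝ) (T : ℝ → ℝ) (ℓ lam : ℝ) : ℝ :=
  logZ (onCube 0 ℓ) lam (pot h T)

/-- The pressure. -/
noncomputable def pressure (h : ℝ) (T : ℝ → ℝ) (lam : ℝ) : ℝ :=
  sSup ((fun ℓ => logZc h T ℓ lam / (ℓ + 1) ^ 3) '' Set.Ioi 0)

variable {h g S : ℝ} {T T' : ℝ → ℝ}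

theorem GP_wgt_cubeAt (o : Pt) (ℓ lam : ℝ) (h : ℝ) (T : ℝ → ℝ) :
    GP (onCube o ℓ) (wgt lam (pot h T)) = GP (onCube 0 ℓ) (wgt lam (pot h T)) := by
  rw [GP_translate]
  congr 1
  funext s
  exact wgt_map lam _ _ s fun a b => pot_translate h T o a b

theorem Adm.GP_ne_top (hA : Adm h g S T) (lam : ℝ) {ℓ : ℝ} (hℓ : 0 ≤ ℓ) :
    GP (onCube 0 ℓ) (wgt lam (pot h T)) ≠ ⊤ :=
  ne_top_of_le_ne_top ENNReal.ofReal_ne_top (hA.prof.GP_cube_le hA.g_pos hA.core_ge lam hℓ)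

theorem Adm.logZc_le (hA : Adm h g S T) (lam : ℝ) {ℓ : ℝ} (hℓ : 0 ≤ ℓ) :
    logZc h T ℓ lam ≤ (2 * ℓ + 1) ^ 3 * psi g (lam + S / 2) :=
  logZ_le_of_GP_le (hA.prof.GP_cube_le hA.g_pos hA.core_ge lam hℓ)

theorem Adm.ratio_le (hA : Adm h g S T) (lam : ℝ) {ℓ : ℝ} (hℓ : 0 < ℓ) :
    logZc h T ℓ lam / (ℓ + 1) ^ 3 ≤ 8 * psi g (lam + S / 2) := by
  rw [div_le_iff₀ (by positivity)]
  refine (hA.logZc_le lam hℓ.le).trans ?_
  have : (2 * ℓ + 1) ^ 3 ≤ (2 * (ℓ + 1)) ^ 3 := pow_le_pow_left₀ (by positivity) (by linarith) 3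
  nlinarith [mul_le_mul_of_nonneg_right this (psi_nonneg hA.g_pos (lam + S / 2))]

theorem Adm.pressure_bdd (hA : Adm h g S T) (lam : ℝ) :
    BddAbove ((fun ℓ => logZc h T ℓ lam / (ℓ + 1) ^ 3) '' Set.Ioi 0) :=
  ⟨8 * psi g (lam + S / 2), by rintro _ ⟨ℓ, hℓ, rfl⟩; exact hA.ratio_le lam hℓ⟩

theorem Adm.le_pressure (hA : Adm h g S T) (lam : ℝ) {ℓ : ℝ} (hℓ : 0 < ℓ) :
    logZc h T ℓ lam ≤ (ℓ + 1) ^ 3 * pressure h T lam := by
  have := le_csSup (hA.pressure_bdd lam) (Set.mem_image_of_mem _ (show ℓ ∈ Set.Ioi 0 from hℓ))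
  rw [div_le_iff₀ (by positivity)] at this
  rw [mul_comm]
  exact this

theorem image_nonempty (h : ℝ) (T : ℝ → ℝ) (lam : ℝ) :
    ((fun ℓ => logZc h T ℓ lam / (ℓ + 1) ^ 3) '' Set.Ioi 0).Nonempty :=
  ⟨_, Set.mem_image_of_mem _ (Set.mem_Ioi.2 one_pos)⟩

theorem Adm.pressure_le_quad (hA : Adm h g S T) (lam : ℝ) :
    pressure h T lam ≤ 8 * psi g (lam + S / 2) :=
  csSup_le (image_nonempty h T lam) (by rintro _ ⟨ℓ, hℓ, rfl⟩; exact hA.ratio_le lam hℓ)

theorem Adm.pressure_nonneg (hA : Adm h g S T) (lam : ℝ) : 0 ≤ pressure h T lam := by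
  refine le_trans ?_ (le_csSup (hA.pressure_bdd lam)
    (Set.mem_image_of_mem _ (Set.mem_Ioi.2 one_pos)))
  exact div_nonneg (logZ_nonneg _ _ _) (by positivity)

theorem Adm.logZc_mono (hA' : Adm h g S T') (hle : ∀ r, T r ≤ T' r) {lam lam' : ℝ}
    (hl : lam ≤ lam') {ℓ : ℝ} (hℓ : 0 ≤ ℓ) :
    logZc h T ℓ lam ≤ logZc h T' ℓ lam' := by
  refine logZ_le_of_GP_le ((GP_mono fun s => wgt_mono hl fun a _ b _ => ?_).trans
    (le_of_eq (GP_wgt_eq_exp (hA'.GP_ne_top lam' hℓ))))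
  simp only [pot]
  linarith [hle (dist a b)]

theorem Adm.pressure_mono (hA' : Adm h g S T') (hle : ∀ r, T r ≤ T' r)
    {lam lam' : ℝ} (hl : lam ≤ lam') : pressure h T lam ≤ pressure h T' lam' := by
  refine csSup_le (image_nonempty h T lam) ?_
  rintro _ ⟨ℓ, hℓ, rfl⟩
  refine le_trans ?_ (le_csSup (hA'.pressure_bdd lam') (Set.mem_image_of_mem _ hℓ))
  have hℓ0 : 0 < ℓ := hℓ
  have := hA'.logZc_mono hle hl hℓ0.le
  exact div_le_div_of_nonneg_right this (by positivity)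

theorem Adm.pressure_convex (hA : Adm h g S T) : ConvexOn ℝ Set.univ (pressure h T) := by
  refine ⟨convex_univ, fun x _ y _ a b ha hb hab => ?_⟩
  simp only [smul_eq_mul]
  refine csSup_le (image_nonempty h T _) ?_
  rintro _ ⟨ℓ, hℓ, rfl⟩
  have hℓ0 : 0 < ℓ := hℓ
  have hb' : b = 1 - a := by linarith
  subst hb'
  have hc := logZ_convex (ν := onCube 0 ℓ) hA.measurable hA.measurable (hA.GP_ne_top x hℓ0.le)
    (hA.GP_ne_top y hℓ0.le) ha (by linarith : a ≤ 1)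
  have hw : (fun p q => a * pot h T p q + (1 - a) * pot h T p q) = pot h T := by
    funext p q; ring
  rw [hw] at hc
  have h1 := hA.le_pressure x hℓ0
  have h2 := hA.le_pressure y hℓ0
  simp only
  rw [div_le_iff₀ (by positivity)]
  unfold logZc at h1 h2 ⊢
  nlinarith [mul_le_mul_of_nonneg_left h1 ha, mul_le_mul_of_nonneg_left h2 hb]

/-- Tiles separated by corridors of width one do not repel each other. -/
theorem one_le_dist_of_ne {ℓ : ℝ} (hℓ : 0 ≤ ℓ) {i j : Lbl} (hij : i ≠ j) {a b : Pt}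
    (ha : a ∈ cubeAt (corner 0 (ℓ + 1) i) ℓ) (hb : b ∈ cubeAt (corner 0 (ℓ + 1) j) ℓ) :
    1 ≤ dist a b := by
  obtain ⟨m, hm⟩ := Function.ne_iff.1 hij
  refine le_trans ?_ (abs_coord_le_dist a b m)
  have ha' := ha m
  have hb' := hb m
  simp only [corner_apply, zero_add] at ha' hb'
  rcases lt_or_gt_of_ne hm with h | h
  · have : (i m : ℝ) + 1 ≤ j m := by exact_mod_cast h
    rw [abs_sub_comm]
    refine le_trans ?_ (le_abs_self _)
    nlinarith [ha'.2, hb'.1]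
  · have : (j m : ℝ) + 1 ≤ i m := by exact_mod_cast h
    refine le_trans ?_ (le_abs_self _)
    nlinarith [ha'.1, hb'.2]

theorem subcube_subset_cell {ℓ : ℝ} (i : Lbl) :
    cubeAt (corner 0 (ℓ + 1) i) ℓ ⊆ cell 0 (ℓ + 1) i := fun x hx m => by
  have := hx m
  constructor <;> linarith [this.1, this.2]

theorem disjoint_subcube {ℓ : ℝ} (hℓ : 0 ≤ ℓ) {i j : Lbl} (hij : i ≠ j) :
    Disjoint (cubeAt (corner 0 (ℓ + 1) i) ℓ) (cubeAt (corner 0 (ℓ + 1) j) ℓ) :=
  (disjoint_cell (by linarith) hij).mono (subcube_subset_cell i) (subcube_subset_cell j)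

theorem tiles_subset {ℓ L : ℝ} (hℓ : 0 ≤ ℓ) {n : ℤ} (hn : (n : ℝ) * (ℓ + 1) ≤ L) :
    (⋃ j ∈ box 0 n, cubeAt (corner 0 (ℓ + 1) j) ℓ) ⊆ cubeAt 0 L := by
  intro x hx
  obtain ⟨j, hj, hxj⟩ := Set.mem_iUnion₂.1 hx
  intro i
  have h := hxj i
  simp only [corner_apply, zero_add] at h
  simp only [PiLp.zero_apply, zero_add]
  obtain ⟨h0, h1⟩ := mem_box.1 hj i
  have h0' : (0 : ℝ) ≤ j i := by exact_mod_cast h0
  have h1' : (j i : ℝ) + 1 ≤ n := by exact_mod_cast h1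
  constructor <;> nlinarith [h.1, h.2]

/-- Superadditivity by tiling. -/
theorem Adm.tile_le (hA : Adm h g S T) (lam : ℝ) {ℓ L : ℝ} (hℓ : 0 < ℓ) (hL : 0 ≤ L) {n : ℤ}
    (hn0 : 0 ≤ n) (hn : (n : ℝ) * (ℓ + 1) ≤ L) :
    (n : ℝ) ^ 3 * logZc h T ℓ lam ≤ logZc h T L lam := by
  classical
  set J := box 0 n with hJ
  set Q : Lbl → Set Pt := fun j => cubeAt (corner 0 (ℓ + 1) j) ℓ with hQ
  have hdis : ∀ i ∈ J, ∀ j ∈ J, i ≠ j → Disjoint (Q i) (Q j) :=
    fun i _ j _ hij => disjoint_subcube hℓ.le hij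
  let w' : Pt → Pt → ℝ := fun a b =>
    if idx 0 (ℓ + 1) a = idx 0 (ℓ + 1) b then pot h T a b else 0
  have hidx : ∀ j, ∀ a ∈ Q j, idx 0 (ℓ + 1) a = j := fun j a ha =>
    (mem_cell_iff_idx (by linarith)).1 (subcube_subset_cell j ha)
  have hm : ∀ j ∈ J, MeasurableSet (Q j) := fun j _ => measurableSet_cubeAt _ _
  refine le_logZ_of_le_GP (hA.GP_ne_top lam hL) ?_
  calc ENNReal.ofReal (Real.exp ((n : ℝ) ^ 3 * logZc h T ℓ lam))
      = ∏ j ∈ J, GP (onCube (corner 0 (ℓ + 1) j) ℓ) (wgt lam (pot h T)) := by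
        simp only [GP_wgt_cubeAt]
        rw [prod_const, GP_wgt_eq_exp (hA.GP_ne_top lam hℓ.le),
          ← ENNReal.ofReal_pow (Real.exp_nonneg _), ← Real.exp_nat_mul, hJ, card_box hn0]
        simp [logZc]
    _ = GP (∑ j ∈ J, onCube (corner 0 (ℓ + 1) j) ℓ)
          (cellProd J Q fun _ => wgt lam (pot h T)) :=
        (GP_cellProd J hm hdis (fun j => onCube (corner 0 (ℓ + 1) j) ℓ)
          (fun j _ => ae_mem_onCube _ _) fun j _ => confMeas_wgt hA.measurable).symm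
    _ ≤ GP (onCube 0 L) (wgt lam (pot h T)) := by
        rw [sum_onCube J hdis]
        have hfin : volume (⋃ j ∈ J, cubeAt (corner 0 (ℓ + 1) j) ℓ) ≠ ⊤ :=
          ne_top_of_le_ne_top (by rw [volume_cubeAt 0 hL]; exact ENNReal.ofReal_ne_top)
            (measure_mono (tiles_subset hℓ.le hn))
        have : Fact (volume (⋃ j ∈ J, cubeAt (corner 0 (ℓ + 1) j) ℓ) < ⊤) := ⟨hfin.lt_top⟩
        refine (GP_mono_ae (A := ⋃ j ∈ J, Q j)
          (ae_restrict_mem (Finset.measurableSet_biUnion _ hm)) fun s hs => ?_).trans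
          (GP_restrict_mono (tiles_subset hℓ.le hn)
            (by rw [volume_cubeAt 0 hL]; exact ENNReal.ofReal_ne_top) _)
        have hsJ : ∀ a ∈ s, ∃ k ∈ J, a ∈ Q k := fun a ha => by simpa using hs a ha
        rw [← wgt_eq_prod J hdis hsJ (w' := w') lam
          (fun j _ a ha b hb => if_pos (by rw [hidx j a ha, hidx j b hb]))
          (fun i _ j _ hij a ha b hb => if_neg (by rw [hidx i a ha, hidx j b hb]; exact hij))]
        refine wgt_mono le_rfl fun a ha b hb => ?_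
        obtain ⟨i, -, hai⟩ := hsJ a ha
        obtain ⟨j, -, hbj⟩ := hsJ b hb
        simp only [w', hidx i a hai, hidx j b hbj]
        by_cases hij : i = j
        · rw [if_pos hij]
        · rw [if_neg hij]
          have h1 := one_le_dist_of_ne hℓ.le hij hai hbj
          simp only [pot, core, if_neg (not_lt.2 h1)]
          linarith [hA.prof.nonneg (dist a b)]

/-- Eventually the free energy per volume exceeds the pressure minus `δ`. -/
theorem Adm.eventually_ge (hA : Adm h g S T) (lam : ℝ) {δ : ℝ} (hδ : 0 < δ) :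
    ∀ᶠ L in atTop, pressure h T lam - δ ≤ logZc h T L lam / L ^ 3 := by
  obtain ⟨_, ⟨ℓ, hℓ, rfl⟩, hlt⟩ := exists_lt_of_lt_csSup (image_nonempty h T lam)
    (show pressure h T lam - δ / 2 < pressure h T lam by linarith)
  have hℓ0 : 0 < ℓ := hℓ
  set c := logZc h T ℓ lam / (ℓ + 1) ^ 3 with hc
  have hc0 : 0 ≤ c := div_nonneg (logZ_nonneg _ _ _) (by positivity)
  have ht : Tendsto (fun L : ℝ => c * (1 - (ℓ + 1) / L) ^ 3) atTop (𝓝 (c * (1 - 0) ^ 3)) :=
    ((tendsto_const_nhds.sub (tendsto_id.const_div_atTop (ℓ + 1))).pow 3).const_mul c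
  have hlim : pressure h T lam - δ < c * (1 - 0) ^ 3 := by
    simp only [sub_zero, one_pow, mul_one]; linarith
  filter_upwards [ht.eventually (eventually_gt_nhds hlim), eventually_gt_atTop 0,
    eventually_ge_atTop (ℓ + 1)] with L h1 hL hL'
  set n : ℤ := ⌊L / (ℓ + 1)⌋ with hn
  have hn1 : (n : ℝ) * (ℓ + 1) ≤ L := (le_div_iff₀ (by positivity)).1 (Int.floor_le _)
  have hn0 : 0 ≤ n := Int.floor_nonneg.2 (by positivity)
  have hn2 : L / (ℓ + 1) - 1 ≤ n := (Int.sub_one_lt_floor _).le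
  have htile := hA.tile_le lam hℓ0 hL.le hn0 hn1
  rw [le_div_iff₀ (by positivity)]
  refine le_trans ?_ htile
  have hnL : (1 - (ℓ + 1) / L) * L ≤ n * (ℓ + 1) := by
    rw [sub_mul, one_mul, div_mul_cancel₀ _ hL.ne']
    rw [sub_le_iff_le_add, div_le_iff₀ (by positivity)] at hn2
    linarith
  have h0 : 0 ≤ 1 - (ℓ + 1) / L := sub_nonneg.2 ((div_le_one hL).2 hL')
  calc (pressure h T lam - δ) * L ^ 3 ≤ c * (1 - (ℓ + 1) / L) ^ 3 * L ^ 3 :=
        mul_le_mul_of_nonneg_right h1.le (by positivity)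
    _ = c * ((1 - (ℓ + 1) / L) * L) ^ 3 := by ring
    _ ≤ c * ((n : ℝ) * (ℓ + 1)) ^ 3 := by
        have := pow_le_pow_left₀ (mul_nonneg h0 hL.le) hnL 3
        exact mul_le_mul_of_nonneg_left this hc0
    _ = (n : ℝ) ^ 3 * logZc h T ℓ lam := by rw [hc]; field_simp

/-- An eventual bound on the free energy per volume bounds the pressure. -/
theorem Adm.pressure_le_of_eventually (hA : Adm h g S T) (lam : ℝ) {c : ℝ}
    (hc : ∀ δ > 0, ∀ᶠ L in atTop, logZc h T L lam / L ^ 3 ≤ c + δ) :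
    pressure h T lam ≤ c := by
  refine le_of_forall_pos_le_add fun δ hδ => ?_
  obtain ⟨L, h1, h2⟩ := ((hA.eventually_ge lam (half_pos hδ)).and (hc _ (half_pos hδ))).exists
  linarith

end Vale.Agent.P171
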