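import Vale.Agent.P171.Pressure
import Mathlib.Analysis.SpecificLimits.Normed
import Mathlib.Analysis.Convex.Jensen

/-!
The upper bound: shifted cubic partitions and linearisation of the long-range attraction.
-/

open MeasureTheory Finset Filter Topology
open scoped ENNReal

namespace Vale.Agent.P171

/-- At most one of the shifts `j * s`, `j < M`, separates two nearby numbers. -/
theorem card_separating_le_one {s : ℝ} (hs : 0 < s) {M : ℕ} (hM : 0 < M) {u v : ℝ}
    (huv : |u - v| < s) :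
    ((range M).filter fun j : ℕ =>
      ⌊(u - (j : ℝ) * s) / (M * s)⌋ ≠ ⌊(v - (j : ℝ) * s) / (M * s)⌋).card ≤ 1 := by
  wlog h : u ≤ v generalizing u v
  · refine le_trans (le_of_eq ?_) (this (u := v) (v := u) (by rwa [abs_sub_comm]) (le_of_not_ge h))
    congr 1
    exact filter_congr fun j _ => ne_comm
  have hMs : 0 < (M : ℝ) * s := by positivity
  have key : ∀ j : ℕ,
      ⌊(u - (j : ℝ) * s) / (M * s)⌋ ≠ ⌊(v - (j : ℝ) * s) / (M * s)⌋ →
      ∃ n : ℤ, u < ((n * M + j : ℤ) : ℝ) * s ∧ ((n * M + j : ℤ) : ℝ) * s ≤ v := by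
    intro j hne
    refine ⟨⌊(v - (j : ℝ) * s) / (M * s)⌋, ?_, ?_⟩
    · have hlt : ⌊(u - (j : ℝ) * s) / (M * s)⌋ < ⌊(v - (j : ℝ) * s) / (M * s)⌋ :=
        lt_of_le_of_ne (Int.floor_le_floor (by gcongr)) hne
      have := Int.floor_lt.1 hlt
      rw [div_lt_iff₀ hMs] at this
      push_cast
      linarith
    · have := Int.floor_le ((v - (j : ℝ) * s) / (M * s))
      rw [le_div_iff₀ hMs] at this
      push_cast
      linarith
  refine card_le_one.2 fun i hi j hj => ?_
  obtain ⟨n, hn1, hn2⟩ := key i (mem_filter.1 hi).2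
  obtain ⟨m, hm1, hm2⟩ := key j (mem_filter.1 hj).2
  have hd := abs_lt.1 huv
  set p : ℤ := n * M + i
  set q : ℤ := m * M + j
  have hpq : p = q := by
    have h1 : (p : ℝ) < q + 1 := by
      by_contra hc
      nlinarith [mul_le_mul_of_nonneg_right (not_lt.1 hc) hs.le]
    have h2 : (q : ℝ) < p + 1 := by
      by_contra hc
      nlinarith [mul_le_mul_of_nonneg_right (not_lt.1 hc) hs.le]
    have h1' : p < q + 1 := by exact_mod_cast h1
    have h2' : q < p + 1 := by exact_mod_cast h2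
    omega
  have hi' : i < M := mem_range.1 (mem_filter.1 hi).1
  have hj' : j < M := mem_range.1 (mem_filter.1 hj).1
  have : ((i : ℤ)) = j := by
    have e := congrArg (fun z : ℤ => z % (M : ℤ)) hpq
    simp only [p, q, Int.add_emod, Int.mul_emod_left, zero_add, Int.emod_emod_of_dvd, dvd_refl]
      at e
    rwa [Int.emod_eq_of_lt (by positivity) (by exact_mod_cast hi'),
      Int.emod_eq_of_lt (by positivity) (by exact_mod_cast hj')] at e
  exact_mod_cast this

/-- Nearby points share a cell in all but three of the shifted partitions. -/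
theorem card_same_ge {s : ℝ} (hs : 0 < s) {M : ℕ} (hM : 0 < M) {a b : Pt} (hab : dist a b < s) :
    (M : ℝ) - 3 ≤ (((range M).filter fun j : ℕ =>
      idx ((j : ℝ) * s) (M * s) a = idx ((j : ℝ) * s) (M * s) b).card : ℝ) := by
  classical
  have hsub : (range M).filter (fun j : ℕ =>
      ¬ idx ((j : ℝ) * s) (M * s) a = idx ((j : ℝ) * s) (M * s) b)
      ⊆ (univ : Finset (Fin 3)).biUnion fun i => (range M).filter fun j : ℕ =>
        ⌊(a i - (j : ℝ) * s) / (M * s)⌋ ≠ ⌊(b i - (j : ℝ) * s) / (M * s)⌋ := by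
    intro j hj
    obtain ⟨hjM, hne⟩ := mem_filter.1 hj
    obtain ⟨i, hi⟩ := Function.ne_iff.1 hne
    exact mem_biUnion.2 ⟨i, mem_univ _, mem_filter.2 ⟨hjM, hi⟩⟩
  have h3 : ((range M).filter fun j : ℕ =>
      ¬ idx ((j : ℝ) * s) (M * s) a = idx ((j : ℝ) * s) (M * s) b).card ≤ 3 := by
    refine (card_le_card hsub).trans (card_biUnion_le.trans ?_)
    refine (sum_le_sum fun i _ => card_separating_le_one hs hM
      (lt_of_le_of_lt (abs_coord_le_dist a b i) hab)).trans ?_
    simp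
  have hsum := card_filter_add_card_filter_not (s := range M)
    (fun j : ℕ => idx ((j : ℝ) * s) (M * s) a = idx ((j : ℝ) * s) (M * s) b)
  rw [card_range] at hsum
  have : (M : ℝ) ≤ (((range M).filter fun j : ℕ =>
      idx ((j : ℝ) * s) (M * s) a = idx ((j : ℝ) * s) (M * s) b).card : ℝ) + 3 := by
    exact_mod_cast le_trans hsum.ge (Nat.add_le_add_left h3 _)
  linarith

/-- A pair kernel is bounded below by the average of its restrictions to shifted cells. -/
theorem avg_cells_le_pot {h : ℝ} {T : ℝ → ℝ} (hh : 0 ≤ h) (hT : ∀ r, 0 ≤ T r) {s : ℝ}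
    (hs : 1 ≤ s) (hT0 : ∀ r, s ≤ r → T r = 0) {M : ℕ} (hM : 6 ≤ M) (a b : Pt) :
    (∑ j ∈ range M, if idx ((j : ℝ) * s) (M * s) a = idx ((j : ℝ) * s) (M * s) b
      then pot h (fun r => (M : ℝ) / (M - 3) * T r) a b else 0) / M ≤ pot h T a b := by
  have hM0 : (0 : ℝ) < M := by exact_mod_cast (show 0 < M by omega)
  have hM3 : (0 : ℝ) < (M : ℝ) - 3 := by
    have : (6 : ℝ) ≤ M := by exact_mod_cast hM
    linarith
  by_cases hd : dist a b < s
  · rw [← sum_filter, sum_const, nsmul_eq_mul, div_le_iff₀ hM0]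
    set n := ((range M).filter fun j : ℕ =>
      idx ((j : ℝ) * s) (M * s) a = idx ((j : ℝ) * s) (M * s) b).card with hn
    have hn3 : (M : ℝ) - 3 ≤ n := card_same_ge (by linarith) (by omega) hd
    have hnM : (n : ℝ) ≤ M := by
      exact_mod_cast (card_filter_le _ _).trans (card_range M).le
    have hc : 0 ≤ core h (dist a b) := by unfold core; split_ifs <;> linarith
    have ht := hT (dist a b)
    simp only [pot]
    by_cases hv : 0 ≤ core h (dist a b) - (M : ℝ) / (M - 3) * T (dist a b)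
    · refine (mul_le_mul_of_nonneg_right hnM hv).trans ?_
      have : T (dist a b) ≤ (M : ℝ) / (M - 3) * T (dist a b) :=
        le_mul_of_one_le_left ht ((one_le_div hM3).2 (by linarith))
      nlinarith
    · refine (mul_le_mul_of_nonpos_right hn3 (le_of_not_ge hv)).trans ?_
      have e : ((M : ℝ) - 3) * (core h (dist a b) - (M : ℝ) / (M - 3) * T (dist a b))
          = ((M : ℝ) - 3) * core h (dist a b) - M * T (dist a b) := by field_simp
      rw [e]
      nlinarith
  · have h1 : ¬ dist a b < 1 := fun hc => hd (lt_of_lt_of_le hc hs)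
    simp [pot, core, h1, hT0 _ (not_lt.1 hd)]

/-- The Hubbard-Stratonovich inequality on a grid. -/
theorem exp_sq_le_tsum {V a η : ℝ} (hV : 0 < V) (ha : 0 < a) (hη : 0 < η) (n : ℕ) :
    ENNReal.ofReal (Real.exp (a * (n : ℝ) ^ 2 / (2 * V))) ≤
      ENNReal.ofReal (Real.exp (η * V / 2)) * ∑' m : ℕ, ENNReal.ofReal
        (Real.exp ((n : ℝ) * (m * √(η * a)) - V * (m * √(η * a)) ^ 2 / (2 * a))) := by
  set δ := √(η * a) with hδ
  have hδ0 : 0 < δ := Real.sqrt_pos.2 (by positivity)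
  have hδ2 : δ ^ 2 = η * a := Real.sq_sqrt (by positivity)
  set t := a * n / V with htdef
  have ht : 0 ≤ t := by positivity
  set m := ⌊t / δ⌋₊ with hm
  refine le_trans ?_ (mul_le_mul_right (ENNReal.le_tsum m) _)
  rw [← ENNReal.ofReal_mul (Real.exp_nonneg _), ← Real.exp_add]
  refine ENNReal.ofReal_le_ofReal (Real.exp_le_exp.2 ?_)
  have h1 : (m : ℝ) * δ ≤ t := by
    have := Nat.floor_le (show 0 ≤ t / δ by positivity)
    rwa [le_div_iff₀ hδ0] at this
  have h2 : t < ((m : ℝ) + 1) * δ := by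
    have := Nat.lt_floor_add_one (t / δ)
    rwa [div_lt_iff₀ hδ0] at this
  have h3 : (t - m * δ) ^ 2 ≤ η * a := by
    rw [← hδ2]; exact pow_le_pow_left₀ (by linarith) (by linarith) 2
  have e : (n : ℝ) * (m * δ) - V * (m * δ) ^ 2 / (2 * a)
      = a * (n : ℝ) ^ 2 / (2 * V) - V * (t - m * δ) ^ 2 / (2 * a) := by
    rw [htdef]; field_simp; ring
  rw [e]
  have h4 : V * (t - m * δ) ^ 2 / (2 * a) ≤ η * V / 2 := by
    rw [div_le_div_iff₀ (by positivity) two_pos]
    nlinarith [mul_le_mul_of_nonneg_left h3 hV.le]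
  linarith

theorem tsum_exp_neg_nat :
    ∑' m : ℕ, ENNReal.ofReal (Real.exp (-(m : ℝ))) ≤ ENNReal.ofReal (Real.exp 1) := by
  set r := Real.exp (-1) with hr
  have hr0 : 0 ≤ r := (Real.exp_pos _).le
  have he : r * Real.exp 1 = 1 := by rw [hr, ← Real.exp_add]; norm_num
  have he2 : 2 ≤ Real.exp 1 := by linarith [Real.add_one_le_exp (1 : ℝ)]
  have hr1 : r < 1 := Real.exp_lt_one_iff.2 (by norm_num)
  have hterm : ∀ m : ℕ, Real.exp (-(m : ℝ)) = r ^ m := fun m => by
    rw [hr, ← Real.exp_nat_mul]; simp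
  simp only [hterm]
  rw [← ENNReal.ofReal_tsum_of_nonneg (fun m => by positivity)
    (summable_geometric_of_lt_one hr0 hr1), tsum_geometric_of_lt_one hr0 hr1]
  refine ENNReal.ofReal_le_ofReal ((inv_le_iff_one_le_mul₀ (by linarith)).2 ?_)
  nlinarith

theorem exp_avg_le {M : ℕ} (hM : 0 < M) (u : ℕ → ℝ) :
    Real.exp ((∑ j ∈ range M, u j) / M) ≤ ∑ j ∈ range M, 1 / (M : ℝ) * Real.exp (u j) := by
  have hM0 : (0 : ℝ) < M := by exact_mod_cast hM
  have h := convexOn_exp.map_sum_le (t := range M) (w := fun _ => 1 / (M : ℝ)) (p := u)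
    (fun _ _ => by positivity) (by simp [hM0.ne']) fun _ _ => Set.mem_univ _
  simp only [smul_eq_mul, ← mul_sum] at h ⊢
  rwa [div_eq_inv_mul, ← one_div]

/-- Everything the upper bound needs about an attraction split into a short and a long part. -/
structure Split (h g S : ℝ) (Tf Tr : ℝ → ℝ) (s : ℝ) : Prop where
  adm : Adm h g S Tf
  adm_two : Adm h g S fun r => 2 * Tf r
  anti : Antitone Tr
  nonneg : ∀ r, 0 ≤ Tr r
  vanish : ∀ r, s ≤ r → Tf r = 0
  one_le : 1 ≤ s

variable {h g S s : ℝ} {Tf Tr : ℝ → ℝ}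

/-- The single-cell bound. -/
theorem Split.cell_bound (hS : Split h g S Tf Tr s) (lam : ℝ) {M : ℕ} (hM : 6 ≤ M) {a η G : ℝ}
    (ha : 0 < a) (hη : 0 < η) (hV : 2 ≤ (M * s) ^ 3 * η ^ 2)
    (hG : ∀ x, ((M * s + 1) / (M * s)) ^ 3 *
      (pressure h Tf x + 3 / ((M : ℝ) - 3) * (8 * psi g (x + S / 2)))
        - (1 - η) * (x - lam) ^ 2 / (2 * a) ≤ G) :
    GP (onCube 0 (M * s)) (fun t => ENNReal.ofReal (Real.exp (lam * (Multiset.card t : ℝ)
        - en (pot h fun r => (M : ℝ) / (M - 3) * Tf r) t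
        + a * (Multiset.card t : ℝ) ^ 2 / (2 * (M * s) ^ 3))))
      ≤ ENNReal.ofReal (Real.exp ((M * s) ^ 3 * (η / 2 + G) + 1)) := by
  have hs0 : 0 < s := lt_of_lt_of_le one_pos hS.one_le
  have hM0 : (0 : ℝ) < M := by exact_mod_cast (show 0 < M by omega)
  have hM6 : (6 : ℝ) ≤ M := by exact_mod_cast hM
  have hM3 : (0 : ℝ) < (M : ℝ) - 3 := by linarith
  set ℓ := (M : ℝ) * s with hℓ
  have hℓ0 : 0 < ℓ := by positivity
  set V := ℓ ^ 3 with hVdef
  have hV0 : 0 < V := by positivity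
  set θ := 3 / ((M : ℝ) - 3) with hθ
  have hθ0 : 0 ≤ θ := by positivity
  have hθ1 : θ ≤ 1 := by rw [hθ, div_le_one hM3]; linarith
  set c := (M : ℝ) / (M - 3) with hc
  set δ := √(η * a) with hδ
  have hδ2 : δ ^ 2 = η * a := Real.sq_sqrt (by positivity)
  have hcT : Measurable (Function.uncurry (pot h fun r => c * Tf r)) :=
    measurable_pot (hS.adm.prof.anti.measurable.const_mul c)
  let e : ℕ → Multiset Pt → ℝ≥0∞ := fun m t =>
    ENNReal.ofReal (Real.exp (-(V * (m * δ) ^ 2 / (2 * a)))) *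
      wgt (lam + m * δ) (pot h fun r => c * Tf r) t
  have he : ∀ m, ConfMeas (e m) := fun m => (ConfMeas.const _).mul (confMeas_wgt hcT)
  have step : ∀ t : Multiset Pt, ENNReal.ofReal (Real.exp (lam * (Multiset.card t : ℝ)
      - en (pot h fun r => c * Tf r) t + a * (Multiset.card t : ℝ) ^ 2 / (2 * V)))
      ≤ ENNReal.ofReal (Real.exp (η * V / 2)) * ∑' m, e m t := by
    intro t
    rw [Real.exp_add, ENNReal.ofReal_mul (Real.exp_nonneg _)]
    refine (mul_le_mul_right (exp_sq_le_tsum hV0 ha hη _) _).trans (le_of_eq ?_)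
    rw [mul_left_comm, ← ENNReal.tsum_mul_left]
    congr 1
    refine tsum_congr fun m => ?_
    simp only [e, wgt]
    rw [← ENNReal.ofReal_mul (Real.exp_nonneg _), ← ENNReal.ofReal_mul (Real.exp_nonneg _),
      ← Real.exp_add, ← Real.exp_add]
    congr 2
    ring
  refine (GP_mono step).trans ?_
  rw [GP_const_mul _ (fun N => Measurable.tsum fun m => he m N), GP_tsum _ he]
  have hw : (fun p q : Pt => θ * pot h (fun r => 2 * Tf r) p q + (1 - θ) * pot h Tf p q)
      = pot h fun r => c * Tf r := by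
    funext p q
    simp only [pot, hc, hθ]
    field_simp
    ring
  have hterm : ∀ m : ℕ, GP (onCube 0 ℓ) (e m)
      ≤ ENNReal.ofReal (Real.exp (V * G)) * ENNReal.ofReal (Real.exp (-(m : ℝ))) := by
    intro m
    set x := lam + m * δ with hx
    simp only [e]
    rw [GP_const_mul _ (confMeas_wgt hcT)]
    have hpsi : 0 ≤ 8 * psi g (x + S / 2) := mul_nonneg (by norm_num) (psi_nonneg hS.adm.g_pos _)
    have hfin1 := hS.adm_two.GP_ne_top x hℓ0.le
    have hfin2 := hS.adm.GP_ne_top x hℓ0.le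
    have hlog := logZ_convex (ν := onCube 0 ℓ) hS.adm_two.measurable hS.adm.measurable hfin1 hfin2
      hθ0 hθ1
    rw [hw, show θ * x + (1 - θ) * x = x by ring] at hlog
    have hfin3 : GP (onCube 0 ℓ) (wgt x (pot h fun r => c * Tf r)) ≠ ⊤ := by
      refine ne_top_of_le_ne_top (hS.adm_two.GP_ne_top x hℓ0.le)
        (GP_mono fun t => wgt_mono le_rfl fun p _ q _ => ?_)
      have : c ≤ 2 := by rw [hc, div_le_iff₀ hM3]; linarith
      simp only [pot]
      linarith [mul_le_mul_of_nonneg_right this (hS.adm.prof.nonneg (dist p q))]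
    rw [GP_wgt_eq_exp hfin3, ← ENNReal.ofReal_mul (Real.exp_nonneg _),
      ← ENNReal.ofReal_mul (Real.exp_nonneg _), ← Real.exp_add, ← Real.exp_add]
    refine ENNReal.ofReal_le_ofReal (Real.exp_le_exp.2 ?_)
    have h1 : logZ (onCube 0 ℓ) x (pot h fun r => 2 * Tf r) ≤ (ℓ + 1) ^ 3 * (8 * psi g (x + S / 2)) :=
      (hS.adm_two.le_pressure x hℓ0).trans
        (mul_le_mul_of_nonneg_left (hS.adm_two.pressure_le_quad x) (by positivity))
    have h2 : logZ (onCube 0 ℓ) x (pot h Tf) ≤ (ℓ + 1) ^ 3 * pressure h Tf x :=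
      hS.adm.le_pressure x hℓ0
    have hrho : (ℓ + 1) ^ 3 = V * ((ℓ + 1) / ℓ) ^ 3 := by rw [hVdef]; field_simp
    have h3 : logZ (onCube 0 ℓ) x (pot h fun r => c * Tf r)
        ≤ V * (G + (1 - η) * (m * δ) ^ 2 / (2 * a)) := by
      refine le_trans ?_ (mul_le_mul_of_nonneg_left
        (show ((ℓ + 1) / ℓ) ^ 3 * (pressure h Tf x + θ * (8 * psi g (x + S / 2)))
            ≤ G + (1 - η) * (m * δ) ^ 2 / (2 * a) by
          have := hG x
          rw [hx, add_sub_cancel_left] at this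
          rw [hx]
          linarith) hV0.le)
      rw [← mul_assoc, ← hrho]
      refine hlog.trans ?_
      nlinarith [mul_le_mul_of_nonneg_left h1 hθ0,
        mul_le_mul_of_nonneg_left h2 (sub_nonneg.2 hθ1),
        mul_nonneg (mul_nonneg hθ0 (by positivity : (0 : ℝ) ≤ (ℓ + 1) ^ 3))
          (hS.adm.pressure_nonneg x)]
    have h4 : (m : ℝ) ≤ η * V * (m * δ) ^ 2 / (2 * a) := by
      have e1 : η * V * (m * δ) ^ 2 / (2 * a) = (V * η ^ 2) / 2 * (m : ℝ) ^ 2 := by
        rw [mul_pow, hδ2]; field_simp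
      rw [e1]
      have : (m : ℝ) ≤ (m : ℝ) ^ 2 := by exact_mod_cast Nat.le_self_pow two_ne_zero m
      nlinarith
    have e2 : V * (G + (1 - η) * (m * δ) ^ 2 / (2 * a))
        = V * G + V * (m * δ) ^ 2 / (2 * a) - η * V * (m * δ) ^ 2 / (2 * a) := by ring
    linarith
  refine (mul_le_mul_right ((ENNReal.tsum_le_tsum hterm).trans_eq ENNReal.tsum_mul_left) _).trans ?_
  refine (mul_le_mul_right (mul_le_mul_right tsum_exp_neg_nat _) _).trans (le_of_eq ?_)
  rw [← ENNReal.ofReal_mul (Real.exp_nonneg _), ← ENNReal.ofReal_mul (Real.exp_nonneg _),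
    ← Real.exp_add, ← Real.exp_add]
  congr 2
  ring

/-- The bound on the free energy of an arbitrary cube. -/
theorem Split.logZc_le (hS : Split h g S Tf Tr s) (lam : ℝ) {M : ℕ} (hM : 6 ≤ M) {a η G : ℝ}
    (ha : 0 < a) (hη : 0 < η) (hV : 2 ≤ (M * s) ^ 3 * η ^ 2)
    (hrow : ∀ (J : Finset Lbl) (k : Lbl),
      (∑ j ∈ J, Tr (dist (corner 0 (M * s) k) (corner 0 (M * s) j) - 4 * (M * s)))
        * (M * s) ^ 3 ≤ a)
    (hG : ∀ x, ((M * s + 1) / (M * s)) ^ 3 *
      (pressure h Tf x + 3 / ((M : ℝ) - 3) * (8 * psi g (x + S / 2)))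
        - (1 - η) * (x - lam) ^ 2 / (2 * a) ≤ G)
    {L : ℝ} (hL : 0 ≤ L) :
    logZc h (fun r => Tf r + Tr r) L lam
      ≤ (L / (M * s) + 2) ^ 3 * ((M * s) ^ 3 * (η / 2 + G) + 1) := by
  classical
  have hs0 : 0 < s := lt_of_lt_of_le one_pos hS.one_le
  have hM0 : (0 : ℝ) < M := by exact_mod_cast (show 0 < M by omega)
  have hh : 0 ≤ h := le_trans (by linarith [hS.adm.g_pos, hS.adm.prof.nonneg_S]) hS.adm.core_ge
  have hcT : Measurable (Function.uncurry (pot h fun r => (M : ℝ) / (M - 3) * Tf r)) :=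
    measurable_pot (hS.adm.prof.anti.measurable.const_mul _)
  have hcell := hS.cell_bound lam hM ha hη hV hG
  set ℓ := (M : ℝ) * s with hℓ
  have hℓ0 : 0 < ℓ := by positivity
  set V := ℓ ^ 3 with hVdef
  have hV0 : 0 < V := by positivity
  set c := (M : ℝ) / (M - 3) with hc
  set mu : ℤ := ⌈L / ℓ⌉ with hmu
  have hmu0 : 0 ≤ mu := Int.ceil_nonneg (by positivity)
  set J := box (-1) mu with hJ
  let f : Lbl → Multiset Pt → ℝ≥0∞ := fun _ t => ENNReal.ofReal (Real.exp
    (lam * (Multiset.card t : ℝ) - en (pot h fun r => c * Tf r) t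
      + a * (Multiset.card t : ℝ) ^ 2 / (2 * V)))
  have hf : ∀ j ∈ J, ConfMeas (f j) := fun j _ N => by
    have h1 : (fun x : Fin N → Pt => f j (conf x)) = fun x : Fin N → Pt =>
        wgt lam (pot h fun r => c * Tf r) (conf x)
          * ENNReal.ofReal (Real.exp (a * (N : ℝ) ^ 2 / (2 * V))) := by
      funext x
      simp only [f, wgt, card_conf, Fintype.card_fin]
      rw [← ENNReal.ofReal_mul (Real.exp_nonneg _), ← Real.exp_add]
    rw [h1]
    exact ((confMeas_wgt hcT) N).mul_const _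
  have hmemJ : ∀ j ∈ range M, ∀ x ∈ cubeAt (0 : Pt) L, idx ((j : ℝ) * s) ℓ x ∈ J := by
    intro j hj x hx
    refine mem_box.2 fun i => ?_
    have h1 := hx i
    simp only [PiLp.zero_apply, zero_add] at h1
    have hjℓ : (j : ℝ) * s ≤ ℓ := by
      have : (j : ℝ) ≤ M := by exact_mod_cast (mem_range.1 hj).le
      rw [hℓ]; exact mul_le_mul_of_nonneg_right this hs0.le
    refine ⟨Int.le_floor.2 ?_, Int.floor_lt.2 ?_⟩
    · rw [le_div_iff₀ hℓ0]; push_cast; linarith [h1.1]
    · refine lt_of_lt_of_le ?_ (Int.le_ceil _)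
      gcongr
      have : 0 ≤ (j : ℝ) * s := by positivity
      linarith [h1.2]
  have key : ∀ t : Multiset Pt, (∀ p ∈ t, p ∈ cubeAt (0 : Pt) L) →
      wgt lam (pot h fun r => Tf r + Tr r) t ≤
        ∑ j ∈ range M, ENNReal.ofReal (1 / (M : ℝ)) * cellProd J (cell ((j : ℝ) * s) ℓ) f t := by
    intro t ht
    simp only [cellProd, f, wgt]
    simp only [← ENNReal.ofReal_prod_of_nonneg (fun j _ => Real.exp_nonneg _),
      ← ENNReal.ofReal_mul (by positivity : (0 : ℝ) ≤ 1 / M), ← Real.exp_sum]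
    rw [← ENNReal.ofReal_sum_of_nonneg fun j _ => by positivity]
    refine ENNReal.ofReal_le_ofReal (le_trans (Real.exp_le_exp.2 ?_) (exp_avg_le (by omega) _))
    let w : ℕ → Pt → Pt → ℝ := fun j p q =>
      if idx ((j : ℝ) * s) ℓ p = idx ((j : ℝ) * s) ℓ q then pot h (fun r => c * Tf r) p q else 0
    have h1 : (∑ j ∈ range M, en (w j) t) / M - en (fun p q => Tr (dist p q)) t
        ≤ en (pot h fun r => Tf r + Tr r) t := by
      rw [← en_sum, div_eq_inv_mul, ← en_smul, ← en_sub]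
      refine en_mono fun p _ q _ => ?_
      have := avg_cells_le_pot hh hS.adm.prof.nonneg hS.one_le hS.vanish hM p q
      rw [← div_eq_inv_mul]
      simp only [w, pot] at this ⊢
      linarith
    have hper : ∀ j ∈ range M,
        lam * (Multiset.card t : ℝ) - en (w j) t + en (fun p q => Tr (dist p q)) t ≤
          ∑ k ∈ J, (lam * (Multiset.card (part (cell ((j : ℝ) * s) ℓ k) t) : ℝ)
            - en (pot h fun r => c * Tf r) (part (cell ((j : ℝ) * s) ℓ k) t)
            + a * (Multiset.card (part (cell ((j : ℝ) * s) ℓ k) t) : ℝ) ^ 2 / (2 * V)) := by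
      intro j hj
      simp only [← count.eq_def]
      have hdis : ∀ k ∈ J, ∀ k' ∈ J, k ≠ k' →
          Disjoint (cell ((j : ℝ) * s) ℓ k) (cell ((j : ℝ) * s) ℓ k') :=
        fun k _ k' _ hk => disjoint_cell hℓ0 hk
      have htJ : ∀ p ∈ t, ∃ k ∈ J, p ∈ cell ((j : ℝ) * s) ℓ k :=
        fun p hp => ⟨_, hmemJ j hj p (ht p hp), (mem_cell_iff_idx hℓ0).2 rfl⟩
      have hidx : ∀ k, ∀ p ∈ cell ((j : ℝ) * s) ℓ k, idx ((j : ℝ) * s) ℓ p = k :=
        fun k p hp => (mem_cell_iff_idx hℓ0).1 hp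
      rw [sum_add_distrib, sum_sub_distrib, ← mul_sum, sum_count J hdis t htJ,
        ← en_block J hdis htJ (w := pot h fun r => c * Tf r) (w' := w j)
          (fun k _ p hp q hq => if_pos (by rw [hidx k p hp, hidx k q hq]))
          (fun k _ k' _ hk p hp q hq => if_neg (by rw [hidx k p hp, hidx k' q hq]; exact hk))]
      have hTr : en (fun p q => Tr (dist p q)) t
          ≤ ∑ k ∈ J, a * count (cell ((j : ℝ) * s) ℓ k) t ^ 2 / (2 * V) := by
        refine (en_le_half_bil (w := fun p q : Pt => Tr (dist p q)) fun p _ => hS.nonneg _).trans ?_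
        refine (div_le_div_of_nonneg_right (bil_mono (w' := fun p q =>
          Tr (dist (corner 0 ℓ (idx ((j : ℝ) * s) ℓ p)) (corner 0 ℓ (idx ((j : ℝ) * s) ℓ q))
            - 4 * ℓ)) fun p _ q _ => profile_le hS.anti hℓ0.le
              ((mem_cell_iff_idx hℓ0).2 rfl) ((mem_cell_iff_idx hℓ0).2 rfl)) zero_le_two).trans ?_
        rw [bil_cellwise J hdis htJ _ (fun k k' => Tr (dist (corner 0 ℓ k) (corner 0 ℓ k') - 4 * ℓ))
          fun k _ k' _ p hp q hq => by simp only [hidx k p hp, hidx k' q hq]]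
        rw [← sum_div, ← mul_sum, div_le_div_iff₀ two_pos (by positivity)]
        have hq := quad_le_of_row J
          (fun k k' => Tr (dist (corner 0 ℓ k) (corner 0 ℓ k') - 4 * ℓ))
          (fun k => count (cell ((j : ℝ) * s) ℓ k) t) (fun k _ k' _ => hS.nonneg _)
          (fun k _ k' _ => by rw [dist_comm]) (a := a / V)
          fun k _ => by rw [le_div_iff₀ hV0]; exact hrow J k
        rw [div_mul_eq_mul_div, le_div_iff₀ hV0] at hq
        linarith
      linarith
    have h2 := sum_le_sum hper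
    rw [sum_add_distrib, sum_sub_distrib, sum_const, sum_const, card_range, nsmul_eq_mul,
      nsmul_eq_mul] at h2
    rw [le_div_iff₀ hM0]
    rw [sub_le_iff_le_add, div_le_iff₀ hM0] at h1
    linarith
  refine logZ_le_of_GP_le ?_
  refine (GP_mono_ae (ae_mem_onCube 0 L) key).trans ?_
  have hcm : ∀ j ∈ range M, ConfMeas (cellProd J (cell ((j : ℝ) * s) ℓ) f) :=
    fun j _ => confMeas_cellProd J (fun k _ => measurableSet_cell _ _ _) hf
  rw [GP_finset_sum _ _ fun j hj => (ConfMeas.const _).mul (hcm j hj)]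
  have hG0 : 0 ≤ G := by
    have h1 := hG lam
    simp only [sub_self, ne_eq, OfNat.ofNat_ne_zero, not_false_eq_true, zero_pow, mul_zero,
      zero_div, sub_zero] at h1
    refine le_trans (mul_nonneg (by positivity) (add_nonneg (hS.adm.pressure_nonneg _)
      (mul_nonneg (div_nonneg (by norm_num) ?_) (mul_nonneg (by norm_num)
        (psi_nonneg hS.adm.g_pos _))))) h1
    have : (6 : ℝ) ≤ M := by exact_mod_cast hM
    linarith
  have hX : 0 ≤ V * (η / 2 + G) + 1 := by positivity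
  calc ∑ j ∈ range M, GP (onCube 0 L)
        (fun t => ENNReal.ofReal (1 / (M : ℝ)) * cellProd J (cell ((j : ℝ) * s) ℓ) f t)
      ≤ ∑ _j ∈ range M, ENNReal.ofReal (1 / (M : ℝ)) *
          ENNReal.ofReal (Real.exp ((L / ℓ + 2) ^ 3 * (V * (η / 2 + G) + 1))) := by
        refine sum_le_sum fun j hj => ?_
        rw [GP_const_mul _ (hcm j hj)]
        refine mul_le_mul_right ?_ _
        have hdis : ∀ k ∈ J, ∀ k' ∈ J, k ≠ k' →
            Disjoint (cell ((j : ℝ) * s) ℓ k) (cell ((j : ℝ) * s) ℓ k') :=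
          fun k _ k' _ hk => disjoint_cell hℓ0 hk
        have hcov : cubeAt (0 : Pt) L ⊆ ⋃ k ∈ J, cell ((j : ℝ) * s) ℓ k := fun x hx =>
          Set.mem_iUnion₂.2 ⟨_, hmemJ j hj x hx, (mem_cell_iff_idx hℓ0).2 rfl⟩
        have hfin : volume (⋃ k ∈ J, cell ((j : ℝ) * s) ℓ k) ≠ ⊤ := by
          rw [measure_biUnion_finset (fun k _ k' _ hk => disjoint_cell hℓ0 hk)
            (fun k _ => measurableSet_cell _ _ _)]
          refine ENNReal.sum_ne_top.2 fun k _ => ?_
          rw [cell, volume_cubeAt _ hℓ0.le]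
          exact ENNReal.ofReal_ne_top
        refine (GP_restrict_mono hcov hfin _).trans ?_
        rw [show (⋃ k ∈ J, cell ((j : ℝ) * s) ℓ k) = ⋃ k ∈ J, cubeAt (corner ((j : ℝ) * s) ℓ k) ℓ
            from rfl,
          ← sum_onCube J (o := fun k => corner ((j : ℝ) * s) ℓ k) hdis,
          GP_cellProd J (fun k _ => measurableSet_cell _ _ _) hdis
            (fun k => onCube (corner ((j : ℝ) * s) ℓ k) ℓ) (fun k _ => ae_mem_onCube _ _) hf]
        calc ∏ k ∈ J, GP (onCube (corner ((j : ℝ) * s) ℓ k) ℓ) (f k)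
            ≤ ∏ _k ∈ J, ENNReal.ofReal (Real.exp (V * (η / 2 + G) + 1)) := by
              refine prod_le_prod' fun k _ => le_trans (le_of_eq ?_) hcell
              rw [GP_translate]
              congr 1
              funext t
              simp only [f, en, bil, Multiset.card_map, Multiset.map_map, Function.comp_def,
                pot_translate]
          _ ≤ _ := by
              rw [prod_const, ← ENNReal.ofReal_pow (Real.exp_nonneg _), ← Real.exp_nat_mul]
              refine ENNReal.ofReal_le_ofReal (Real.exp_le_exp.2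
                (mul_le_mul_of_nonneg_right ?_ hX))
              rw [hJ, card_box (by linarith)]
              push_cast
              refine pow_le_pow_left₀ ?_ ?_ 3
              · have : (0 : ℝ) ≤ mu := by exact_mod_cast hmu0
                linarith
              · linarith [Int.ceil_lt_add_one (L / ℓ)]
    _ = _ := by
        rw [← sum_mul, ← ENNReal.ofReal_sum_of_nonneg fun j _ => by positivity, sum_const,
          card_range, nsmul_eq_mul, mul_one_div_cancel hM0.ne', ENNReal.ofReal_one, one_mul]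

/-- The corresponding bound on the pressure. -/
theorem Split.pressure_le (hS : Split h g S Tf Tr s) (hA : Adm h g S fun r => Tf r + Tr r)
    (lam : ℝ) {M : ℕ} (hM : 6 ≤ M) {a η G : ℝ}
    (ha : 0 < a) (hη : 0 < η) (hV : 2 ≤ (M * s) ^ 3 * η ^ 2)
    (hrow : ∀ (J : Finset Lbl) (k : Lbl),
      (∑ j ∈ J, Tr (dist (corner 0 (M * s) k) (corner 0 (M * s) j) - 4 * (M * s)))
        * (M * s) ^ 3 ≤ a)
    (hG : ∀ x, ((M * s + 1) / (M * s)) ^ 3 *
      (pressure h Tf x + 3 / ((M : ℝ) - 3) * (8 * psi g (x + S / 2)))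
        - (1 - η) * (x - lam) ^ 2 / (2 * a) ≤ G) :
    pressure h (fun r => Tf r + Tr r) lam ≤ η / 2 + G + 1 / (M * s) ^ 3 := by
  set ℓ := (M : ℝ) * s with hℓ
  have hℓ0 : 0 < ℓ := by
    have := hS.one_le
    have : (0 : ℝ) < M := by exact_mod_cast (show 0 < M by omega)
    positivity
  refine hA.pressure_le_of_eventually lam fun δ hδ => ?_
  set K := ℓ ^ 3 * (η / 2 + G) + 1 with hK
  have ht : Tendsto (fun L : ℝ => (1 / ℓ + 2 / L) ^ 3 * K) atTop (𝓝 ((1 / ℓ + 0) ^ 3 * K)) :=
    ((tendsto_const_nhds.add (tendsto_id.const_div_atTop 2)).pow 3).mul_const K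
  have hlim : (1 / ℓ + 0) ^ 3 * K = η / 2 + G + 1 / ℓ ^ 3 := by rw [hK]; field_simp; ring
  rw [hlim] at ht
  filter_upwards [ht.eventually (eventually_le_nhds (lt_add_of_pos_right _ hδ)),
    eventually_gt_atTop 0] with L h1 hL
  refine le_trans ?_ h1
  rw [div_le_iff₀ (by positivity)]
  refine (hS.logZc_le lam hM ha hη hV hrow hG hL.le).trans (le_of_eq ?_)
  rw [← hℓ, hK]
  field_simp

end Vale.Agent.P171
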